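import Vale.Agent.P101.Ultra

/-! Polar correction and one-sided approximate intertwining. -/

namespace Vale.Agent.P101

open Filter Topology TopologicalSpace

universe u

variable {A T : Type u} [CStarAlgebra A] [CStarAlgebra T]

theorem polar {x : T} {ε : ℝ} (hε : ε ≤ 1 / 2) (h1 : ‖star x * x - 1‖ < ε) (h2 : ‖x * star x - 1‖ < ε) :
    ∃ w : unitary T, ‖w - x‖ ≤ ε := by
  have ε0 : 0 ≤ ε := (norm_nonneg _).trans h1.le
  have hs : IsSelfAdjoint (star x * x) := IsSelfAdjoint.star_mul_self x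
  have hsp : ∀ t ∈ spectrum ℝ (star x * x), |t - 1| < ε := fun t ht => by
    rcases subsingleton_or_nontrivial T with _ | _
    · simp at ht
    refine lt_of_le_of_lt ?_ h1
    refine spectrum.norm_le_norm_of_mem (𝕜 := ℝ) ?_
    rw [spectrum.mem_iff] at ht ⊢
    simpa using ht
  have hp : ∀ t : ℝ, 0 < √(max t (1 / 4)) := fun t =>
    Real.sqrt_pos.2 (lt_max_of_lt_right (by norm_num))
  let g : C(ℝ, ℝ) := ⟨fun t => (√(max t (1 / 4)))⁻¹, Continuous.inv₀ (by fun_prop) fun t => (hp t).ne'⟩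
  have hg : ∀ t ∈ spectrum ℝ (star x * x), 0 < √t ∧ √t * √t = t ∧ g t = (√t)⁻¹ := fun t ht => by
    have := abs_lt.1 (hsp t ht)
    refine ⟨Real.sqrt_pos.2 (by linarith), Real.mul_self_sqrt (by linarith), ?_⟩
    change (√(max t (1 / 4)))⁻¹ = _
    rw [max_eq_left (by linarith)]
  let r := fc _ hs g
  have key : ∀ f : C(ℝ, ℝ), star (x * fc _ hs f) * (x * fc _ hs f) = fc _ hs (f * X * f) := fun f => by
    rw [star_mul, fc_star, map_mul, map_mul, fc_X]; simp only [mul_assoc]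
  have e1 : star (x * r) * (x * r) = 1 := by
    rw [key, ← map_one (fc _ hs)]
    refine fc_congr hs fun t ht => ?_
    obtain ⟨a, b, c⟩ := hg t ht
    change g t * t * g t = 1
    rw [c]; nth_rewrite 2 [← b]; field_simp
  have ux : IsUnit x := by
    obtain ⟨v, hv⟩ := isUnit_of_norm_lt (y := x * star x) (by rw [norm_sub_rev]; linarith)
    obtain ⟨v', hv'⟩ := isUnit_of_norm_lt (y := star x * x) (by rw [norm_sub_rev]; linarith)
    have a : x * (star x * ↑v⁻¹) = 1 := by rw [← mul_assoc, ← hv]; simp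
    have b : (↑v'⁻¹ * star x) * x = 1 := by rw [mul_assoc, ← hv']; simp
    exact ⟨⟨x, _, a, by rw [← left_inv_eq_right_inv b a, b]⟩, rfl⟩
  have ur : IsUnit r := by
    have a : r * (fc _ hs (X * g)) = 1 := by rw [← e1, key, mul_assoc, map_mul _ g]
    have b : (fc _ hs (X * g)) * r = 1 := by rw [← a, ← map_mul, ← map_mul, mul_comm]
    exact ⟨⟨r, _, a, b⟩, rfl⟩
  refine ⟨⟨x * r, e1, ?_⟩, ?_⟩
  · obtain ⟨v, hv⟩ := ux.mul ur
    rw [← hv] at e1 ⊢
    rw [left_inv_eq_right_inv e1 v.mul_inv, v.mul_inv]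
  · have : x * r - x = x * fc _ hs (g - 1) := by rw [map_sub, map_one, mul_sub, mul_one]
    change ‖x * r - x‖ ≤ ε
    rw [this]
    refine le_of_mul_self_le ?_ ε0
    rw [← CStarRing.norm_star_mul_self, key]
    refine fc_norm_le hs (by positivity) fun t ht => ?_
    obtain ⟨a, b, c⟩ := hg t ht
    change |(g t - 1) * t * (g t - 1)| ≤ _
    have e : (g t - 1) * t * (g t - 1) = (1 - √t) * (1 - √t) := by
      rw [c]; nth_rewrite 2 [← b]; field_simp
    have h3 := abs_lt.1 (hsp t ht)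
    have h4 : |1 - √t| ≤ ε := abs_le.2 ⟨by nlinarith, by nlinarith⟩
    rw [e, abs_mul]
    exact mul_le_mul h4 h4 (abs_nonneg _) ε0

theorem limit_hom (ψ : ℕ → A →⋆ₐ[ℂ] T) {s : Set A} (hs : Dense s)
    (h : ∀ a ∈ s, CauchySeq fun n => ψ n a) :
    ∃ θ : A →⋆ₐ[ℂ] T, ∀ a, Tendsto (fun n => ψ n a) atTop (𝓝 (θ a)) := by
  have hc : ∀ a, CauchySeq fun n => ψ n a := fun a => Metric.cauchySeq_iff'.2 fun ε hε => by
    obtain ⟨b, hb, hd⟩ := Metric.mem_closure_iff.1 (hs a) (ε / 3) (by positivity)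
    obtain ⟨N, hN⟩ := Metric.cauchySeq_iff'.1 (h b hb) (ε / 3) (by positivity)
    refine ⟨N, fun n hn => ?_⟩
    have h1 : ∀ n, dist (ψ n a) (ψ n b) ≤ dist a b := fun n => by
      rw [dist_eq_norm, dist_eq_norm, ← map_sub]; exact NonUnitalStarAlgHom.norm_apply_le _ _
    have := dist_triangle4 (ψ n a) (ψ n b) (ψ N b) (ψ N a)
    rw [dist_comm (ψ N b)] at this
    linarith [h1 n, h1 N, hN n hn]
  choose θ hθ using fun a => cauchySeq_tendsto_of_complete (hc a)
  exact ⟨{ toFun := θ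
           map_one' := tendsto_nhds_unique (hθ 1) (by simp)
           map_mul' := fun x y => tendsto_nhds_unique (hθ _)
             (by simpa only [map_mul] using (hθ x).mul (hθ y))
           map_zero' := tendsto_nhds_unique (hθ 0) (by simp)
           map_add' := fun x y => tendsto_nhds_unique (hθ _)
             (by simpa only [map_add] using (hθ x).add (hθ y))
           commutes' := fun c => tendsto_nhds_unique (hθ _) (by simp [AlgHomClass.commutes])
           map_star' := fun x => tendsto_nhds_unique (hθ _)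
             (by simpa only [map_star] using (hθ x).star) }, hθ⟩

theorem intertwine [SeparableSpace A] [SeparableSpace T] (φ : A →⋆ₐ[ℂ] T)
    (hφ : Function.Injective φ) (h : ∀ (s : Finset A) (t : Finset T) (ε : ℝ), 0 < ε →
      ∃ w : unitary T, (∀ a ∈ s, ‖w * φ a - φ a * w‖ < ε) ∧
        ∀ b ∈ t, ∃ a, ‖w * b * star (w : T) - φ a‖ < ε) : Nonempty (A ≃⋆ₐ[ℂ] T) := by
  classical
  obtain ⟨ψ, hψ⟩ : ∃ ψ : unitary T → A →⋆ₐ[ℂ] T, ∀ W x, ψ W x = star (W : T) * φ x * W :=
    ⟨fun W => (Unitary.conjStarAlgAut ℂ T (star W) : T →⋆ₐ[ℂ] T).comp φ, fun W x => by simp⟩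
  have nm : ∀ (W : unitary T) y, ‖star (W : T) * y * W‖ = ‖y‖ := fun W y => by
    rw [CStarRing.norm_mul_coe_unitary, ← Unitary.coe_star, CStarRing.norm_coe_unitary_mul]
  have step : ∀ (n : ℕ) (p : unitary T × Finset A), ∃ p' : unitary T × Finset A, p.2 ⊆ p'.2 ∧
      denseSeq A n ∈ p'.2 ∧ (∀ x ∈ p.2, dist (ψ p.1 x) (ψ p'.1 x) ≤ 1 / 2 / 2 ^ n) ∧
      ∀ j ≤ n, ∃ x ∈ p'.2, dist (denseSeq T j) (ψ p'.1 x) ≤ 1 / 2 / 2 ^ n := by
    rintro n ⟨W, s⟩
    obtain ⟨w, h1, h2⟩ := h s ((Finset.range (n + 1)).image fun j => W * denseSeq T j * star (W : T))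
      (1 / 2 / 2 ^ n) (by positivity)
    choose! a ha using fun j (hj : j ≤ n) => h2 _ (Finset.mem_image_of_mem _
      (Finset.mem_range.2 (Nat.lt_succ_of_le hj)))
    refine ⟨(w * W, insert (denseSeq A n) (s ∪ (Finset.range (n + 1)).image a)),
      fun x hx => by simp [hx], by simp, fun x hx => ?_, fun j hj => ⟨a j, ?_, ?_⟩⟩
    · refine le_trans (le_of_eq ?_) (h1 x hx).le
      have e : ψ W x - ψ (w * W) x = star (W : T) * (star (w : T) * (w * φ x - φ x * w)) * W := by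
        simp [hψ, mul_sub, sub_mul, mul_assoc, ← mul_assoc (star (w : T)) w]
      rw [dist_eq_norm, e, nm, ← Unitary.coe_star, CStarRing.norm_coe_unitary_mul]
    · exact Finset.mem_insert_of_mem (Finset.mem_union_right _ (Finset.mem_image_of_mem _
        (Finset.mem_range.2 (Nat.lt_succ_of_le hj))))
    · refine le_trans (le_of_eq ?_) (ha j hj).le
      have e : denseSeq T j - ψ (w * W) (a j) = star ((w * W : unitary T) : T) *
          (w * (W * denseSeq T j * star (W : T)) * star (w : T) - φ (a j)) * (w * W : unitary T) := by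
        simp [hψ, mul_sub, sub_mul, mul_assoc, ← mul_assoc (star (w : T)) w,
          ← mul_assoc (star (W : T)) W]
      rw [dist_eq_norm, e, nm]
  choose f hf using step
  obtain ⟨P, hP⟩ : ∃ P : ℕ → unitary T × Finset A, ∀ n, f n (P n) = P (n + 1) :=
    ⟨fun n => Nat.rec (1, ∅) f n, fun _ => rfl⟩
  have hf' := fun n => hf n (P n)
  simp only [hP, forall_and] at hf'
  obtain ⟨f1, f2, f3, f4⟩ := hf'
  have mono : Monotone fun n => (P n).2 := monotone_nat_of_le_succ f1
  have geo : ∀ m, ∀ x ∈ (P m).2, ∀ n, dist (ψ (P (n + m)).1 x) (ψ (P (n + 1 + m)).1 x)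
      ≤ (1 / 2 ^ m) / 2 / 2 ^ n := fun m x hx n => by
    rw [Nat.add_right_comm]
    refine (f3 (n + m) x (mono (Nat.le_add_left m n) hx)).trans (le_of_eq ?_)
    rw [pow_add]; field_simp
  obtain ⟨θ, hθ⟩ := limit_hom (fun n => ψ (P n).1) (denseRange_denseSeq A) (by
    rintro _ ⟨i, rfl⟩
    exact (cauchySeq_shift (i + 1)).1 (cauchySeq_of_le_geometric_two (geo _ _ (f2 i))))
  refine ⟨StarAlgEquiv.ofBijective θ ⟨(injective_iff_map_eq_zero _).2 fun a ha => ?_, fun b => ?_⟩⟩
  · have := (hθ a).norm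
    simp only [hψ, nm, ha, norm_zero, tendsto_const_nhds_iff, norm_eq_zero] at this
    exact hφ (by rw [this, map_zero])
  · refine (denseRange_denseSeq T).induction_on b (closed_range θ) fun j => ?_
    refine (closed_range θ).closure_subset (Metric.mem_closure_iff.2 fun ε hε => ?_)
    obtain ⟨n, hn, hn'⟩ := ((eventually_ge_atTop j).and
      ((tendsto_pow_atTop_nhds_zero_of_lt_one (r := (1 / 2 : ℝ)) (by norm_num)
        (by norm_num)).eventually (gt_mem_nhds hε))).exists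
    obtain ⟨x, hx, hd⟩ := f4 n j hn
    have h1 := dist_le_of_le_geometric_two_of_tendsto₀ (geo (n + 1) x hx)
      ((tendsto_add_atTop_iff_nat (n + 1)).2 (hθ x))
    refine ⟨_, ⟨x, rfl⟩, (dist_triangle _ _ _).trans_lt ((add_le_add hd (by
      simpa only [zero_add] using h1)).trans_lt (lt_of_eq_of_lt ?_ hn'))⟩
    rw [pow_succ, one_div_pow]; field_simp; norm_num

end Vale.Agent.P101
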