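import Vale.Agent.P101.DD

/-! Uniqueness of the C*-norm on the tensor product of a simple algebra and a dimension drop
algebra. -/

namespace Vale.Agent.P101

universe u

theorem fc_fib {C Q : Type*} [CStarAlgebra C] [CStarAlgebra Q] {τ : C} (hτ : IsSelfAdjoint τ)
    (π : C →⋆ₐ[ℂ] Q) {t : ℝ} (e : π τ = algebraMap ℝ Q t) (f : C(ℝ, ℝ)) :
    π (fc τ hτ f) = algebraMap ℝ Q (f t) := by
  rw [map_fc]
  change cfc f (π τ) = _
  rw [e, cfc_algebraMap]

theorem full_of_gen {Z Q : Type u} [CStarAlgebra Z] [CStarAlgebra Q] [IsSimpleRing Z] {ι : Type}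
    [Fintype ι] [DecidableEq ι] (β : Z →⋆ₐ[ℂ] Q) (σ : Matrix ι ι ℂ →⋆ₐ[ℂ] Q)
    (hc : ∀ z y, Commute (β z) (σ y))
    (hg : ∀ S : StarSubalgebra ℂ Q, IsClosed (S : Set Q) → (∀ z, β z ∈ S) → (∀ y, σ y ∈ S) →
      ∀ x, x ∈ S) {x : Q} (hx : x ≠ 0) : Full x := by
  let e : ι → ι → Q := fun i j => σ (Matrix.single i j 1)
  have em : ∀ i j k l, e i j * e k l = if j = k then e i l else 0 := fun i j k l => by
    simp only [e, ← map_mul]
    split_ifs with h
    · subst h; rw [Matrix.single_mul_single_same, mul_one]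
    · rw [Matrix.single_mul_single_of_ne _ _ _ _ h, map_zero]
  have em' : ∀ i j k l y, e i j * (e k l * y) = if j = k then e i l * y else 0 := fun i j k l y => by
    rw [← mul_assoc, em]; split_ifs <;> simp
  have es : ∑ i, e i i = 1 := by rw [← map_sum, Matrix.sum_single_one, map_one]
  have est : ∀ i j, star (e i j) = e j i := fun i j => by
    simp only [e, ← map_star, Matrix.star_eq_conjTranspose, Matrix.conjTranspose_single, star_one]
  let co : Q → ι → ι → Q := fun x i j => ∑ k, e k i * x * e j k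
  have c0 : ∀ i j z, co (β z) i j ∈ β.range := fun i j z => by
    have : co (β z) i j = if i = j then β z else 0 := by
      have : ∀ k, e k i * β z * e j k = β z * (e k i * e j k) := fun k => by
        rw [← mul_assoc, (hc z _).eq]
      simp only [co, this, ← Finset.mul_sum, em]
      split_ifs <;> simp [es]
    rw [this]
    split_ifs
    exacts [⟨z, rfl⟩, zero_mem _]
  let S : StarSubalgebra ℂ Q :=
    { carrier := {x | ∀ i j, co x i j ∈ β.range}
      mul_mem' := fun {x y} hx hy i j => by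
        have : co (x * y) i j = ∑ l, co x i l * co y l j := by
          simp only [co, Finset.sum_mul, Finset.mul_sum, mul_assoc, em', mul_ite, mul_zero,
            Finset.sum_ite_eq', Finset.mem_univ, if_true]
          rw [Finset.sum_comm]
          simp only [← Finset.mul_sum, ← Finset.sum_mul, es, one_mul]
        rw [this]
        exact sum_mem fun l _ => mul_mem (hx i l) (hy l j)
      add_mem' := fun {x y} hx hy i j => by
        simpa only [co, mul_add, add_mul, Finset.sum_add_distrib] using add_mem (hx i j) (hy i j)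
      algebraMap_mem' := fun c i j => by
        have := c0 i j (algebraMap ℂ Z c)
        rwa [AlgHomClass.commutes] at this
      star_mem' := fun {x} hx i j => by
        simpa only [co, star_sum, star_mul, est, mul_assoc] using star_mem (hx j i) }
  have hS : IsClosed (S : Set Q) := by
    have : (S : Set Q) = ⋂ i, ⋂ j, (fun x => co x i j) ⁻¹' Set.range β := by
      ext x; simp only [Set.mem_iInter]; rfl
    rw [this]
    exact isClosed_iInter fun i => isClosed_iInter fun j => (closed_range β).preimage (by fun_prop)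
  have hall := hg S hS (fun z i j => c0 i j z) (fun y i j => by
    have : co (σ y) i j = y i j • 1 := by
      simp only [co, e, ← map_mul, Matrix.single_mul_mul_single, one_mul, mul_one]
      rw [← es, Finset.smul_sum]
      simp only [e, ← map_smul, Matrix.smul_single, smul_eq_mul, mul_one]
    rw [this]
    exact SMulMemClass.smul_mem _ (one_mem _)) x
  have hr : x = ∑ i, ∑ j, co x i j * e i j := by
    simp only [co, Finset.sum_mul, mul_assoc, em, mul_ite, mul_zero, Finset.sum_ite_eq',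
      Finset.mem_univ, if_true]
    simp only [← Finset.mul_sum, ← Finset.sum_mul, es, one_mul, mul_one]
  by_contra hne
  refine hx (hr.trans (Finset.sum_eq_zero fun i _ => Finset.sum_eq_zero fun j _ => ?_))
  obtain ⟨z, hz⟩ := hall i j
  by_cases h0 : z = 0
  · rw [← hz, h0]; simp
  · refine (hne fun I hI => (full_of_ne h0).map β I ?_).elim
    change β z = _ at hz
    rw [hz]
    exact sum_mem fun k _ => I.mul_mem_right _ _ (I.mul_mem_left _ _ hI)

section dd
open scoped Matrix.Norms.L2Operator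
variable {p q : ℕ}

theorem dd_closed [NeZero p] [NeZero q] : IsClosed (DimDrop p q : Set C(unitInterval, Mat p q)) := by
  have : (DimDrop p q : Set C(unitInterval, Mat p q)) =
      (fun f => f 0) ⁻¹' Set.range (amp (Equiv.refl (Fin p × Fin q))) ∩
      (fun f => f 1) ⁻¹' Set.range (amp (Equiv.prodComm (Fin p) (Fin q))) := by
    ext f
    simp only [Set.mem_inter_iff, Set.mem_preimage, Set.mem_range, ← tens_left, ← tens_right,
      eq_comm (b := f _)]
    rfl
  rw [this]
  exact ((closed_range _).preimage (by fun_prop)).inter ((closed_range _).preimage (by fun_prop))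

noncomputable instance ddC [NeZero p] [NeZero q] : CStarAlgebra (DimDrop p q) :=
  haveI := dd_closed (p := p) (q := q)
  StarSubalgebra.cstarAlgebra (DimDrop p q)

/-- scalar functions times a matrix -/
noncomputable def sc (g : C(unitInterval, ℝ)) (x : Mat p q) : C(unitInterval, Mat p q) :=
  ⟨fun t => g t • x, by fun_prop⟩

theorem tens_zero : (∃ b, (0 : Mat p q) = tens b 1) ∧ ∃ a, (0 : Mat p q) = tens 1 a :=
  (zero_mem (DimDrop p q) :)

/-- the canonical central element -/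
noncomputable def tau (p q : ℕ) : DimDrop p q := ⟨sc ⟨Subtype.val, continuous_subtype_val⟩ 1,
  ⟨0, by simp [sc, tens]⟩, 1, by simp [sc, tens]⟩

theorem tau_sa : IsSelfAdjoint (tau p q) := by
  refine Subtype.ext (ContinuousMap.ext fun t => ?_)
  change star ((t : ℝ) • (1 : Mat p q)) = ((t : ℝ) • (1 : Mat p q))
  simp

theorem tau_comm (f : DimDrop p q) : Commute (tau p q) f := by
  refine Subtype.ext (ContinuousMap.ext fun t => ?_)
  change ((t : ℝ) • (1 : Mat p q)) * f.1 t = f.1 t * ((t : ℝ) • (1 : Mat p q))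
  simp

theorem ev_tau (t : unitInterval) : evD p q t (tau p q) = algebraMap ℝ _ (t : ℝ) :=
  (Algebra.algebraMap_eq_smul_one (A := Mat p q) (t : ℝ)).symm

variable [NeZero p] [NeZero q] {Q : Type u} [CStarAlgebra Q]

theorem dd_kill (ρ : DimDrop p q →⋆ₐ[ℂ] Q) {t : ℝ} (e : ρ (tau p q) = algebraMap ℝ Q t)
    {f : DimDrop p q} (hf : ∀ ε > 0, ∃ δ > 0, ∀ s : unitInterval, |s - t| < δ → ‖f.1 s‖ ≤ ε) :
    ρ f = 0 := by
  rw [← norm_le_zero_iff]
  refine le_of_forall_pos_le_add fun ε hε => ?_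
  obtain ⟨δ, hδ, h⟩ := hf ε hε
  let g : C(ℝ, ℝ) := ⟨fun s => max 0 (1 - |s - t| / δ), by fun_prop⟩
  have h1 : ρ (fc _ tau_sa g * f) = ρ f := by
    rw [map_mul, fc_fib tau_sa ρ e]; simp [g]
  rw [← h1, zero_add]
  refine (NonUnitalStarAlgHom.norm_apply_le ρ _).trans ?_
  refine (ContinuousMap.norm_le _ hε.le).2 fun s => ?_
  change ‖evD p q s (fc _ tau_sa g * f)‖ ≤ ε
  rw [map_mul, fc_fib tau_sa _ (ev_tau s), ← Algebra.smul_def, norm_smul]
  change |max 0 (1 - |s - t| / δ)| * ‖f.1 s‖ ≤ ε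
  by_cases hs : |s - t| < δ
  · rw [abs_of_nonneg (le_max_left _ _)]
    exact (mul_le_of_le_one_left (norm_nonneg _) (max_le zero_le_one
      (sub_le_self _ (by positivity)))).trans (h s hs)
  · rw [max_eq_left (by rw [sub_nonpos, one_le_div hδ]; exact not_lt.1 hs)]
    simpa using hε.le

theorem dd_fib [Nontrivial Q] (ρ : DimDrop p q →⋆ₐ[ℂ] Q) {t : ℝ}
    (e : ρ (tau p q) = algebraMap ℝ Q t) : ∃ (ι : Type) (_ : Fintype ι) (_ : DecidableEq ι)
      (σ : Matrix ι ι ℂ →⋆ₐ[ℂ] Q), (∀ y, ∃ f, σ y = ρ f) ∧ ∀ f, ∃ y, ρ f = σ y := by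
  have ht : t ∈ unitInterval := by
    by_contra ht
    obtain ⟨δ, hδ, h⟩ := Metric.isOpen_iff.1 isClosed_Icc.isOpen_compl t ht
    have := dd_kill ρ e (f := 1) fun ε hε => ⟨δ, hδ, fun s hs => (h hs s.2).elim⟩
    simp at this
  let t₀ : unitInterval := ⟨t, ht⟩
  have key : ∀ f : DimDrop p q, f.1 t₀ = 0 → ρ f = 0 := fun f hf => dd_kill ρ e fun ε hε => by
    obtain ⟨δ, hδ, h⟩ := Metric.continuous_iff.1 f.1.continuous t₀ ε hε
    refine ⟨δ, hδ, fun s hs => ?_⟩
    have := h s hs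
    rw [hf, dist_zero_right] at this
    exact this.le
  suffices ∃ (ι : Type) (_ : Fintype ι) (_ : DecidableEq ι) (j : Matrix ι ι ℂ →⋆ₐ[ℂ] Mat p q),
      Function.Injective j ∧ (∀ f : DimDrop p q, ∃ x, j x = f.1 t₀) ∧
      ∀ x, ∃ f : DimDrop p q, f.1 t₀ = j x by
    obtain ⟨ι, _, _, j, hj, h1, h2⟩ := this
    obtain ⟨b, hb⟩ := inv_hom (D := DimDrop p q) j hj (evD p q t₀) h1
    have hs : Function.Surjective b := fun x => (h2 x).imp fun f hf => hj ((hb f).trans hf)
    obtain ⟨σ, hσ⟩ := lift_hom b ρ hs fun f hf => key f (by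
      change evD p q t₀ f = 0
      rw [← hb, hf, map_zero])
    exact ⟨ι, _, _, σ, fun y => (hs y).imp fun f hf => by rw [← hf, hσ], fun f => ⟨_, (hσ f).symm⟩⟩
  by_cases h0 : t₀ = 0
  · refine ⟨Fin p, _, _, _, amp_inj (Equiv.refl (Fin p × Fin q)), fun f => f.2.1.imp fun b hb => by
      rw [← tens_left, h0, hb], fun x => ⟨⟨sc ⟨fun s => 1 - s, by fun_prop⟩ (tens x 1),
        ⟨x, by simp [sc]⟩, by simpa [sc] using tens_zero.2⟩, by simp [sc, h0, tens_left]⟩⟩
  by_cases h1 : t₀ = 1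
  · refine ⟨Fin q, _, _, _, amp_inj (Equiv.prodComm (Fin p) (Fin q)),
      fun f => f.2.2.imp fun b hb => by rw [← tens_right, h1, hb],
      fun x => ⟨⟨sc ⟨fun s => s, by fun_prop⟩ (tens 1 x),
        by simpa [sc] using tens_zero.1, x, by simp [sc]⟩, by simp [sc, h1, tens_right]⟩⟩
  have h2 : t * (1 - t) ≠ 0 := mul_ne_zero (fun h => h0 (Subtype.ext h))
    fun h => h1 (Subtype.ext (sub_eq_zero.1 h).symm)
  exact ⟨Fin p × Fin q, _, _, StarAlgHom.id ℂ _, fun _ _ h => h, fun f => ⟨_, rfl⟩,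
    fun x => ⟨⟨sc ⟨fun s => s * (1 - s) / (t * (1 - t)), by fun_prop⟩ x,
      by simpa [sc] using tens_zero.1, by simpa [sc] using tens_zero.2⟩, by
        simp [sc, t₀, div_self h2]⟩⟩

theorem NI {Z E T : Type u} [CStarAlgebra Z] [CStarAlgebra E] [CStarAlgebra T] [IsSimpleRing Z]
    (β : Z →⋆ₐ[ℂ] E) (α : DimDrop p q →⋆ₐ[ℂ] E) (hc : ∀ z d, Commute (β z) (α d))
    (i : Z →⋆ₐ[ℂ] T) (j : DimDrop p q →⋆ₐ[ℂ] T) (hc' : ∀ z d, Commute (i z) (j d))
    (hj : Function.Injective j) : ∃ Λ : gen (Set.range i ∪ Set.range j) →⋆ₐ[ℂ] E,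
      (∀ z, Λ ⟨i z, sub_gen (Or.inl ⟨z, rfl⟩)⟩ = β z) ∧
      ∀ d, Λ ⟨j d, sub_gen (Or.inr ⟨d, rfl⟩)⟩ = α d := by
  let G := gen (Set.range (β.prod i) ∪ Set.range (α.prod j))
  let β' : Z →⋆ₐ[ℂ] G := (β.prod i).codRestrict _ fun z => sub_gen (Or.inl ⟨z, rfl⟩)
  let α' : DimDrop p q →⋆ₐ[ℂ] G := (α.prod j).codRestrict _ fun z => sub_gen (Or.inr ⟨z, rfl⟩)
  let p₁ := (StarAlgHom.fst ℂ E T).comp G.subtype
  let p₂ := (StarAlgHom.snd ℂ E T).comp G.subtype
  have hG : ∀ S : StarSubalgebra ℂ G, IsClosed (S : Set G) → (∀ z, β' z ∈ S) → (∀ d, α' d ∈ S) →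
      ∀ x, x ∈ S := fun S hS h1 h2 => gen_ind S hS (by
    rintro _ (⟨z, rfl⟩ | ⟨d, rfl⟩)
    exacts [h1 z, h2 d])
  have cG : ∀ z d, Commute (β' z) (α' d) := fun z d => Subtype.ext (Prod.ext (hc z d) (hc' z d))
  have sτ : IsSelfAdjoint (α' (tau p q)) := tau_sa.map α'
  have cτ : ∀ y, α' (tau p q) * y = y * α' (tau p q) := fun y => by
    have mk : ∀ {y}, Commute (α' (tau p q)) y → y ∈ StarSubalgebra.centralizer ℂ {α' (tau p q)} :=
      fun hy => (StarSubalgebra.mem_centralizer_iff ℂ).2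
        (by rintro _ rfl; exact ⟨hy, by rw [sτ.star_eq]; exact hy⟩)
    exact ((StarSubalgebra.mem_centralizer_iff ℂ).1 (hG _ (Set.isClosed_centralizer _)
      (fun z => mk (cG z _).symm) (fun d => mk ((tau_comm d).map α')) y) _ rfl).1
  have inj : Function.Injective p₂ := by
    rw [injective_iff_map_eq_zero]
    intro g hg
    rw [← norm_le_zero_iff]
    refine loc_norm sτ cτ _ le_rfl fun t ht ε hε => ?_
    obtain ⟨Q, _, π, hs, h1, h2⟩ := exists_fiber cτ t
    suffices π g = 0 by simpa [this] using h2 g ε hε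
    by_contra hne
    haveI : Nontrivial Q := ⟨_, _, hne⟩
    obtain ⟨ι, _, _, σ, s1, s2⟩ := dd_fib (π.comp α') h1
    have hF : Full (π g) := full_of_gen (π.comp β') σ (fun z y => by
      obtain ⟨f, hf⟩ := s1 y
      rw [hf]; exact (cG z f).map π) (fun S hS a1 a2 x => by
      obtain ⟨x, rfl⟩ := hs x
      refine hG (S.comap π) (hS.preimage (cont π)) a1 (fun d => ?_) x
      obtain ⟨y, hy⟩ := s2 d
      change (π.comp α') d ∈ S
      rw [hy]; exact a2 y) hne
    obtain ⟨κ, _, v, w, hvw⟩ := hF.exists_sum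
    choose v' hv' using fun k => hs (v k)
    choose w' hw' using fun k => hs (w k)
    obtain ⟨y, hy⟩ := h2 (1 - ∑ k, v' k * g * w' k) 1 one_pos
    have e1 : π (1 - ∑ k, v' k * g * w' k) = 0 := by simp [hv', hw', hvw]
    rw [e1, norm_zero, zero_add] at hy
    have h3 := (NonUnitalStarAlgHom.norm_apply_le p₂ _).trans_lt hy
    simp only [map_sub, map_mul, map_sum, map_one, hg, mul_zero, zero_mul, Finset.sum_const_zero,
      sub_zero] at h3
    have h4 : Commute (p₂ (α' (tau p q)) - p₂ (algebraMap ℝ G t)) (p₂ y) :=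
      Commute.sub_left (Commute.map (cτ y) p₂) (Commute.map (Algebra.commutes t y) p₂)
    have h5 := (h4.isUnit_mul_iff.1 (isUnit_of_norm_lt h3)).1
    have h6 : t ∈ spectrum ℝ (j (tau p q)) := by
      rw [tau_sa.map_spectrum_real j hj]
      refine spectrum.mem_iff.2 fun hu => spectrum.mem_iff.1 ht ?_
      have := hu.map α'
      rwa [map_sub, IsScalarTower.algebraMap_apply ℝ ℂ, AlgHomClass.commutes,
        ← IsScalarTower.algebraMap_apply] at this
    refine spectrum.mem_iff.1 h6 ?_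
    rw [IsScalarTower.algebraMap_apply ℝ ℂ, AlgHomClass.commutes,
      ← IsScalarTower.algebraMap_apply] at h5
    rw [← neg_sub]
    exact h5.neg
  obtain ⟨b, hb⟩ := inv_hom p₂ inj (gen (Set.range i ∪ Set.range j)).subtype fun f =>
    gen_le (S := p₂.range) (closed_range p₂) (by
      rintro _ (⟨z, rfl⟩ | ⟨d, rfl⟩)
      exacts [⟨β' z, rfl⟩, ⟨α' d, rfl⟩]) f.2
  exact ⟨p₁.comp b, fun z => congrArg p₁ (inj (a₂ := β' z) (hb ⟨i z, _⟩)),
    fun d => congrArg p₁ (inj (a₂ := α' d) (hb ⟨j d, _⟩))⟩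

end dd

end Vale.Agent.P101
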