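import Vale.Agent.P101.DefsZ
import Vale.Agent.P101.NI
import Vale.Agent.P101.Inter

/-! Tensorial absorption. -/

namespace Vale.Agent.P101

open Filter Topology BoundedContinuousFunction TopologicalSpace

universe u

theorem IsTensor.ind {A B T : Type u} [CStarAlgebra A] [CStarAlgebra B] [CStarAlgebra T]
    {i : A →⋆ₐ[ℂ] T} {j : B →⋆ₐ[ℂ] T} (h : IsTensor i j) (S : StarSubalgebra ℂ T)
    (hS : IsClosed (S : Set T)) (h1 : ∀ a, i a ∈ S) (h2 : ∀ b, j b ∈ S) (x : T) : x ∈ S :=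
  closure_minimal (t := (S : Set T)) (Submodule.span_le (p := S.toSubalgebra.toSubmodule).2 (by
    rintro _ ⟨a, b, rfl⟩
    exact S.mul_mem (h1 a) (h2 b))) hS (h.dense x)

theorem mem_cent {B C : Type u} [CStarAlgebra B] [CStarAlgebra C] {φ : C →⋆ₐ[ℂ] B} {x : B} :
    x ∈ StarSubalgebra.centralizer ℂ (Set.range φ) ↔ ∀ a, Commute (φ a) x := by
  rw [StarSubalgebra.mem_centralizer_iff]
  constructor
  · exact fun h a => (h _ ⟨a, rfl⟩).1
  · rintro h _ ⟨a, rfl⟩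
    refine ⟨h a, ?_⟩
    have := h (star a)
    rwa [map_star] at this

theorem flip_approx {Z E : Type u} [CStarAlgebra Z] [CStarAlgebra E] (hZ : IsJiangSu Z)
    (β : Z →⋆ₐ[ℂ] E) (R : Set E) (hR : ∀ p q : ℕ, 2 ≤ p → 2 ≤ q → Nat.Coprime p q →
      ∃ α : DimDrop p q →⋆ₐ[ℂ] E, (∀ z d, Commute (β z) (α d)) ∧ ∀ d, α d ∈ R)
    (s : Finset Z) {ε : ℝ} (hε : 0 < ε) : ∃ x : E, ‖star x * x - 1‖ < ε ∧ ‖x * star x - 1‖ < ε ∧
      ∀ z ∈ s, ∃ r ∈ R, ‖x * β z * star x - r‖ < ε := by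
  obtain ⟨-, hs, ⟨S₀, hS₀, hm, hd⟩, T, _, i, j, hT, v, hv⟩ := hZ
  choose p q hp hq hpq θ hθ hS₀ using hS₀
  obtain rfl : S₀ = fun k => Set.range (θ k) := funext fun k => (hS₀ k).symm
  have mono : Monotone fun k => Set.range (θ k) := monotone_nat_of_le_succ hm
  let S : ℕ → StarSubalgebra ℂ T := fun k => gen (Set.range i ∪ Set.range (j.comp (θ k)))
  have mS : Monotone S := fun k l hkl => gen_le inferInstance (by
    rintro _ (h | ⟨d, rfl⟩)
    · exact sub_gen (Or.inl h)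
    · obtain ⟨d', hd'⟩ := mono hkl ⟨d, rfl⟩
      exact sub_gen (Or.inr ⟨d', congrArg j hd'⟩))
  let S' : StarSubalgebra ℂ T :=
    { carrier := {x | ∃ k, x ∈ S k}
      mul_mem' := fun ⟨k, hk⟩ ⟨l, hl⟩ =>
        ⟨max k l, mul_mem (mS (le_max_left _ _) hk) (mS (le_max_right _ _) hl)⟩
      add_mem' := fun ⟨k, hk⟩ ⟨l, hl⟩ =>
        ⟨max k l, add_mem (mS (le_max_left _ _) hk) (mS (le_max_right _ _) hl)⟩
      algebraMap_mem' := fun c => ⟨0, algebraMap_mem _ c⟩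
      star_mem' := fun ⟨k, hk⟩ => ⟨k, star_mem hk⟩ }
  have dS : ∀ x, x ∈ closure (S' : Set T) := hT.ind S'.topologicalClosure isClosed_closure
    (fun a => subset_closure ⟨0, sub_gen (Or.inl ⟨a, rfl⟩)⟩) fun b =>
      map_mem_closure (cont j) (hd b) fun y hy => by
        obtain ⟨k, d, rfl⟩ := Set.mem_iUnion.1 hy
        exact ⟨k, sub_gen (Or.inr ⟨d, rfl⟩)⟩
  obtain ⟨n, hn⟩ := ((eventually_all_finset s).2 fun z _ =>
    (tendsto_iff_norm_sub_tendsto_zero.1 (hv z)).eventually (gt_mem_nhds hε)).exists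
  have op : ∀ f : T → T, Continuous f → ‖f (v n)‖ < ε → ∀ᶠ y in 𝓝 (v n : T), ‖f y‖ < ε :=
    fun f hf h => IsOpen.mem_nhds (isOpen_lt hf.norm continuous_const) h
  have o1 : ∀ᶠ y in 𝓝 (v n : T), ‖star y * y - 1‖ < ε ∧ ‖y * star y - 1‖ < ε ∧
      ∀ z ∈ s, ‖y * i z * star y - j z‖ < ε :=
    (op _ (by fun_prop) (by simpa)).and ((op _ (by fun_prop) (by simpa)).and
      ((eventually_all_finset s).2 fun z hz => op _ (by fun_prop) (hn z hz)))
  obtain ⟨y, ⟨y1, y2, y3⟩, k, hk⟩ := mem_closure_iff_nhds.1 (dS _) _ o1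
  have o2 : ∀ z ∈ s, ∀ᶠ l in atTop, ∃ d, ‖y * i z * star y - j (θ l d)‖ < ε := fun z hz => by
    have cj := cont j
    obtain ⟨w, hw, hw'⟩ := mem_closure_iff_nhds.1 (hd z) {w | ‖y * i z * star y - j w‖ < ε}
      (IsOpen.mem_nhds (isOpen_lt (by fun_prop) continuous_const) (y3 z hz))
    obtain ⟨l, hl⟩ := Set.mem_iUnion.1 hw'
    filter_upwards [eventually_ge_atTop l] with m hm
    obtain ⟨d, rfl⟩ := mono hm hl
    exact ⟨d, hw⟩
  obtain ⟨l, hl, hl'⟩ := ((eventually_ge_atTop k).and ((eventually_all_finset s).2 o2)).exists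
  have h2 := hp l
  have h2' := hq l
  have hc := hpq l
  haveI : NeZero (p l) := ⟨by omega⟩
  haveI : NeZero (q l) := ⟨by omega⟩
  obtain ⟨α, hα, hα'⟩ := hR _ _ h2 h2' hc
  obtain ⟨Λ, Λ1, Λ2⟩ := NI β α hα i (j.comp (θ l)) (fun z d => hT.comm _ _)
    (hT.inj_right.comp (hθ l))
  let y' : S l := ⟨y, mS hl hk⟩
  refine ⟨Λ y', ?_, ?_, fun z hz => ?_⟩
  · rw [← map_star, ← map_mul, ← map_one Λ, ← map_sub]
    exact (NonUnitalStarAlgHom.norm_apply_le Λ _).trans_lt y1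
  · rw [← map_star, ← map_mul, ← map_one Λ, ← map_sub]
    exact (NonUnitalStarAlgHom.norm_apply_le Λ _).trans_lt y2
  · obtain ⟨d, hd⟩ := hl' z hz
    refine ⟨_, hα' d, ?_⟩
    rw [← map_star, ← Λ1, ← Λ2, ← map_mul, ← map_mul, ← map_sub]
    exact (NonUnitalStarAlgHom.norm_apply_le Λ _).trans_lt hd

variable {A T V : Type u} [CStarAlgebra A] [CStarAlgebra T] [CStarAlgebra V]

/-- postcomposition of sequences -/
noncomputable def post (φ : A →⋆ₐ[ℂ] T) : (ℕ →ᵇ A) →⋆ₐ[ℂ] (ℕ →ᵇ T) where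
  toFun a := ofNormedAddCommGroupDiscrete (fun n => φ (a n)) ‖a‖ fun n =>
    (NonUnitalStarAlgHom.norm_apply_le φ _).trans (a.norm_coe_le_norm n)
  map_one' := by ext; simp
  map_mul' _ _ := by ext; simp
  map_zero' := by ext; simp
  map_add' _ _ := by ext; simp
  commutes' _ := by ext; simp [Algebra.algebraMap_eq_smul_one]
  map_star' _ := by ext; simp [map_star]

variable {ω : Ultrafilter ℕ} {ϖ : (ℕ →ᵇ T) →⋆ₐ[ℂ] V}

theorem lim_lt (h1 : IsUltrapower ω ϖ)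
    (h2 : ∀ x ε, 0 < ε → ∃ y, ϖ y = 0 ∧ ‖x - y‖ < ‖ϖ x‖ + ε) {y : ℕ →ᵇ T} {ε : ℝ}
    (h : ‖ϖ y‖ < ε) : ∀ᶠ n in ω, ‖y n‖ < ε := by
  obtain ⟨y', h3, h4⟩ := h2 y ((ε - ‖ϖ y‖) / 2) (by linarith)
  filter_upwards [((h1.2 _).1 h3).eventually
    (gt_mem_nhds (show 0 < (ε - ‖ϖ y‖) / 2 by linarith))] with n hn
  have h5 := (y - y').norm_coe_le_norm n
  have h6 := norm_sub_norm_le (y n) (y' n)
  change ‖y n - y' n‖ ≤ _ at h5
  linarith

theorem approx_step {Z U : Type u} [CStarAlgebra Z] [CStarAlgebra U] {π : (ℕ →ᵇ A) →⋆ₐ[ℂ] U}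
    (hπ : IsUltrapower ω π) (hF : ∀ p q : ℕ, 2 ≤ p → 2 ≤ q → Nat.Coprime p q →
      Nonempty (DimDrop p q →⋆ₐ[ℂ] CentralSeqAlg π)) (hZ : IsJiangSu Z) {ι : A →⋆ₐ[ℂ] T}
    {κ : Z →⋆ₐ[ℂ] T} (hT : IsTensor ι κ) (s : Finset A) (t : Finset Z) {ε : ℝ} (hε : 0 < ε) :
    ∃ x : T, ‖star x * x - 1‖ < ε ∧ ‖x * star x - 1‖ < ε ∧ (∀ a ∈ s, ‖x * ι a - ι a * x‖ < ε) ∧
      ∀ z ∈ t, ∃ a, ‖x * κ z * star x - ι a‖ < ε := by
  obtain ⟨V, _, ϖ, h1, h2⟩ := exists_ultra ω T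
  obtain ⟨γ, hγ⟩ := lift_hom π (ϖ.comp (post ι)) hπ.1 fun a ha => (h1.2 _).2
    (squeeze_zero (fun _ => norm_nonneg _) (fun n => NonUnitalStarAlgHom.norm_apply_le ι _)
      ((hπ.2 a).1 ha))
  let c := ϖ.comp (cst (A := T))
  have γc : ∀ a, γ (π (cst a)) = c (ι a) := fun a => hγ _
  let E := StarSubalgebra.centralizer ℂ (Set.range (c.comp ι))
  haveI : IsClosed (E : Set V) := Set.isClosed_centralizer _
  let β : Z →⋆ₐ[ℂ] E := (c.comp κ).codRestrict _ fun z => mem_cent.2 fun a =>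
    Commute.map (hT.comm a z) c
  obtain ⟨x, x1, x2, x3⟩ := flip_approx hZ β {r | (r : V) ∈ Set.range γ} (fun p q hp hq hpq => by
    obtain ⟨α⟩ := hF p q hp hq hpq
    refine ⟨((γ.comp (CentralSeqAlg π).subtype).comp α).codRestrict E fun d => mem_cent.2 fun a => ?_,
      fun z d => Subtype.ext ?_, fun d => ⟨_, rfl⟩⟩
    · exact γc a ▸ (mem_F.1 (α d).2 a).map γ
    · obtain ⟨y, hy⟩ := hπ.1 (α d)
      change c (κ z) * γ (α d) = γ (α d) * c (κ z)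
      rw [← hy, hγ]
      refine Commute.map (f := ϖ) ?_
      ext n
      exact (hT.comm _ _).symm) t hε
  obtain ⟨y, hy⟩ := h1.1 x
  have e1 := lim_lt h1 h2 (y := star y * y - 1) (ε := ε) (by
    rw [map_sub, map_mul, map_star, map_one, hy]; exact x1)
  have e2 := lim_lt h1 h2 (y := y * star y - 1) (ε := ε) (by
    rw [map_sub, map_mul, map_star, map_one, hy]; exact x2)
  have e3 := (eventually_all_finset s).2 fun a _ =>
    lim_lt h1 h2 (y := y * cst (ι a) - cst (ι a) * y) (ε := ε) (by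
      rw [map_sub, map_mul, map_mul, hy]
      exact (congrArg norm (sub_eq_zero.2 (mem_cent.1 x.2 a).symm.eq)).trans_lt (by simpa))
  have e4 : ∀ z ∈ t, ∀ᶠ n in ω, ∃ a, ‖y n * κ z * star (y n) - ι a‖ < ε := fun z hz => by
    obtain ⟨r, ⟨r', hr'⟩, hr⟩ := x3 z hz
    obtain ⟨a, rfl⟩ := hπ.1 r'
    filter_upwards [lim_lt h1 h2 (y := y * cst (κ z) * star y - post ι a) (ε := ε) (by
      rw [map_sub, map_mul, map_mul, map_star, hy, ← StarAlgHom.comp_apply ϖ (post ι), ← hγ, hr']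
      exact hr)] with n hn using ⟨a n, hn⟩
  obtain ⟨n, hn⟩ := (e1.and (e2.and (e3.and ((eventually_all_finset t).2 e4)))).exists
  exact ⟨y n, hn⟩

theorem absorb_aux {Z : Type u} [CStarAlgebra Z] [SeparableSpace A] [SeparableSpace Z]
    (hω : (ω : Filter ℕ) ≤ cofinite) {ι : A →⋆ₐ[ℂ] T} {κ : Z →⋆ₐ[ℂ] T} (hT : IsTensor ι κ)
    (h : ∀ (s : Finset A) (t : Finset Z) {ε : ℝ}, 0 < ε → ∃ x : T, ‖star x * x - 1‖ < ε ∧
      ‖x * star x - 1‖ < ε ∧ (∀ a ∈ s, ‖x * ι a - ι a * x‖ < ε) ∧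
      ∀ z ∈ t, ∃ a, ‖x * κ z * star x - ι a‖ < ε) : Nonempty (A ≃⋆ₐ[ℂ] T) := by
  classical
  haveI : SeparableSpace T := isSeparable_univ_iff.1 ((sep_gen
    ((isSeparable_range (cont ι)).union (isSeparable_range (cont κ)))).mono fun x _ =>
      hT.ind _ inferInstance (fun a => sub_gen (Or.inl ⟨a, rfl⟩))
        (fun a => sub_gen (Or.inr ⟨a, rfl⟩)) x)
  obtain ⟨V, _, ϖ, h1, -⟩ := exists_ultra ω T
  rw [Nat.cofinite_eq_atTop] at hω
  let δ : ℕ → ℝ := fun n => 1 / ((n : ℝ) + 1) / 2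
  have δ0 : ∀ n, 0 < δ n := fun n => by positivity
  have δ1 : ∀ n, δ n ≤ 1 / 2 := fun n => div_le_div_of_nonneg_right
    (div_le_one_of_le₀ (by simp) (by positivity)) (by norm_num)
  have δt : Tendsto δ atTop (𝓝 0) := by
    simpa only [zero_div] using (tendsto_one_div_add_atTop_nhds_zero_nat (𝕜 := ℝ)).div_const 2
  have nul : ∀ y : ℕ →ᵇ T, (∀ᶠ n in atTop, ‖y n‖ ≤ δ n) → ϖ y = 0 := fun y hy =>
    (h1.2 y).2 ((squeeze_zero' (Eventually.of_forall fun _ => norm_nonneg _) hy δt).mono_left hω)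
  choose x x1 x2 x3 x4 using fun n => h ((Finset.range (n + 1)).image (denseSeq A))
    ((Finset.range (n + 1)).image (denseSeq Z)) (δ0 n)
  choose w hw using fun n => polar (δ1 n) (x1 n) (x2 n)
  have nw : ∀ n, ‖(w n : T)‖ ≤ ‖(1 : T)‖ := fun n => by
    rw [← CStarRing.norm_coe_unitary_mul (w n) 1, mul_one]
  have nx : ∀ n, ‖x n‖ ≤ ‖(1 : T)‖ + 1 := fun n => by
    have := norm_sub_norm_le (x n) (w n)
    rw [norm_sub_rev] at this
    linarith [hw n, nw n, δ1 n]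
  let W : ℕ →ᵇ T := ofNormedAddCommGroupDiscrete (fun n => w n) _ nw
  let X : ℕ →ᵇ T := ofNormedAddCommGroupDiscrete x _ nx
  have WX : ϖ W = ϖ X := by
    rw [← sub_eq_zero, ← map_sub]
    exact nul _ (Eventually.of_forall hw)
  let v : unitary V := ⟨ϖ W, by
    rw [Unitary.mem_iff, ← map_star, ← map_mul, ← map_mul, ← map_one ϖ]
    constructor <;> congr 1 <;> ext n <;> simp [W]⟩
  let c := ϖ.comp (cst (A := T))
  have cc := cont c
  have cι := cont ι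
  have k1 : ∀ a, (v : V) * c (ι a) = c (ι a) * v := fun a => (denseRange_denseSeq A).induction_on a
    (isClosed_eq (by fun_prop) (by fun_prop)) fun i => by
      change ϖ W * ϖ _ = ϖ _ * ϖ W
      rw [WX, ← map_mul, ← map_mul, ← sub_eq_zero, ← map_sub]
      refine nul _ ?_
      filter_upwards [eventually_ge_atTop i] with n hn using (x3 n _ (Finset.mem_image_of_mem _
        (Finset.mem_range.2 (Nat.lt_succ_of_le hn)))).le
  let M := (ϖ.comp (post ι)).range.comap ((Unitary.conjStarAlgAut ℂ V v : V →⋆ₐ[ℂ] V).comp c)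
  have hM : IsClosed (M : Set T) := (closed_range (ϖ.comp (post ι))).preimage
    (cont ((Unitary.conjStarAlgAut ℂ V v : V →⋆ₐ[ℂ] V).comp c))
  have k2 : ∀ b, b ∈ M := hT.ind M hM (fun a => ⟨cst a, by
      change c (ι a) = v * c (ι a) * star (v : V)
      rw [k1, mul_assoc]; simp⟩) fun z => (denseRange_denseSeq Z).induction_on z
    (hM.preimage (cont κ)) fun i => by
      have : ∀ n, ∃ a, ‖a‖ ≤ (‖(1 : T)‖ + 1) * ‖κ (denseSeq Z i)‖ * (‖(1 : T)‖ + 1) + 1 ∧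
          (i ≤ n → ‖x n * κ (denseSeq Z i) * star (x n) - ι a‖ ≤ δ n) := fun n => by
        by_cases hn : i ≤ n
        · obtain ⟨a, ha⟩ := x4 n _ (Finset.mem_image_of_mem _
            (Finset.mem_range.2 (Nat.lt_succ_of_le hn)))
          refine ⟨a, ?_, fun _ => ha.le⟩
          have h3 := norm_sub_norm_le (ι a) (x n * κ (denseSeq Z i) * star (x n))
          rw [norm_sub_rev, NonUnitalStarAlgHom.norm_map ι hT.inj_left] at h3
          have h4 : ‖x n * κ (denseSeq Z i) * star (x n)‖ ≤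
              (‖(1 : T)‖ + 1) * ‖κ (denseSeq Z i)‖ * (‖(1 : T)‖ + 1) := by
            refine norm_mul₃_le.trans ?_
            rw [norm_star]
            gcongr <;> exact nx n
          linarith [δ1 n]
        · exact ⟨0, by rw [norm_zero]; positivity, fun h => (hn h).elim⟩
      choose a a1 a2 using this
      refine ⟨ofNormedAddCommGroupDiscrete a _ a1, ?_⟩
      change ϖ _ = ϖ W * ϖ _ * star (ϖ W)
      rw [WX, ← map_star, ← map_mul, ← map_mul, eq_comm, ← sub_eq_zero, ← map_sub]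
      refine nul _ ?_
      filter_upwards [eventually_ge_atTop i] with n hn using a2 n hn
  refine intertwine ι hT.inj_left fun s t ε hε => ?_
  have e1 : ∀ a ∈ s, ∀ᶠ n in ω, ‖w n * ι a - ι a * w n‖ < ε := fun a _ => by
    have := k1 a
    change ϖ W * ϖ _ = ϖ _ * ϖ W at this
    rw [← map_mul, ← map_mul, ← sub_eq_zero, ← map_sub] at this
    exact ((h1.2 _).1 this).eventually (gt_mem_nhds hε)
  have e2 : ∀ b ∈ t, ∀ᶠ n in ω, ∃ a, ‖w n * b * star (w n : T) - ι a‖ < ε := fun b _ => by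
    obtain ⟨a, ha⟩ := k2 b
    change ϖ _ = ϖ W * ϖ _ * star (ϖ W) at ha
    rw [← map_star, ← map_mul, ← map_mul, eq_comm, ← sub_eq_zero, ← map_sub] at ha
    filter_upwards [((h1.2 _).1 ha).eventually (gt_mem_nhds hε)] with n hn using ⟨a n, hn⟩
  obtain ⟨n, hn⟩ := (((eventually_all_finset s).2 e1).and ((eventually_all_finset t).2 e2)).exists
  exact ⟨w n, hn⟩

theorem absorb {Z U : Type u} [CStarAlgebra Z] [CStarAlgebra U] [SeparableSpace A]
    {π : (ℕ →ᵇ A) →⋆ₐ[ℂ] U} (hω : (ω : Filter ℕ) ≤ cofinite) (hπ : IsUltrapower ω π)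
    (h : IsEmpty (CentralSeqAlg π →⋆ₐ[ℂ] ℂ)) (hZ : IsJiangSu Z) {ι : A →⋆ₐ[ℂ] T}
    {κ : Z →⋆ₐ[ℂ] T} (hT : IsTensor ι κ) : Nonempty (A ≃⋆ₐ[ℂ] T) :=
  haveI := hZ.separable
  absorb_aux hω hT fun s t _ hε =>
    approx_step hπ (fun _ _ hp hq hpq => dd_in_F hω hπ h hp hq hpq) hZ hT s t hε

end Vale.Agent.P101
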