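import Vale.Agent.P101.Glue

/-! From the Rordam-Winter relations to dimension drop algebras. -/

namespace Vale.Agent.P101

universe u

variable {B : Type u} [CStarAlgebra B] {ι : Type} [Fintype ι] [DecidableEq ι]

theorem Sys.mul_left {v : ι → B} {a : B} (h : Sys v a) (c : B) (j : ι) :
    (∑ i, v i * c * star (v i)) * v j = v j * c * a := by
  simp [Finset.sum_mul, mul_assoc, h _ j]

theorem Sys.oz' {v : ι → B} {a c : B} (h : Sys v a) (hc : star c = c) :
    OZ (fun i j => v i * c * star (v j)) (∑ i, v i * c * star (v i)) where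
  st i j := by rw [star_mul, star_mul, star_star, hc, mul_assoc]
  mul i j k l := by
    rw [← mul_assoc (∑ _, _), ← mul_assoc (∑ _, _), h.mul_left]
    simp only [mul_assoc]
    rw [← mul_assoc (star _), h]
    split_ifs <;> simp
  sum := rfl

theorem OZ.sub (S : StarSubalgebra ℂ B) [IsClosed (S : Set B)] {φ : ι → ι → S} {H : S}
    (h : OZ (fun i j => (φ i j : B)) H) : OZ φ H where
  st i j := Subtype.ext (h.st i j)
  mul i j k l := Subtype.ext (by
    have := h.mul i j k l
    split_ifs at this ⊢ <;> exact this)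
  sum := Subtype.ext (by rw [← S.subtype_apply, map_sum]; exact h.sum)

/-- the twisting bijection -/
def twist (ι : Type) : Option ι × ι ≃ ι × Option ι where
  toFun p := p.1.elim (p.2, none) fun i => (i, some p.2)
  invFun p := p.2.elim (none, p.1) fun m => (some p.1, m)
  left_inv := by rintro ⟨_ | _, _⟩ <;> rfl
  right_inv := by rintro ⟨_, _ | _⟩ <;> rfl

theorem rw_glue (i₀ : ι) {v : ι → B} {a s : B} (hv : Sys v a)
    (hs : star s * s = 1 - ∑ i, v i * star (v i)) (has : a * s = s)
    {D : Type*} [Ring D] [Algebra ℂ D] [StarRing D]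
    (ev : ℝ → D →⋆ₐ[ℂ] Matrix (Option ι × ι) (Option ι × ι) ℂ)
    (hev : ∀ f u v, Continuous fun t => ev t f u v) (b : D →⋆ₐ[ℂ] Matrix (Option ι) (Option ι) ℂ)
    (a' : D →⋆ₐ[ℂ] Matrix ι ι ℂ) (hb : ∀ t ≤ 1 / 3, ∀ f, ev t f = amp (Equiv.refl _) (b f))
    (ha : ∀ t ≥ 2 / 3, ∀ f, ev t f = amp (twist ι) (a' f)) : Nonempty (D →⋆ₐ[ℂ] B) := by
  letI := CStarAlgebra.spectralOrder B
  haveI := CStarAlgebra.spectralOrderedRing B
  set H := ∑ i, v i * star (v i) with hH
  have sa : star a = a := by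
    have := hv i₀ i₀
    rw [if_pos rfl] at this
    rw [← this, star_mul, star_star]
  have sH : star H = H := hv.oz.sa
  have hsa : star s * a = star s := by simpa [sa] using congrArg star has
  have Hv : ∀ j, H * v j = v j * a := fun j => by simpa using hv.mul_left 1 j
  obtain ⟨r, sr, hr, cr⟩ := exists_sqrt (star_mul_self_nonneg s)
  rw [hs] at hr cr
  let x : Option ι → B := fun o => o.elim r fun i => v i * s
  have rv : ∀ i, r * (v i * s) = 0 := fun i => sa_mul_eq_zero sr (by
    rw [hr, sub_mul, ← mul_assoc H, Hv, mul_assoc, has, one_mul, sub_self])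
  have hx : Sys x (1 - H) := by
    rintro (_ | i) (_ | j)
    · simp [x, sr.star_eq, hr]
    · simp [x, sr.star_eq, rv]
    · simpa [x, sr.star_eq] using congrArg star (rv i)
    · simp only [x, Option.elim, star_mul, Option.some.injEq]
      rw [mul_assoc, ← mul_assoc (star (v i)), hv]
      split_ifs <;> simp [has, hs]
  let w : Option ι × ι → B := fun p => x p.1 * v p.2
  have hw : Sys w (a - a * a) := by
    rintro ⟨k, j⟩ ⟨l, m⟩
    simp only [w, star_mul, Prod.mk.injEq]
    rw [mul_assoc, ← mul_assoc (star (x k)), hx]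
    by_cases h1 : k = l
    · rw [if_pos h1, sub_mul, one_mul, Hv, mul_sub, ← mul_assoc, hv]
      by_cases h2 : j = m <;> simp [h1, h2]
    · simp [h1]
  set σ := ∑ k, x k * star (x k) with hσ
  have hΨ := hx.oz
  have hΦ := hv.oz' (c := 1 - s * star s) (by simp)
  have hΩ := hw.oz
  have eτ : ∑ i, v i * (1 - s * star s) * star (v i) = 1 - σ := by
    simp only [hσ, Fintype.sum_option, x, Option.elim, sr.star_eq, hr, mul_sub, sub_mul, mul_one,
      Finset.sum_sub_distrib, star_mul, mul_assoc]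
    rw [hH]; abel
  have τx : ∀ k, (1 - σ) * x k = x k * H := fun k => by
    have := hx.mul_left 1 k
    simp only [mul_one] at this
    rw [sub_mul, hσ, this]; noncomm_ring
  have ww : ∀ k l, ∑ j, w (k, j) * star (w (l, j)) = (1 - σ) * (x k * star (x l)) := fun k l => by
    rw [← mul_assoc, τx, hH, Finset.mul_sum, Finset.sum_mul]
    simp only [w, star_mul, mul_assoc]
  have eΩ : ∑ p, w p * star (w p) = (1 - σ) * (1 - (1 - σ)) := by
    rw [Fintype.sum_prod_type, sub_sub_cancel]
    simp only [ww, ← Finset.mul_sum, hσ]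
  rw [eτ] at hΦ
  rw [eΩ] at hΩ
  rw [← hσ, ← sub_sub_cancel 1 σ] at hΨ
  set τ := 1 - σ with hτ
  have sτ : IsSelfAdjoint τ := hΦ.sa
  have τw : ∀ p, τ * w p = w p * a := fun p => by
    simp only [w]; rw [← mul_assoc, τx, mul_assoc, Hv, mul_assoc]
  let C := StarSubalgebra.centralizer ℂ ({τ} : Set B)
  haveI : IsClosed (C : Set B) := Set.isClosed_centralizer _
  have mk : ∀ {y}, Commute τ y → y ∈ C := fun hy => (StarSubalgebra.mem_centralizer_iff ℂ).2
    (by rintro _ rfl; exact ⟨hy, by rw [sτ.star_eq]; exact hy⟩)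
  have mΨ : ∀ k l, x k * star (x l) ∈ C := fun k l => mk (by
    simpa using (Commute.one_left _).sub_left (hΨ.comm k l))
  have mΩ : ∀ p q, w p * star (w q) ∈ C := fun p q => mk (by
    have := congrArg star (τw q)
    rw [star_mul τ, star_mul (w q), sa, sτ.star_eq] at this
    change _ = _
    rw [← mul_assoc, τw, mul_assoc (w p), mul_assoc (w p), this])
  obtain ⟨θ⟩ := glue_dd (C := C) (τ := ⟨τ, mk rfl⟩) (Subtype.ext sτ)
    (fun y => Subtype.ext (((StarSubalgebra.mem_centralizer_iff ℂ).1 y.2 τ rfl).1))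
    (Equiv.refl _) (twist ι) (Ψ := fun k l => ⟨_, mΨ k l⟩)
    (Φ := fun k l => ⟨_, mk (hΦ.comm k l)⟩) (Ω := fun p q => ⟨_, mΩ p q⟩)
    (OZ.sub C hΨ) (OZ.sub C hΦ) (OZ.sub C hΩ)
    (fun k l => Subtype.ext (by rw [← C.subtype_apply (∑ _, _), map_sum]; exact (ww k l).symm))
    (fun k l => Subtype.ext (by
      rw [← C.subtype_apply (∑ _, _), map_sum, Fintype.sum_option]
      change (1 - τ) * (v k * (1 - s * star s) * star (v l)) =
        r * v k * star (r * v l) + ∑ m, w (some k, m) * star (w (some l, m))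
      have h1 := hΦ.mul k k k l
      have h2 := (cr _ ((Commute.one_left _).sub_left (hv.oz.comm k l))).eq
      have h3 : r * v k * star (r * v l) = v k * star (v l) - v k * a * star (v l) := by
        rw [star_mul, sr.star_eq, mul_assoc, ← mul_assoc (v k), ← h2, ← mul_assoc, hr, sub_mul,
          one_mul, ← mul_assoc, Hv]
      have h4 : H = 1 - star s * s := by rw [hs, sub_sub_cancel]
      have h5 : ∀ y, a * (s * y) = s * y := fun y => by rw [← mul_assoc, has]
      have h6 : ∀ y, star s * (a * y) = star s * y := fun y => by rw [← mul_assoc, hsa]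
      have h7 : ∀ y, star (v k) * (v k * y) = a * y := fun y => by rw [← mul_assoc, hv, if_pos rfl]
      rw [if_pos rfl] at h1
      rw [ww, ← mul_assoc τ, τx, sub_mul 1 τ, ← h1, h3, h4]
      simp only [x, Option.elim, star_mul, mul_sub, sub_mul, one_mul, mul_one, mul_assoc, h5, h6, h7]
      abel)) ev hev b a' hb ha
  exact ⟨C.subtype.comp θ⟩

section path
open scoped Matrix.Norms.L2Operator
variable {N : Type} [Fintype N] [DecidableEq N]

theorem joined_unitary (u : unitary (Matrix N N ℂ)) : Joined 1 u := by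
  have hinf : (Metric.sphere (0 : ℂ) 1).Infinite :=
    (isConnected_sphere (by simp) 0 zero_le_one).isPreconnected.infinite_of_nontrivial
      ⟨1, by simp, -1, by simp, by norm_num⟩
  obtain ⟨z, hz, hz'⟩ := hinf.exists_notMem_finite
    ((Matrix.finite_spectrum (u : Matrix N N ℂ)).union (Matrix.finite_spectrum (1 : Matrix N N ℂ)))
  have h1 : star z * z = 1 := by
    rw [mem_sphere_zero_iff_norm] at hz
    simp [Complex.conj_mul', hz]
  let v : unitary (Matrix N N ℂ) := ⟨algebraMap ℂ _ (-z), by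
    rw [Unitary.mem_iff, ← algebraMap_star_comm, ← map_mul, ← map_mul, mul_comm (-z), star_neg,
      neg_mul_neg, h1, map_one]; exact ⟨rfl, rfl⟩⟩
  have key : ∀ w : unitary (Matrix N N ℂ), z ∉ spectrum ℂ (w : Matrix N N ℂ) → Joined v w := by
    intro w hw
    refine Unitary.joined _ _ ?_
    rw [Unitary.norm_sub_eq, Unitary.norm_sub_one_lt_two_iff (Subtype.prop _), spectrum.notMem_iff]
    have : algebraMap ℂ (Matrix N N ℂ) (-1) - ((w * star v : unitary _) : Matrix N N ℂ)
        = (algebraMap ℂ _ z - w) * (star v : unitary (Matrix N N ℂ)) := by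
      rw [sub_mul]
      congr 1
      change _ = _ * star (algebraMap ℂ _ (-z))
      rw [← algebraMap_star_comm, ← map_mul, star_neg, mul_neg, mul_comm, h1]
    rw [this]
    exact (spectrum.notMem_iff.1 hw).mul Unitary.isUnit_coe
  exact (key 1 fun h => hz' (Or.inr h)).symm.trans (key u fun h => hz' (Or.inl h))

end path

theorem amp_path {N I J : Type} [Fintype N] [DecidableEq N] [Fintype I] [DecidableEq I] [Fintype J]
    [DecidableEq J] (e e' : N ≃ I × J) : ∃ U : unitInterval → unitary (Matrix N N ℂ),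
      Continuous U ∧ U 0 = 1 ∧ ∀ x, Unitary.conjStarAlgAut ℂ _ (U 1) (amp e x) = amp e' x := by
  let σ : Equiv.Perm N := e'.trans e.symm
  let P : unitary (Matrix N N ℂ) := ⟨σ.permMatrix ℂ, by
    rw [Unitary.mem_iff, Matrix.star_eq_conjTranspose, Matrix.conjTranspose_permMatrix,
      ← Matrix.permMatrix_mul, ← Matrix.permMatrix_mul]; simp⟩
  obtain ⟨γ⟩ := joined_unitary P
  refine ⟨γ, γ.continuous, γ.source, fun x => ?_⟩
  rw [γ.target, Unitary.conjStarAlgAut_apply]
  change σ.permMatrix ℂ * _ * star (σ.permMatrix ℂ) = _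
  rw [Matrix.star_eq_conjTranspose, Matrix.conjTranspose_permMatrix, Equiv.Perm.permMatrix,
    Equiv.Perm.permMatrix, PEquiv.toMatrix_toPEquiv_mul, PEquiv.mul_toMatrix_toPEquiv]
  ext u v
  simp [amp_apply, σ, Equiv.Perm.inv_def]

/-- evaluation on the dimension drop algebra -/
noncomputable def evD (p q : ℕ) (t : unitInterval) : DimDrop p q →⋆ₐ[ℂ] Mat p q where
  toFun f := f.1 t
  map_one' := rfl
  map_mul' _ _ := rfl
  map_zero' := rfl
  map_add' _ _ := rfl
  commutes' _ := rfl
  map_star' _ := rfl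

theorem tens_left {p q : ℕ} (b : Matrix (Fin p) (Fin p) ℂ) :
    tens (q := q) b 1 = amp (Equiv.refl _) b := by
  ext u v
  change b u.1 v.1 * (if u.2 = v.2 then 1 else 0) = if u.2 = v.2 then b u.1 v.1 else 0
  split_ifs <;> simp

theorem tens_right {p q : ℕ} (a : Matrix (Fin q) (Fin q) ℂ) :
    tens (p := p) 1 a = amp (Equiv.prodComm _ _) a := by
  ext u v
  change (if u.1 = v.1 then 1 else 0) * a u.2 v.2 = if u.1 = v.1 then a u.2 v.2 else 0
  split_ifs <;> simp

theorem amp_inj {N I J : Type} [Fintype N] [DecidableEq N] [Fintype I] [DecidableEq I] [Fintype J]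
    [DecidableEq J] [Nonempty J] (e : N ≃ I × J) : Function.Injective (amp e) := fun x y h => by
  ext i j
  obtain ⟨k⟩ := ‹Nonempty J›
  simpa [amp_apply] using congrFun (congrFun h (e.symm (i, k))) (e.symm (j, k))

theorem rw_dd {p q k l : ℕ} [NeZero p] [NeZero q] [NeZero k] (h : q * k + 1 = p * l)
    {v : Fin q × Fin k → B} {a s : B} (hv : Sys v a)
    (hs : star s * s = 1 - ∑ i, v i * star (v i)) (has : a * s = s) :
    Nonempty (DimDrop p q →⋆ₐ[ℂ] B) := by
  let ε : Option (Fin q × Fin k) ≃ Fin p × Fin l := Fintype.equivOfCardEq (by simpa using h)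
  let g₀ : Option (Fin q × Fin k) × (Fin q × Fin k) ≃ (Fin p × Fin q) × (Fin l × Fin k) :=
    (ε.prodCongr (Equiv.refl _)).trans (Equiv.prodProdProdComm _ _ _ _)
  let g₁ := ((twist _).trans (Equiv.prodComm _ _)).trans g₀
  obtain ⟨U, cU, U0, U1⟩ := amp_path g₀ g₁
  obtain ⟨b, hb⟩ := inv_hom (D := DimDrop p q) _ (amp_inj (Equiv.refl (Fin p × Fin q))) (evD p q 0) fun f =>
    f.2.1.imp fun b hb => by rw [← tens_left]; exact hb.symm
  obtain ⟨a', ha⟩ := inv_hom (D := DimDrop p q) _ (amp_inj (Equiv.prodComm (Fin p) (Fin q))) (evD p q 1) fun f =>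
    f.2.2.imp fun b hb => by rw [← tens_right]; exact hb.symm
  let lam : ℝ → unitInterval := fun t => Set.projIcc 0 1 zero_le_one (3 * t - 1)
  have cl : Continuous lam := continuous_projIcc.comp (by fun_prop)
  refine rw_glue (D := DimDrop p q) (0, 0) hv hs has
    (fun t => ((Unitary.conjStarAlgAut ℂ _ (U (lam t)) : _ →⋆ₐ[ℂ] _).comp (amp g₀)).comp
      (evD p q (lam t))) (fun f u w => ?_) ((amp ε).comp b) ((amp (Equiv.refl _)).comp a')
    (fun t ht f => ?_) fun t ht f => ?_
  · have c1 := continuous_subtype_val.comp (cU.comp cl)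
    have c2 : Continuous fun t => amp g₀ (f.1 (lam t)) := by
      refine continuous_matrix fun u w => ?_
      simp only [amp_apply]
      split_ifs
      · exact (f.1.continuous.comp cl).matrix_elem _ _
      · exact continuous_const
    exact ((c1.mul c2).mul c1.star).matrix_elem u w
  · have : lam t = 0 := Set.projIcc_of_le_left _ (by linarith)
    simp only [this, StarAlgHom.comp_apply, U0, map_one, ← hb]
    ext u w
    change (if ((ε u.1).2, u.2.2) = ((ε w.1).2, w.2.2) then
      (if u.2.1 = w.2.1 then b f (ε u.1).1 (ε w.1).1 else 0) else 0) = if u.2 = w.2 then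
      (if (ε u.1).2 = (ε w.1).2 then b f (ε u.1).1 (ε w.1).1 else 0) else 0
    simp only [Prod.ext_iff]
    grind
  · have : lam t = 1 := Set.projIcc_of_right_le _ (by linarith)
    simp only [this, StarAlgHom.comp_apply, ← ha]
    refine (U1 _).trans ?_
    ext u w
    change (if ((ε (twist _ u).2).2, (twist _ u).1.2) = ((ε (twist _ w).2).2, (twist _ w).1.2) then
      (if (ε (twist _ u).2).1 = (ε (twist _ w).2).1 then a' f (twist _ u).1.1 (twist _ w).1.1 else 0)
      else 0) = if (twist _ u).2 = (twist _ w).2 then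
      (if (twist _ u).1.2 = (twist _ w).1.2 then a' f (twist _ u).1.1 (twist _ w).1.1 else 0) else 0
    simp only [← ε.injective.eq_iff (a := (twist _ u).2), Prod.ext_iff]
    grind

theorem exists_kl {p q : ℕ} (hp : 2 ≤ p) (h : Nat.Coprime p q) :
    ∃ k l, k ≠ 0 ∧ q * k + 1 = p * l := by
  obtain ⟨n, h1, h2⟩ := Nat.chineseRemainder h (p - 1) 0
  obtain ⟨k, rfl⟩ := Nat.modEq_zero_iff_dvd.1 h2
  have := h1.add_right 1
  rw [Nat.sub_add_cancel (by omega)] at this
  obtain ⟨l, hl⟩ := Nat.modEq_zero_iff_dvd.1 (this.trans (Nat.modEq_zero_iff_dvd.2 dvd_rfl))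
  refine ⟨k, l, ?_, hl⟩
  rintro rfl
  have := Nat.eq_one_of_mul_eq_one_right hl.symm
  omega

open BoundedContinuousFunction in
theorem dd_in_F {A U : Type u} [CStarAlgebra A] [CStarAlgebra U] [TopologicalSpace.SeparableSpace A]
    {ω : Ultrafilter ℕ} {π : (ℕ →ᵇ A) →⋆ₐ[ℂ] U} (hω : (ω : Filter ℕ) ≤ Filter.cofinite)
    (hπ : IsUltrapower ω π) (h : IsEmpty (CentralSeqAlg π →⋆ₐ[ℂ] ℂ)) {p q : ℕ} (hp : 2 ≤ p)
    (hq : 2 ≤ q) (hpq : Nat.Coprime p q) : Nonempty (DimDrop p q →⋆ₐ[ℂ] CentralSeqAlg π) := by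
  obtain ⟨k, l, hk, hkl⟩ := exists_kl hp hpq
  haveI : NeZero p := ⟨by omega⟩
  haveI : NeZero q := ⟨by omega⟩
  haveI : NeZero k := ⟨hk⟩
  obtain ⟨v, a, s, h1, h2, h3⟩ := rw_in_F hω hπ h ((0, 0) : Fin q × Fin k)
  exact rw_dd hkl h1 h2 h3

end Vale.Agent.P101
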