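import Mathlib

/-! Definitions used in the statements for P101. -/

namespace Vale.Agent.P101

open Filter Topology BoundedContinuousFunction

universe u

/-- `π : ℓ^∞(ℕ, A) → U` presents the C*-algebra `U` as the ultrapower `A_ω`: it is a surjective
unital star homomorphism whose kernel consists of the sequences with `lim_ω ‖a n‖ = 0`. -/
def IsUltrapower (ω : Ultrafilter ℕ) {A U : Type u} [CStarAlgebra A] [CStarAlgebra U]
    (π : (ℕ →ᵇ A) →⋆ₐ[ℂ] U) : Prop :=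
  Function.Surjective π ∧ ∀ a, π a = 0 ↔ Tendsto (fun n => ‖a n‖) ω (𝓝 0)

/-- The central sequence algebra `F_ω(A) = A_ω ∩ A'`: the commutant in `A_ω` of the classes of the
constant sequences. -/
def CentralSeqAlg {A U : Type u} [CStarAlgebra A] [CStarAlgebra U] (π : (ℕ →ᵇ A) →⋆ₐ[ℂ] U) :
    StarSubalgebra ℂ U :=
  StarSubalgebra.centralizer ℂ (Set.range fun x : A => π (BoundedContinuousFunction.const ℕ x))

/-- The matrix algebra `M_p ⊗ M_q`. -/
abbrev Mat (p q : ℕ) : Type := Matrix (Fin p × Fin q) (Fin p × Fin q) ℂ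

/-- `b ⊗ a ∈ M_p ⊗ M_q` (Kronecker product). -/
def tens {p q : ℕ} (b : Matrix (Fin p) (Fin p) ℂ) (a : Matrix (Fin q) (Fin q) ℂ) : Mat p q :=
  Matrix.kroneckerMap (· * ·) b a

theorem tens_mul {p q : ℕ} (b b' : Matrix (Fin p) (Fin p) ℂ) (a a' : Matrix (Fin q) (Fin q) ℂ) :
    tens b a * tens b' a' = tens (b * b') (a * a') := (Matrix.mul_kronecker_mul _ _ _ _).symm

theorem tens_star {p q : ℕ} (b : Matrix (Fin p) (Fin p) ℂ) (a : Matrix (Fin q) (Fin q) ℂ) :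
    star (tens b a) = tens (star b) (star a) := Matrix.conjTranspose_kronecker _ _

theorem tens_alg {p q : ℕ} (c : ℂ) : algebraMap ℂ (Mat p q) c = tens (c • 1) 1 ∧
    algebraMap ℂ (Mat p q) c = tens 1 (c • 1) := by
  simp [tens, Algebra.algebraMap_eq_smul_one, Matrix.smul_kronecker, Matrix.kronecker_smul]

/-- The dimension drop algebra
`Z_{p,q} = {f ∈ C([0,1], M_p ⊗ M_q) | f 0 ∈ M_p ⊗ 1, f 1 ∈ 1 ⊗ M_q}`. -/
def DimDrop (p q : ℕ) : StarSubalgebra ℂ C(unitInterval, Mat p q) where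
  carrier := {f | (∃ b, f 0 = tens b 1) ∧ ∃ a, f 1 = tens 1 a}
  mul_mem' := by
    rintro f g ⟨⟨b, hb⟩, a, ha⟩ ⟨⟨b', hb'⟩, a', ha'⟩
    exact ⟨⟨b * b', by simp [hb, hb', tens_mul]⟩, a * a', by simp [ha, ha', tens_mul]⟩
  add_mem' := by
    rintro f g ⟨⟨b, hb⟩, a, ha⟩ ⟨⟨b', hb'⟩, a', ha'⟩
    exact ⟨⟨b + b', by simp [hb, hb', tens, Matrix.add_kronecker]⟩, a + a',
      by simp [ha, ha', tens, Matrix.kronecker_add]⟩
  algebraMap_mem' c := ⟨⟨_, (tens_alg c).1⟩, _, (tens_alg c).2⟩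
  star_mem' := by
    rintro f ⟨⟨b, hb⟩, a, ha⟩
    exact ⟨⟨star b, by simp [hb, tens_star]⟩, star a, by simp [ha, tens_star]⟩

end Vale.Agent.P101
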