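import Vale.Agent.P101.Defs

/-! C*-tensor products and the Jiang-Su algebra. -/

namespace Vale.Agent.P101

open Filter Topology

universe u

/-- `T` is a C*-completion of `A ⊗ B` via `i a = a ⊗ 1`, `j b = 1 ⊗ b`: both unital star
homomorphisms are injective, their ranges commute, and the products `i a * j b` span a dense
subspace.  The minimal tensor product `A ⊗ B` of nonzero algebras is such a `T`. -/
structure IsTensor {A B T : Type u} [CStarAlgebra A] [CStarAlgebra B] [CStarAlgebra T]
    (i : A →⋆ₐ[ℂ] T) (j : B →⋆ₐ[ℂ] T) : Prop where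
  inj_left : Function.Injective i
  inj_right : Function.Injective j
  comm : ∀ a b, i a * j b = j b * i a
  dense : Dense (Submodule.span ℂ {x : T | ∃ a b, x = i a * j b} : Set T)

/-- `S` is the image of `D` under an injective unital star homomorphism into `Z`. -/
def IsCopy (D : Type) [Semiring D] [Algebra ℂ D] [Star D] {Z : Type u} [CStarAlgebra Z]
    (S : Set Z) : Prop :=
  ∃ θ : D →⋆ₐ[ℂ] Z, Function.Injective θ ∧ Set.range θ = S

/-- `Z` is the limit of an inductive sequence of prime dimension drop algebras with unital injective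
connecting maps: the closure of an increasing union of unital copies of algebras `Z_{p,q}` with
`p`, `q` coprime. -/
def IsPrimeDimDropLimit (Z : Type u) [CStarAlgebra Z] : Prop :=
  ∃ S : ℕ → Set Z, (∀ k, ∃ p q : ℕ, 2 ≤ p ∧ 2 ≤ q ∧ Nat.Coprime p q ∧ IsCopy (DimDrop p q) (S k)) ∧
    (∀ k, S k ⊆ S (k + 1)) ∧ Dense (⋃ k, S k)

/-- Approximately inner half flip: the two factor embeddings `Z → Z ⊗ Z` are approximately
unitarily equivalent. -/
def HasHalfFlip (Z : Type u) [CStarAlgebra Z] : Prop :=
  ∃ (T : Type u) (_ : CStarAlgebra T) (i j : Z →⋆ₐ[ℂ] T), IsTensor i j ∧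
    ∃ v : ℕ → unitary T, ∀ z, Tendsto (fun n => (v n : T) * i z * star (v n : T)) atTop (𝓝 (j z))

/-- The Jiang-Su algebra: a simple separable unital inductive limit of prime dimension drop algebras
with approximately inner half flip. -/
structure IsJiangSu (Z : Type u) [CStarAlgebra Z] : Prop where
  separable : TopologicalSpace.SeparableSpace Z
  simple : IsSimpleRing Z
  limit : IsPrimeDimDropLimit Z
  halfFlip : HasHalfFlip Z

end Vale.Agent.P101
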