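import Vale.Agent.P101.Ultra

/-! Gluing homomorphisms along a central self-adjoint element. -/

namespace Vale.Agent.P101

universe u

section mat
variable {Q : Type u} [CStarAlgebra Q] {ι N I J : Type} [Fintype ι] [DecidableEq ι] [Fintype N]
  [DecidableEq N] [Fintype I] [DecidableEq I] [Fintype J] [DecidableEq J]

/-- linear extension of a system of matrix units -/
noncomputable def lin (E : ι → ι → Q) : Matrix ι ι ℂ →ₗ[ℂ] Q where
  toFun x := ∑ i, ∑ j, x i j • E i j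
  map_add' x y := by simp [add_smul, Finset.sum_add_distrib]
  map_smul' c x := by simp [mul_smul, Finset.smul_sum]

theorem lin_apply (E : ι → ι → Q) (x : Matrix ι ι ℂ) : lin E x = ∑ i, ∑ j, x i j • E i j := rfl

theorem map_lin {Q' : Type u} [CStarAlgebra Q'] (π : Q →⋆ₐ[ℂ] Q') (E : ι → ι → Q) (x : Matrix ι ι ℂ) :
    π (lin E x) = lin (fun i j => π (E i j)) x := by simp [lin_apply]

theorem mul_lin (c : Q) (E : ι → ι → Q) (x : Matrix ι ι ℂ) :
    c * lin E x = lin (fun i j => c * E i j) x := by simp [lin_apply, Finset.mul_sum]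

/-- the homomorphism defined by matrix units -/
noncomputable def matHom {E : ι → ι → Q} (h : OZ E 1) : Matrix ι ι ℂ →⋆ₐ[ℂ] Q where
  toFun := lin E
  map_one' := by simp [lin_apply, Matrix.one_apply, h.sum]
  map_mul' x y := by
    have : ∀ i j, E i j * lin E y = ∑ l, y j l • E i l := fun i j => by
      simp [lin_apply, Finset.mul_sum, h.mul]
    rw [lin_apply E x]
    simp only [Finset.sum_mul, smul_mul_assoc, this, Finset.smul_sum, smul_smul]
    simp only [lin_apply, Matrix.mul_apply, Finset.sum_smul]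
    exact Finset.sum_congr rfl fun i _ => Finset.sum_comm
  map_zero' := map_zero _
  map_add' := map_add _
  commutes' c := by
    rw [Algebra.algebraMap_eq_smul_one, map_smul, Algebra.algebraMap_eq_smul_one]
    simp [lin_apply, Matrix.one_apply, h.sum]
  map_star' x := by
    simp only [lin_apply, star_sum, star_smul, h.st, Matrix.star_apply]
    exact Finset.sum_comm

theorem fib_hom {E : ι → ι → Q} {r : ℂ} (h : OZ E (algebraMap ℂ Q r)) (hr : r ≠ 0) (hs : star r = r) :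
    ∃ ρ : Matrix ι ι ℂ →⋆ₐ[ℂ] Q, ∀ x, ρ x = r⁻¹ • lin E x := by
  have := h.scale (α := algebraMap ℂ Q r⁻¹) (by
    rw [IsSelfAdjoint, ← algebraMap_star_comm, star_inv₀, hs]) fun i j => Algebra.commutes _ _
  rw [← map_mul, inv_mul_cancel₀ hr, map_one] at this
  exact ⟨matHom this, fun x => by rw [Algebra.smul_def, mul_lin]; rfl⟩

/-- amplification `x ↦ x ⊗ 1` along a bijection -/
noncomputable def amp (e : N ≃ I × J) : Matrix I I ℂ →⋆ₐ[ℂ] Matrix N N ℂ where
  toFun x := Matrix.of fun u v => if (e u).2 = (e v).2 then x (e u).1 (e v).1 else 0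
  map_one' := by
    ext u v
    simp only [Matrix.of_apply, Matrix.one_apply, ← e.injective.eq_iff (a := u), Prod.ext_iff]
    grind
  map_mul' x y := by
    ext u v
    simp only [Matrix.of_apply, Matrix.mul_apply]
    rw [← e.symm.sum_comp, Fintype.sum_prod_type]
    simp only [Equiv.apply_symm_apply, ite_mul, zero_mul, Finset.sum_ite_eq, Finset.mem_univ,
      if_true]
    split_ifs <;> simp
  map_zero' := by ext; simp
  map_add' x y := by ext; simp only [Matrix.of_apply, Matrix.add_apply]; split_ifs <;> simp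
  commutes' c := by
    ext u v
    simp only [Matrix.of_apply, Matrix.algebraMap_matrix_apply, ← e.injective.eq_iff (a := u),
      Prod.ext_iff]
    grind
  map_star' x := by
    ext u v
    simp only [Matrix.of_apply, Matrix.star_apply, eq_comm (a := (e v).2)]
    split_ifs <;> simp

theorem amp_apply (e : N ≃ I × J) (x : Matrix I I ℂ) (u v : N) :
    amp e x u v = if (e u).2 = (e v).2 then x (e u).1 (e v).1 else 0 := rfl

theorem lin_amp (e : N ≃ I × J) (E : N → N → Q) (x : Matrix I I ℂ) :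
    lin E (amp e x) = lin (fun k l => ∑ j, E (e.symm (k, j)) (e.symm (l, j))) x := by
  simp only [lin_apply, amp_apply]
  rw [← e.symm.sum_comp, Fintype.sum_prod_type]
  refine Finset.sum_congr rfl fun k _ => ?_
  simp only [Finset.smul_sum]
  rw [Finset.sum_comm (γ := I)]
  refine Finset.sum_congr rfl fun j _ => ?_
  rw [← e.symm.sum_comp, Fintype.sum_prod_type]
  simp

end mat

variable {C : Type u} [CStarAlgebra C] {τ : C}

theorem fib_ext (hτ : IsSelfAdjoint τ) (hc : ∀ y, τ * y = y * τ) {x y : C}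
    (h : ∀ (t : ℝ) (Q : Type u) [CStarAlgebra Q] (π : C →⋆ₐ[ℂ] Q), π τ = algebraMap ℝ Q t →
      π x = π y) : x = y := by
  rw [← sub_eq_zero, ← norm_le_zero_iff]
  refine loc_norm hτ hc _ le_rfl fun t _ ε hε => ?_
  obtain ⟨Q, _, π, -, h1, h2⟩ := exists_fiber hc t
  have := h2 (x - y) ε hε
  rwa [map_sub, h t Q π h1, sub_self, norm_zero] at this

theorem glue (hτ : IsSelfAdjoint τ) (hc : ∀ y, τ * y = y * τ) {D : Type*} [Ring D] [Algebra ℂ D]
    [StarRing D] (θ : D → C) (h : ∀ (t : ℝ) (Q : Type u) [CStarAlgebra Q] (π : C →⋆ₐ[ℂ] Q),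
      π τ = algebraMap ℝ Q t → ∃ ρ : D →⋆ₐ[ℂ] Q, ∀ f, π (θ f) = ρ f) : Nonempty (D →⋆ₐ[ℂ] C) := by
  refine ⟨{ toFun := θ
            map_one' := fib_ext hτ hc fun t Q _ π e => ?_
            map_mul' := fun x y => fib_ext hτ hc fun t Q _ π e => ?_
            map_zero' := fib_ext hτ hc fun t Q _ π e => ?_
            map_add' := fun x y => fib_ext hτ hc fun t Q _ π e => ?_
            commutes' := fun c => fib_ext hτ hc fun t Q _ π e => ?_
            map_star' := fun x => fib_ext hτ hc fun t Q _ π e => ?_ }⟩ <;>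
    obtain ⟨ρ, hρ⟩ := h t Q π e <;> simp [hρ, map_star, AlgHomClass.commutes]

theorem exists_cfc (hτ : IsSelfAdjoint τ) : ∃ c : C(ℝ, ℂ) → C,
    ∀ (t : ℝ) (Q : Type u) [CStarAlgebra Q] (π : C →⋆ₐ[ℂ] Q), π τ = algebraMap ℝ Q t →
      ∀ g, π (c g) = algebraMap ℂ Q (g t) := by
  refine ⟨fun g => fc τ hτ ⟨fun t => (g t).re, by fun_prop⟩ +
    Complex.I • fc τ hτ ⟨fun t => (g t).im, by fun_prop⟩, fun t Q _ π e g => ?_⟩
  have : ∀ f : C(ℝ, ℝ), π (fc τ hτ f) = algebraMap ℂ Q (f t) := fun f => by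
    rw [map_fc]
    change cfc f (π τ) = _
    rw [e, cfc_algebraMap, IsScalarTower.algebraMap_apply ℝ ℂ Q]
    rfl
  rw [map_add, map_smul, this, this, Algebra.smul_def, ← map_mul, ← map_add]
  congr 1
  rw [mul_comm]
  exact Complex.re_add_im _

theorem glue_dd (hτ : IsSelfAdjoint τ) (hc : ∀ y, τ * y = y * τ) {N I₀ J₀ I₁ J₁ : Type} [Fintype N]
    [DecidableEq N] [Fintype I₀] [DecidableEq I₀] [Fintype J₀] [DecidableEq J₀] [Fintype I₁]
    [DecidableEq I₁] [Fintype J₁] [DecidableEq J₁] (e₀ : N ≃ I₀ × J₀) (e₁ : N ≃ I₁ × J₁)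
    {Ψ : I₀ → I₀ → C} {Φ : I₁ → I₁ → C} {Ω : N → N → C} (hΨ : OZ Ψ (1 - τ)) (hΦ : OZ Φ τ)
    (hΩ : OZ Ω (τ * (1 - τ)))
    (h₀ : ∀ k l, τ * Ψ k l = ∑ j, Ω (e₀.symm (k, j)) (e₀.symm (l, j)))
    (h₁ : ∀ k l, (1 - τ) * Φ k l = ∑ j, Ω (e₁.symm (k, j)) (e₁.symm (l, j)))
    {D : Type*} [Ring D] [Algebra ℂ D] [StarRing D] (ev : ℝ → D →⋆ₐ[ℂ] Matrix N N ℂ)
    (hev : ∀ f u v, Continuous fun t => ev t f u v) (b : D →⋆ₐ[ℂ] Matrix I₀ I₀ ℂ)
    (a : D →⋆ₐ[ℂ] Matrix I₁ I₁ ℂ) (hb : ∀ t ≤ 1 / 3, ∀ f, ev t f = amp e₀ (b f))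
    (ha : ∀ t ≥ 2 / 3, ∀ f, ev t f = amp e₁ (a f)) : Nonempty (D →⋆ₐ[ℂ] C) := by
  obtain ⟨c, hc'⟩ := exists_cfc hτ
  let l : ℝ → ℂ := fun t => (max 0 (min 1 (3 * t - 1)) : ℝ)
  have cl : Continuous l := by fun_prop
  have ci : ∀ (g : ℝ → ℝ) (δ : ℝ), Continuous g → 0 < δ →
      Continuous fun t => ((max (g t) δ : ℝ) : ℂ)⁻¹ := fun g δ hg hδ =>
    Continuous.inv₀ (by fun_prop) fun t => by
      exact_mod_cast (lt_max_of_lt_right hδ).ne'
  let α : C(ℝ, ℂ) := ⟨fun t => (1 - l t) * ((max (1 - t) (1 / 3) : ℝ) : ℂ)⁻¹,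
    (continuous_const.sub cl).mul (ci _ _ (by fun_prop) (by norm_num))⟩
  let β : C(ℝ, ℂ) := ⟨fun t => l t * ((max t (1 / 3) : ℝ) : ℂ)⁻¹,
    cl.mul (ci _ _ (by fun_prop) (by norm_num))⟩
  let g : D → N → N → C(ℝ, ℂ) := fun f u v =>
    ⟨fun t => ((max (t * (1 - t)) (2 / 9) : ℝ) : ℂ)⁻¹ *
      (ev t f u v - (1 - l t) * amp e₀ (b f) u v - l t * amp e₁ (a f) u v),
      (ci _ _ (by fun_prop) (by norm_num)).mul (((hev f u v).sub
        ((continuous_const.sub cl).mul continuous_const)).sub (cl.mul continuous_const))⟩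
  refine glue hτ hc (fun f => c α * lin Ψ (b f) + c β * lin Φ (a f) + ∑ u, ∑ v, c (g f u v) * Ω u v)
    fun t Q _ π e => ?_
  have e' : π τ = algebraMap ℂ Q t := by rw [e, IsScalarTower.algebraMap_apply ℝ ℂ Q]; rfl
  have e'' : π (1 - τ) = algebraMap ℂ Q (1 - t) := by rw [map_sub, map_sub, e', map_one, map_one]
  have key : ∀ f, π (c α * lin Ψ (b f) + c β * lin Φ (a f) + ∑ u, ∑ v, c (g f u v) * Ω u v) =
      α t • lin (fun i j => π (Ψ i j)) (b f) + β t • lin (fun i j => π (Φ i j)) (a f) +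
      ((max (t * (1 - t)) (2 / 9) : ℝ) : ℂ)⁻¹ • lin (fun i j => π (Ω i j))
        (ev t f - (1 - l t) • amp e₀ (b f) - l t • amp e₁ (a f)) := fun f => by
    simp only [map_add π, map_mul π, map_sum π, hc' t Q π e, map_lin, ← Algebra.smul_def]
    congr 1
    rw [← map_smul]
    rfl
  simp only [key]
  by_cases h1 : t ≤ 1 / 3
  · have l0 : l t = 0 := by
      simp only [l]; rw [max_eq_left (min_le_of_right_le (by linarith))]; simp
    obtain ⟨ρ, hρ⟩ := fib_hom (e'' ▸ hΨ.map π) (by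
      exact_mod_cast (by linarith : (1 : ℝ) - t ≠ 0)) (by simp)
    refine ⟨ρ.comp b, fun f => ?_⟩
    simp [α, β, l0, hb t h1, hρ, max_eq_left (by linarith : (3 : ℝ)⁻¹ ≤ 1 - t)]
  by_cases h2 : 2 / 3 ≤ t
  · have l1 : l t = 1 := by
      simp only [l]; rw [min_eq_left (by linarith)]; simp
    obtain ⟨ρ, hρ⟩ := fib_hom (e' ▸ hΦ.map π) (by
      exact_mod_cast (by linarith : t ≠ 0)) (by simp)
    refine ⟨ρ.comp a, fun f => ?_⟩
    simp [α, β, l1, ha t h2, hρ, max_eq_left (by linarith : (3 : ℝ)⁻¹ ≤ t)]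
  push Not at h1 h2
  have t0 : (t : ℂ) ≠ 0 := by exact_mod_cast (by linarith : t ≠ 0)
  have t1 : (1 - t : ℂ) ≠ 0 := by exact_mod_cast (by linarith : (1 : ℝ) - t ≠ 0)
  have hΩ' := hΩ.map π
  rw [map_mul, e', e'', ← map_mul] at hΩ'
  obtain ⟨ρ, hρ⟩ := fib_hom hΩ' (mul_ne_zero t0 t1) (by simp [mul_comm])
  refine ⟨ρ.comp (ev t), fun f => ?_⟩
  have q0 : lin (fun i j => π (Ω i j)) (amp e₀ (b f)) = (t : ℂ) • lin (fun i j => π (Ψ i j)) (b f) := by
    rw [lin_amp, Algebra.smul_def, mul_lin, ← e']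
    simp only [← map_mul, h₀, map_sum]
  have q1 : lin (fun i j => π (Ω i j)) (amp e₁ (a f))
      = (1 - t : ℂ) • lin (fun i j => π (Φ i j)) (a f) := by
    rw [lin_amp, Algebra.smul_def, mul_lin, ← e'']
    simp only [← map_mul, h₁, map_sum]
  rw [StarAlgHom.comp_apply, hρ, map_sub, map_sub, map_smul, map_smul, q0, q1,
    max_eq_left (by nlinarith)]
  simp only [α, β, ContinuousMap.coe_mk]
  rw [max_eq_left (by linarith), max_eq_left (by linarith)]
  push_cast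
  match_scalars <;> field_simp <;> ring

end Vale.Agent.P101
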