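import Vale.Agent.P101.Simple

/-! Order zero systems and the telescoping step. -/

namespace Vale.Agent.P101

universe u

variable {B : Type u} [CStarAlgebra B] {ι : Type} [Fintype ι] [DecidableEq ι]

theorem eq_zero_of_star_mul {x : B} (h : star x * x = 0) : x = 0 :=
  (CStarRing.star_mul_self_eq_zero_iff x).1 h

theorem sa_mul_eq_zero {r y : B} (hr : IsSelfAdjoint r) (h : r * r * y = 0) : r * y = 0 :=
  eq_zero_of_star_mul (by rw [star_mul, hr.star_eq, mul_assoc, ← mul_assoc r, h, mul_zero])

theorem Full.star_mul_self {x : B} (h : Full x) : Full (star x * x) :=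
  full_of_simple fun _ _ _ π _ h0 => (h.map π).ne_zero
    (eq_zero_of_star_mul (by rwa [map_mul, map_star] at h0))

theorem exists_sqrt [PartialOrder B] [StarOrderedRing B] {x : B} (hx : 0 ≤ x) :
    ∃ r : B, IsSelfAdjoint r ∧ r * r = x ∧ ∀ y, Commute x y → Commute r y := by
  have hs : IsSelfAdjoint x := IsSelfAdjoint.of_nonneg hx
  refine ⟨fc x hs ⟨Real.sqrt, Real.continuous_sqrt⟩, fc_sa _ _, ?_, fun y hy => fc_comm _ hy _⟩
  rw [← map_mul]
  refine (fc_congr hs fun t ht => ?_).trans (fc_X hs)
  exact Real.mul_self_sqrt (spectrum_nonneg_of_nonneg hx ht)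

theorem fc_nonneg [PartialOrder B] [StarOrderedRing B] {a : B} (ha : IsSelfAdjoint a) {f : C(ℝ, ℝ)}
    (h : ∀ t ∈ spectrum ℝ a, 0 ≤ f t) : 0 ≤ fc a ha f := cfc_nonneg h

theorem Full.exists_col {y : B} (h : Full y) :
    ∃ (κ : Type) (_ : Fintype κ) (w : κ → B), ∑ k, star (y * w k) * (y * w k) = 1 := by
  letI := CStarAlgebra.spectralOrder B
  haveI := CStarAlgebra.spectralOrderedRing B
  rcases subsingleton_or_nontrivial B with _ | _
  · exact ⟨Unit, inferInstance, 0, Subsingleton.elim _ _⟩
  obtain ⟨κ, _, u, w, huw⟩ := h.exists_sum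
  set d := ∑ k, star (y * w k) * (y * w k) with hd
  have hd0 : 0 ≤ d := Finset.sum_nonneg fun k _ => star_mul_self_nonneg _
  have hs : IsSelfAdjoint d := IsSelfAdjoint.of_nonneg hd0
  have hu : IsUnit d := by
    by_contra hn
    have h0 : (0 : ℝ) ∈ spectrum ℝ d := (spectrum.zero_mem_iff ℝ).2 hn
    set M := ∑ k, ‖u k‖ with hM
    have hM0 : 0 ≤ M := by positivity
    set ε := 1 / (M + 1) with hε
    have hε0 : 0 < ε := by positivity
    let φ : C(ℝ, ℝ) := ⟨fun t => max 0 (1 - |t| / (ε * ε)), by fun_prop⟩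
    set f := fc d hs φ with hf
    have h1 : 1 ≤ ‖f‖ := by
      have := norm_apply_le_norm_cfc φ d h0 φ.continuous.continuousOn hs
      have h0 : φ 0 = 1 := by simp [φ]
      rwa [h0, norm_one] at this
    have h2 : ‖f * d * f‖ ≤ ε * ε := by
      have : f * d * f = fc d hs (φ * X * φ) := by rw [map_mul, map_mul, fc_X]
      rw [this]
      refine fc_norm_le _ (by positivity) fun t _ => ?_
      change |max 0 (1 - |t| / (ε * ε)) * t * max 0 (1 - |t| / (ε * ε))| ≤ _
      have h3 : 0 ≤ |t| / (ε * ε) := by positivity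
      by_cases ht : |t| ≤ ε * ε
      · have h4 : max 0 (1 - |t| / (ε * ε)) ≤ 1 := max_le zero_le_one (by linarith)
        rw [abs_mul, abs_mul, abs_of_nonneg (le_max_left _ _)]
        calc _ ≤ 1 * (ε * ε) * 1 := by gcongr
          _ = _ := by ring
      · rw [max_eq_left, mul_zero, abs_zero]
        · positivity
        · rw [sub_nonpos, one_le_div (by positivity)]; exact (not_le.1 ht).le
    have h3 : ∀ k, ‖y * w k * f‖ ≤ ε := fun k => by
      refine le_of_mul_self_le ?_ hε0.le
      rw [← CStarRing.norm_star_mul_self]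
      refine (CStarAlgebra.norm_le_norm_of_nonneg_of_le (star_mul_self_nonneg _) ?_).trans h2
      have := star_left_conjugate_le_conjugate (Finset.single_le_sum
        (f := fun k => star (y * w k) * (y * w k))
        (fun k _ => star_mul_self_nonneg _) (Finset.mem_univ k)) f
      rw [← hd, hf, fc_star] at this
      rw [star_mul, hf, fc_star]
      simpa only [mul_assoc] using this
    have h4 : ‖f‖ ≤ M * ε := by
      calc ‖f‖ = ‖∑ k, u k * (y * w k * f)‖ := by
            conv_lhs => rw [← one_mul f, ← huw, Finset.sum_mul]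
            simp only [mul_assoc]
        _ ≤ ∑ k, ‖u k‖ * ε := norm_sum_le_of_le _ fun k _ =>
            (norm_mul_le _ _).trans (mul_le_mul_of_nonneg_left (h3 k) (norm_nonneg _))
        _ = _ := by rw [hM, Finset.sum_mul]
    have h5 : M * ε < 1 := by rw [hε, mul_one_div, div_lt_one (by positivity)]; linarith
    linarith
  obtain ⟨r, hr, hrr, -⟩ := exists_sqrt hd0
  obtain ⟨v, rfl⟩ : IsUnit r := ((Commute.refl r).isUnit_mul_iff.1 (hrr ▸ hu)).1
  have hv : star (↑v⁻¹ : B) = ↑v⁻¹ := by
    have : star (↑v⁻¹ : B) * v = 1 := by rw [← hr.star_eq, ← star_mul, Units.mul_inv, star_one]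
    rw [← mul_one (star (↑v⁻¹ : B)), ← v.mul_inv, ← mul_assoc, this, one_mul]
  refine ⟨κ, inferInstance, fun k => w k * ↑v⁻¹, ?_⟩
  have : ∀ k, star (y * (w k * ↑v⁻¹)) * (y * (w k * ↑v⁻¹))
      = ↑v⁻¹ * (star (y * w k) * (y * w k)) * ↑v⁻¹ := fun k => by
    simp only [star_mul, hv, mul_assoc]
  simp only [this, ← Finset.sum_mul, ← Finset.mul_sum]
  rw [← hd, ← hrr, Units.inv_mul_cancel_left, Units.mul_inv]

/-- `v i` have orthogonal ranges and the common source `a`. -/
def Sys {ι : Type} [DecidableEq ι] (v : ι → B) (a : B) : Prop :=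
  ∀ i j, star (v i) * v j = if i = j then a else 0

/-- Order zero images of matrix units with unit `H`. -/
structure OZ (φ : ι → ι → B) (H : B) : Prop where
  st : ∀ i j, star (φ i j) = φ j i
  mul : ∀ i j k l, φ i j * φ k l = if j = k then H * φ i l else 0
  sum : ∑ i, φ i i = H

namespace OZ
variable {φ ψ : ι → ι → B} {H K : B}

theorem map {B' : Type u} [CStarAlgebra B'] (h : OZ φ H) (π : B →⋆ₐ[ℂ] B') :
    OZ (fun i j => π (φ i j)) (π H) where
  st i j := by rw [← map_star, h.st]
  mul i j k l := by rw [← map_mul, h.mul]; split_ifs <;> simp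
  sum := by rw [← h.sum, map_sum]

theorem sa (h : OZ φ H) : IsSelfAdjoint H := by
  rw [← h.sum]; exact isSelfAdjoint_sum _ fun i _ => h.st i i

theorem comm (h : OZ φ H) (i j : ι) : Commute H (φ i j) := by
  change _ = _
  conv_rhs => rw [← h.sum, Finset.mul_sum]
  simp [h.mul]

theorem comm' (h : OZ φ H) {y : B} (hy : ∀ i j, Commute (φ i j) y) : Commute H y := by
  rw [← h.sum]; exact Commute.sum_left _ _ _ fun i _ => hy i i

theorem fix (h : OZ φ H) {i : ι} {z : B} (hz : φ i i * z = z) : H * z = z := by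
  have := congrArg (· * z) (h.mul i i i i)
  simpa only [if_true, mul_assoc, hz] using this.symm

theorem scale (h : OZ φ H) {α : B} (hα : IsSelfAdjoint α) (hc : ∀ i j, Commute α (φ i j)) :
    OZ (fun i j => α * φ i j) (α * H) where
  st i j := by rw [star_mul, h.st, hα.star_eq, (hc j i).eq]
  mul i j k l := by
    rw [mul_assoc, ← (hc i j).left_comm, h.mul]
    split_ifs
    · rw [mul_assoc, (h.comm' fun i j => (hc i j).symm).left_comm]
    · simp
  sum := by rw [← Finset.mul_sum, h.sum]

theorem flip (h : OZ φ H) (g : OZ ψ K) (hc : ∀ i j k l, Commute (φ i j) (ψ k l)) :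
    OZ (fun i j => H * φ i j + K * ψ i j +
      Complex.I • (∑ l, φ i l * ψ l j - ∑ l, ψ i l * φ l j)) (H * H + K * K) := by
  have cHψ : ∀ i j, Commute H (ψ i j) := fun i j => h.comm' fun _ _ => hc _ _ _ _
  have cKφ : ∀ i j, Commute K (φ i j) := fun i j => g.comm' fun _ _ => (hc _ _ _ _).symm
  have cKH : Commute K H := g.comm' fun _ _ => (cHψ _ _).symm
  set P : ι → ι → B := fun i j => ∑ l, φ i l * ψ l j with hP
  set R : ι → ι → B := fun i j => ∑ l, ψ i l * φ l j with hR
  have cHP : ∀ i j, Commute H (P i j) := fun i j =>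
    Commute.sum_right _ _ _ fun l _ => (h.comm _ _).mul_right (cHψ _ _)
  have cHR : ∀ i j, Commute H (R i j) := fun i j =>
    Commute.sum_right _ _ _ fun l _ => (cHψ _ _).mul_right (h.comm _ _)
  have cKP : ∀ i j, Commute K (P i j) := fun i j =>
    Commute.sum_right _ _ _ fun l _ => (cKφ _ _).mul_right (g.comm _ _)
  have cKR : ∀ i j, Commute K (R i j) := fun i j =>
    Commute.sum_right _ _ _ fun l _ => (g.comm _ _).mul_right (cKφ _ _)
  have aP : ∀ i j k l, φ i j * P k l = if j = k then H * P i l else 0 := fun i j k l => by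
    simp only [hP, Finset.mul_sum, ← mul_assoc, h.mul]; split_ifs <;> simp
  have bR : ∀ i j k l, ψ i j * R k l = if j = k then K * R i l else 0 := fun i j k l => by
    simp only [hR, Finset.mul_sum, ← mul_assoc, g.mul]; split_ifs <;> simp
  have Pb : ∀ i j k l, P i j * ψ k l = if j = k then K * P i l else 0 := fun i j k l => by
    simp only [hP, Finset.mul_sum, Finset.sum_mul, mul_assoc, g.mul]
    split_ifs
    · exact Finset.sum_congr rfl fun m _ => (cKφ _ _).symm.left_comm _
    · simp
  have Ra : ∀ i j k l, R i j * φ k l = if j = k then H * R i l else 0 := fun i j k l => by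
    simp only [hR, Finset.mul_sum, Finset.sum_mul, mul_assoc, h.mul]
    split_ifs
    · exact Finset.sum_congr rfl fun m _ => (cHψ _ _).symm.left_comm _
    · simp
  have Pa : ∀ i j k l, P i j * φ k l = H * (φ i l * ψ k j) := fun i j k l => by
    simp only [hP, Finset.sum_mul, mul_assoc, ← (hc _ _ _ _).eq]
    simp [← mul_assoc, h.mul]
  have Rb : ∀ i j k l, R i j * ψ k l = K * (ψ i l * φ k j) := fun i j k l => by
    simp only [hR, Finset.sum_mul, mul_assoc, (hc _ _ _ _).eq]
    simp [← mul_assoc, g.mul]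
  have aR : ∀ i j k l, φ i j * R k l = H * (φ i l * ψ k j) := fun i j k l => by
    simp only [hR, Finset.mul_sum, ← (hc _ _ _ _).eq]
    simp [← mul_assoc, h.mul]
  have bP : ∀ i j k l, ψ i j * P k l = K * (ψ i l * φ k j) := fun i j k l => by
    simp only [hP, Finset.mul_sum, (hc _ _ _ _).eq]
    simp [← mul_assoc, g.mul]
  have PP : ∀ i j k l, P i j * P k l = H * (K * (φ i j * ψ k l)) := fun i j k l => by
    have : ∀ m, P i j * (φ k m * ψ m l) = H * (φ i m * (ψ k j * ψ m l)) := fun m => by
      rw [← mul_assoc, Pa]; simp only [mul_assoc]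
    rw [show P k l = ∑ m, φ k m * ψ m l from rfl, Finset.mul_sum]
    simp only [this, g.mul]
    simp [(cKφ _ _).left_comm]
  have RR : ∀ i j k l, R i j * R k l = H * (K * (ψ i j * φ k l)) := fun i j k l => by
    have : ∀ m, R i j * (ψ k m * φ m l) = K * (ψ i m * (φ k j * φ m l)) := fun m => by
      rw [← mul_assoc, Rb]; simp only [mul_assoc]
    rw [show R k l = ∑ m, ψ k m * φ m l from rfl, Finset.mul_sum]
    simp only [this, h.mul]
    simp [← (cHψ _ _).left_comm, cKH.left_comm]
  have PR : ∀ i j k l, P i j * R k l = if j = k then H * (K * (K * φ i l)) else 0 := fun i j k l => by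
    have : ∀ m, P i j * (ψ k m * φ m l) = if j = k then K * (H * (φ i l * ψ m m)) else 0 := fun m => by
      rw [← mul_assoc, Pb]; split_ifs
      · rw [mul_assoc, Pa]
      · simp
    rw [show R k l = ∑ m, ψ k m * φ m l from rfl, Finset.mul_sum]
    simp only [this]
    split_ifs
    · simp only [← Finset.mul_sum, g.sum, cKH.left_comm, (cKφ _ _).eq]
    · simp
  have RP : ∀ i j k l, R i j * P k l = if j = k then H * (H * (K * ψ i l)) else 0 := fun i j k l => by
    have : ∀ m, R i j * (φ k m * ψ m l) = if j = k then H * (K * (ψ i l * φ m m)) else 0 := fun m => by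
      rw [← mul_assoc, Ra]; split_ifs
      · rw [mul_assoc, Rb]
      · simp
    rw [show P k l = ∑ m, φ k m * ψ m l from rfl, Finset.mul_sum]
    simp only [this]
    split_ifs
    · simp only [← Finset.mul_sum, h.sum, ← (cHψ _ _).eq, cKH.left_comm]
    · simp
  refine ⟨fun i j => ?_, fun i j k l => ?_, ?_⟩
  · have h1 : star (P i j) = R j i := by simp only [hP, hR, star_sum, star_mul, h.st, g.st]
    have h2 : star (R i j) = P j i := by simp only [hP, hR, star_sum, star_mul, h.st, g.st]
    change star (H * φ i j + K * ψ i j + Complex.I • (P i j - R i j))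
      = H * φ j i + K * ψ j i + Complex.I • (P j i - R j i)
    simp only [star_add, star_mul, star_smul, star_sub, h1, h2, h.st, g.st, h.sa.star_eq,
      g.sa.star_eq, (h.comm _ _).eq, (g.comm _ _).eq, Complex.star_def, Complex.conj_I]
    module
  · change (H * φ i j + K * ψ i j + Complex.I • (P i j - R i j)) *
      (H * φ k l + K * ψ k l + Complex.I • (P k l - R k l)) = if j = k then
      (H * H + K * K) * (H * φ i l + K * ψ i l + Complex.I • (P i l - R i l)) else 0
    simp only [mul_add, add_mul, mul_sub, sub_mul, smul_sub, mul_smul_comm, smul_mul_assoc,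
      smul_add, smul_smul, Complex.I_mul_I, mul_assoc, (h.comm _ _).symm.left_comm,
      (g.comm _ _).symm.left_comm, (cHψ _ _).symm.left_comm, (cKφ _ _).symm.left_comm,
      (cHP _ _).symm.left_comm, (cHR _ _).symm.left_comm, (cKP _ _).symm.left_comm,
      (cKR _ _).symm.left_comm, cKH.left_comm, h.mul, g.mul, aP, bR, Pb, Ra, Pa, Rb, aR, bP, PP, RR,
      PR, RP]
    split_ifs
    · module
    · simp only [mul_zero, smul_zero, cKH.left_comm]
      module
  · simp only [Finset.sum_add_distrib, ← Finset.mul_sum, ← Finset.smul_sum, h.sum, g.sum,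
      Finset.sum_sub_distrib]
    rw [Finset.sum_comm (f := fun i l => ψ i l * φ l i)]
    simp [(hc _ _ _ _).eq]

end OZ

theorem Sys.oz {v : ι → B} {a : B} (h : Sys v a) :
    OZ (fun i j => v i * star (v j)) (∑ i, v i * star (v i)) where
  st i j := by rw [star_mul, star_star]
  mul i j k l := by
    have : ∀ m, v m * star (v m) * (v i * star (v l)) = if m = i then v m * a * star (v l) else 0 :=
      fun m => by rw [mul_assoc, ← mul_assoc (star _), h]; split_ifs <;> simp [mul_assoc]
    rw [mul_assoc, ← mul_assoc (star _), h, Finset.sum_mul]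
    simp only [this]
    split_ifs <;> simp [mul_assoc]
  sum := rfl

theorem Sys.norm_le {v : ι → B} {a : B} (h : Sys v a) (ha : ‖a‖ ≤ 1) :
    ‖∑ i, v i * star (v i)‖ ≤ 1 := by
  have h1 := IsSelfAdjoint.nnnorm_sum_eq_sup (f := fun i => v i * star (v i)) Finset.univ
    (fun i _ => IsSelfAdjoint.mul_star_self _) fun i j hij => by
      change v i * star (v i) * (v j * star (v j)) = 0
      rw [mul_assoc, ← mul_assoc (star _), h, if_neg hij]; simp
  have h2 : ‖∑ i, v i * star (v i)‖₊ ≤ 1 := by
    rw [h1]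
    refine Finset.sup_le fun i _ => ?_
    have : ‖v i * star (v i)‖ ≤ 1 := by
      rw [CStarRing.norm_self_mul_star, ← CStarRing.norm_star_mul_self, h, if_pos rfl]; exact ha
    exact this
  exact h2

theorem Sys.base {v : ι → B} {a : B} (h : Sys v a) (ha : Full a) (i₀ : ι) :
    ∃ (φ : ι → ι → B) (H : B) (κ : Type) (_ : Fintype κ) (z : κ → B), OZ φ H ∧ ‖H‖ ≤ 1 ∧
      (∀ k, φ i₀ i₀ * z k = z k) ∧ ∑ k, star (z k) * z k = 1 := by
  have ha' : a = star (v i₀) * v i₀ := by rw [h, if_pos rfl]
  have hs : IsSelfAdjoint a := ha' ▸ IsSelfAdjoint.star_mul_self _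
  have hp : ∀ t ∈ spectrum ℝ a, 0 ≤ t := ha' ▸ spectrum_star_mul_self_nonneg
  have hv : Full (v i₀) := fun I hI => ha I (ha' ▸ I.mul_mem_left _ _ hI)
  obtain ⟨ρ, _, u, w, huw⟩ := hv.exists_sum
  set M := ∑ k, ‖u k‖ * ‖w k‖ with hM
  have hM0 : 0 ≤ M := by positivity
  set δ := 1 / (M + 1) with hδ
  have hδ0 : 0 < δ := by positivity
  set ε := δ * δ / 2 with hε
  have hε0 : 0 < ε := by positivity
  let c : C(ℝ, ℝ) := ⟨fun t => max 0 (min 1 ((t - ε) / ε)), by fun_prop⟩
  let s : C(ℝ, ℝ) := ⟨fun t => √(max t ε), by fun_prop⟩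
  have s0 : ∀ t, 0 < √(max t ε) := fun t => Real.sqrt_pos.2 (lt_max_of_lt_right hε0)
  let r : C(ℝ, ℝ) := ⟨fun t => (√(max t ε))⁻¹, Continuous.inv₀ (by fun_prop) fun t => (s0 t).ne'⟩
  have hr : ∀ t, r t * t * r t = t / max t ε := fun t => by
    change (√(max t ε))⁻¹ * t * (√(max t ε))⁻¹ = _
    rw [mul_right_comm, ← mul_inv, Real.mul_self_sqrt (le_max_of_le_right hε0.le), inv_mul_eq_div]
  have h1 : ‖v i₀ * (1 - fc a hs c)‖ ≤ δ := by
    refine le_of_mul_self_le ?_ hδ0.le
    have : star (v i₀ * (1 - fc a hs c)) * (v i₀ * (1 - fc a hs c))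
        = fc a hs ((1 - c) * X * (1 - c)) := by
      rw [map_mul, map_mul, map_sub, map_one, fc_X, star_mul, star_sub, star_one, fc_star,
        mul_assoc, ← mul_assoc (star _), ← ha', mul_assoc]
    rw [← CStarRing.norm_star_mul_self, this]
    refine fc_norm_le _ (by positivity) fun t ht => ?_
    change |(1 - max 0 (min 1 ((t - ε) / ε))) * t * (1 - max 0 (min 1 ((t - ε) / ε)))| ≤ _
    have q0 : 0 ≤ 1 - max 0 (min 1 ((t - ε) / ε)) :=
      sub_nonneg.2 (max_le zero_le_one (min_le_left _ _))
    have q1 : 1 - max 0 (min 1 ((t - ε) / ε)) ≤ 1 := sub_le_self _ (le_max_left _ _)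
    by_cases h2 : t ≤ δ * δ
    · rw [abs_of_nonneg (mul_nonneg (mul_nonneg q0 (hp t ht)) q0)]
      have := hp t ht
      calc _ ≤ 1 * (δ * δ) * 1 := by gcongr
        _ = _ := by ring
    · rw [min_eq_left, max_eq_right zero_le_one, sub_self, mul_zero, abs_zero]
      · positivity
      · rw [one_le_div hε0]; linarith
  have h2 : Full (v i₀ * fc a hs c) := by
    refine Full.of_sum u w _ rfl (isUnit_of_norm_lt ?_)
    calc _ = ‖∑ k, u k * (v i₀ * (1 - fc a hs c)) * w k‖ := by
          rw [← huw, ← Finset.sum_sub_distrib, huw]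
          congr 1
          exact Finset.sum_congr rfl fun k _ => by noncomm_ring
      _ ≤ ∑ k, ‖u k‖ * ‖w k‖ * δ := norm_sum_le_of_le _ fun k _ => norm_mul₃_le.trans (by
          calc _ ≤ ‖u k‖ * δ * ‖w k‖ := by gcongr
            _ = _ := by ring)
      _ < 1 := by
          rw [← Finset.sum_mul, ← hM, hδ, mul_one_div, div_lt_one (by positivity)]; linarith
  have h3 : Full (v i₀ * fc a hs r * fc a hs c) := fun I hI => h2 I (by
    have := I.mul_mem_right _ (fc a hs s) hI
    rwa [mul_assoc, mul_assoc, ← map_mul, ← map_mul, show r * (c * s) = c from ?_] at this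
    ext t
    change (√(max t ε))⁻¹ * (c t * √(max t ε)) = c t
    field_simp [(s0 t).ne'])
  obtain ⟨κ, _, y, hy⟩ := h3.exists_col
  have h4 : Sys (fun i => v i * fc a hs r) (fc a hs (r * X * r)) := fun i j => by
    rw [star_mul, fc_star, mul_assoc, ← mul_assoc (star _), h, map_mul, map_mul, fc_X]
    split_ifs <;> simp [mul_assoc]
  refine ⟨_, _, κ, inferInstance, _, h4.oz, h4.norm_le (fc_norm_le _ zero_le_one fun t ht => ?_),
    fun k => ?_, hy⟩
  · change |r t * t * r t| ≤ 1
    have : 0 < max t ε := lt_max_of_lt_right hε0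
    rw [hr, abs_of_nonneg (div_nonneg (hp t ht) this.le), div_le_one this]
    exact le_max_left _ _
  · have h5 : fc a hs (r * X * r) * fc a hs c = fc a hs c := by
      rw [← map_mul]
      congr 1
      ext t
      change r t * t * r t * c t = c t
      rw [hr]
      by_cases ht : ε ≤ t
      · rw [max_eq_left ht, div_self (hε0.trans_le ht).ne', one_mul]
      · have : c t = 0 := max_eq_left (min_le_of_right_le
          (div_nonpos_of_nonpos_of_nonneg (by linarith) hε0.le))
        rw [this, mul_zero]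
    have h6 := h4 i₀ i₀
    rw [if_pos rfl] at h6
    rw [mul_assoc, ← mul_assoc (star _), ← mul_assoc (star _), h6, h5, ← mul_assoc]

end Vale.Agent.P101
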