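import Mathlib

/-! Quotients of C*-algebras by closed two-sided ideals, simple quotients, localization. -/

namespace Vale.Agent.P101

universe u

section Quot
variable {A : Type u} [CStarAlgebra A]

/-- Real functional calculus as an algebra homomorphism. -/
noncomputable def fc (a : A) (ha : IsSelfAdjoint a) : C(ℝ, ℝ) →ₐ[ℝ] A where
  toFun f := cfc f a
  map_one' := cfc_one ℝ a
  map_mul' f g := cfc_mul f g a f.continuous.continuousOn g.continuous.continuousOn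
  map_zero' := cfc_zero ℝ a
  map_add' f g := cfc_add a f g f.continuous.continuousOn g.continuous.continuousOn
  commutes' r := cfc_const r a

/-- The identity function. -/
def X : C(ℝ, ℝ) := ContinuousMap.id ℝ

@[simp] theorem X_apply (t : ℝ) : X t = t := rfl

variable {a : A} (ha : IsSelfAdjoint a)

theorem fc_X : fc a ha X = a := cfc_id ℝ a

theorem fc_congr {f g : C(ℝ, ℝ)} (h : ∀ t ∈ spectrum ℝ a, f t = g t) : fc a ha f = fc a ha g :=
  cfc_congr h

theorem fc_sa (f : C(ℝ, ℝ)) : IsSelfAdjoint (fc a ha f) := cfc_predicate _ _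

theorem fc_star (f : C(ℝ, ℝ)) : star (fc a ha f) = fc a ha f := fc_sa ha f

theorem fc_norm_le {f : C(ℝ, ℝ)} {c : ℝ} (hc : 0 ≤ c) (h : ∀ t ∈ spectrum ℝ a, |f t| ≤ c) :
    ‖fc a ha f‖ ≤ c := norm_cfc_le hc h

theorem fc_comm {b : A} (h : Commute a b) (f : C(ℝ, ℝ)) : Commute (fc a ha f) b := h.cfc_real f

theorem fc_ne_zero {f : C(ℝ, ℝ)} {t : ℝ} (ht : t ∈ spectrum ℝ a) (h : f t ≠ 0) : fc a ha f ≠ 0 := by
  intro h0
  have := norm_apply_le_norm_cfc f a ht f.continuous.continuousOn ha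
  change _ ≤ ‖fc a ha f‖ at this
  rw [h0, norm_zero] at this
  exact h (norm_le_zero_iff.1 this)

omit ha in
theorem cont {B : Type*} [CStarAlgebra B] (π : A →⋆ₐ[ℂ] B) : Continuous π :=
  AddMonoidHomClass.continuous_of_bound π 1 fun x => by
    simpa using NonUnitalStarAlgHom.norm_apply_le π x

theorem map_fc {B : Type*} [CStarAlgebra B] (π : A →⋆ₐ[ℂ] B) (f : C(ℝ, ℝ)) :
    π (fc a ha f) = fc (π a) (ha.map π) f := by
  have hπ : Continuous π := cont π
  exact StarAlgHomClass.map_cfc (R := ℝ) (S := ℂ) π f a f.continuous.continuousOn hπ ha (ha.map π)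

omit ha in
theorem le_of_mul_self_le {a b : ℝ} (h : a * a ≤ b * b) (hb : 0 ≤ b) : a ≤ b :=
  abs_le_of_sq_le_sq' (by nlinarith) hb |>.2

omit ha in
theorem approx_unit (y : A) {ε : ℝ} (hε : 0 < ε) :
    ∃ f w : A, star f = f ∧ ‖f‖ ≤ 1 ∧ 1 - f = w * (star y * y) ∧ ‖y * f‖ ≤ ε := by
  have hsa : IsSelfAdjoint (star y * y) := IsSelfAdjoint.star_mul_self y
  have hd : 0 < ε ^ 4 := by positivity
  let φ : C(ℝ, ℝ) := ⟨fun t : ℝ => ε ^ 4 / (ε ^ 4 + t ^ 2),
    continuous_const.div (by fun_prop) fun t => by positivity⟩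
  let ψ : C(ℝ, ℝ) := ⟨fun t : ℝ => t / (ε ^ 4 + t ^ 2),
    continuous_id.div (by fun_prop) fun t => by positivity⟩
  have e1 : ∀ t : ℝ, ε ^ 4 / (ε ^ 4 + t ^ 2) ≤ 1 := fun t => by
    rw [div_le_one (by positivity)]; nlinarith [sq_nonneg t]
  refine ⟨fc _ hsa φ, fc _ hsa ψ, fc_star _ _, ?_, ?_, ?_⟩
  · refine fc_norm_le _ zero_le_one fun t _ => ?_
    change |ε ^ 4 / (ε ^ 4 + t ^ 2)| ≤ 1
    rw [abs_of_nonneg (by positivity)]
    exact e1 t
  · have : 1 - φ = ψ * X := by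
      ext t
      have : ε ^ 4 + t ^ 2 ≠ 0 := by positivity
      simp only [φ, ψ, ContinuousMap.sub_apply, ContinuousMap.one_apply, ContinuousMap.mul_apply,
        ContinuousMap.coe_mk, X_apply]
      field_simp
      ring
    have h2 := congrArg (fc _ hsa) this
    rwa [map_sub, map_one, map_mul, fc_X] at h2
  · have h1 : ‖y * fc _ hsa φ‖ * ‖y * fc _ hsa φ‖ = ‖fc _ hsa (φ * X * φ)‖ := by
      rw [← CStarRing.norm_star_mul_self, star_mul, fc_star, map_mul, map_mul, fc_X]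
      simp only [mul_assoc]
    have h3 : ‖fc _ hsa (φ * X * φ)‖ ≤ ε * ε := by
      refine fc_norm_le _ (by positivity) fun t _ => ?_
      have hp : 0 < ε ^ 4 + t ^ 2 := by positivity
      change |ε ^ 4 / (ε ^ 4 + t ^ 2) * t * (ε ^ 4 / (ε ^ 4 + t ^ 2))| ≤ _
      rw [abs_mul, abs_mul, abs_of_nonneg (a := ε ^ 4 / _) (by positivity)]
      have e2 : ε ^ 4 / (ε ^ 4 + t ^ 2) * |t| ≤ ε * ε := by
        rw [div_mul_eq_mul_div, div_le_iff₀ hp]
        have : ε ^ 2 * |t| ≤ ε ^ 4 + t ^ 2 := by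
          nlinarith [sq_nonneg (ε ^ 2 - |t|), sq_abs t, abs_nonneg t, sq_nonneg ε]
        nlinarith [sq_nonneg ε]
      calc _ ≤ ε * ε * 1 := mul_le_mul e2 (e1 t) (by positivity) (by positivity)
        _ = _ := mul_one _
    exact le_of_mul_self_le (h1 ▸ h3) hε.le

omit ha in
theorem star_mem_of_closed (I : TwoSidedIdeal A) (hI : IsClosed (I : Set A)) {x : A}
    (hx : x ∈ I) : star x ∈ I := by
  have : star x ∈ closure (I : Set A) := by
    rw [Metric.mem_closure_iff]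
    intro ε hε
    obtain ⟨f, w, hf, -, hw, hn⟩ := approx_unit x (half_pos hε)
    refine ⟨(1 - f) * star x, ?_, ?_⟩
    · rw [hw]
      exact I.mul_mem_right _ _ (I.mul_mem_left _ _ (I.mul_mem_left _ _ hx))
    · rw [dist_eq_norm]
      have : star x - (1 - f) * star x = star (x * f) := by
        rw [star_mul, hf]; noncomm_ring
      rw [this, norm_star]
      linarith
  rwa [hI.closure_eq] at this

/-- The quotient type. -/
def Qt (I : TwoSidedIdeal A) : Type u := A ⧸ I.asIdeal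

variable (I : TwoSidedIdeal A)

instance : Ring (Qt I) := inferInstanceAs (Ring (A ⧸ I.asIdeal))
instance : Algebra ℂ (Qt I) := inferInstanceAs (Algebra ℂ (A ⧸ I.asIdeal))

def Qt.mk : A →ₐ[ℂ] Qt I := Ideal.Quotient.mkₐ ℂ I.asIdeal

theorem Qt.surj : Function.Surjective (Qt.mk I) := Ideal.Quotient.mkₐ_surjective ℂ _

theorem Qt.eq_zero {x : A} : Qt.mk I x = 0 ↔ x ∈ I := Ideal.Quotient.eq_zero_iff_mem

theorem Qt.eq {x y : A} : Qt.mk I x = Qt.mk I y ↔ x - y ∈ I := by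
  rw [← Qt.eq_zero, map_sub, sub_eq_zero]

variable [hI : Fact (IsClosed (I : Set A))]

noncomputable instance : Star (Qt I) := ⟨fun q => Qt.mk I (star (Function.surjInv (Qt.surj I) q))⟩

theorem Qt.star_mk (x : A) : star (Qt.mk I x) = Qt.mk I (star x) := by
  change Qt.mk I _ = _
  rw [Qt.eq, ← star_sub]
  refine star_mem_of_closed I hI.out ?_
  rw [← Qt.eq, Function.surjInv_eq (Qt.surj I)]

noncomputable instance : StarRing (Qt I) where
  star_involutive q := by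
    obtain ⟨x, rfl⟩ := Qt.surj I q
    rw [Qt.star_mk, Qt.star_mk, star_star]
  star_mul p q := by
    obtain ⟨x, rfl⟩ := Qt.surj I p
    obtain ⟨y, rfl⟩ := Qt.surj I q
    rw [← map_mul, Qt.star_mk, Qt.star_mk, Qt.star_mk, star_mul, map_mul]
  star_add p q := by
    obtain ⟨x, rfl⟩ := Qt.surj I p
    obtain ⟨y, rfl⟩ := Qt.surj I q
    rw [← map_add, Qt.star_mk, Qt.star_mk, Qt.star_mk, star_add, map_add]

instance : StarModule ℂ (Qt I) where
  star_smul c q := by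
    obtain ⟨x, rfl⟩ := Qt.surj I q
    rw [← map_smul, Qt.star_mk, Qt.star_mk, star_smul, map_smul]

instance : IsClosed ((I.asIdeal : Ideal A) : Set A) := hI.out

noncomputable instance : NormedAddCommGroup (Qt I) :=
  inferInstanceAs (NormedAddCommGroup (A ⧸ I.asIdeal))

theorem Qt.norm_le (x : A) : ‖Qt.mk I x‖ ≤ ‖x‖ := Submodule.Quotient.norm_mk_le _ x

theorem Qt.norm_lt (q : Qt I) {ε : ℝ} (hε : 0 < ε) : ∃ x, Qt.mk I x = q ∧ ‖x‖ < ‖q‖ + ε :=
  Submodule.Quotient.norm_mk_lt (S := I.asIdeal) q hε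

noncomputable instance : NormedRing (Qt I) where
  dist_eq := NormedAddCommGroup.dist_eq
  norm_mul_le x y := le_of_forall_pos_le_add fun ε hε => by
    have := ((Metric.nhds_basis_ball.prod_nhds Metric.nhds_basis_ball).tendsto_iff
      Metric.nhds_basis_ball).mp (continuous_mul.tendsto (‖x‖, ‖y‖)) ε hε
    simp only [Set.mem_prod, Metric.mem_ball, and_imp, Prod.forall, Prod.exists] at this
    rcases this with ⟨ε₁, ε₂, ⟨h₁, h₂⟩, h⟩
    obtain ⟨⟨a, rfl, ha⟩, ⟨b, rfl, hb⟩⟩ := And.intro (Qt.norm_lt I x h₁) (Qt.norm_lt I y h₂)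
    simp only [dist, abs_sub_lt_iff] at h
    specialize h ‖a‖ ‖b‖ ⟨by linarith, by linarith [Qt.norm_le I a]⟩
      ⟨by linarith, by linarith [Qt.norm_le I b]⟩
    calc
      _ ≤ ‖a‖ * ‖b‖ := by rw [← map_mul]; exact (Qt.norm_le I (a * b)).trans (norm_mul_le a b)
      _ ≤ _ := (sub_lt_iff_lt_add'.mp h.1).le

noncomputable instance : NormedAlgebra ℂ (Qt I) where
  norm_smul_le c q := le_of_forall_pos_le_add fun ε hε => by
    have hc : 0 < ‖c‖ + 1 := by positivity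
    obtain ⟨x, rfl, hx⟩ := Qt.norm_lt I q (div_pos hε hc)
    rw [← map_smul]
    refine (Qt.norm_le I _).trans ?_
    rw [norm_smul]
    have h1 : ‖c‖ * ‖x‖ ≤ ‖c‖ * (‖Qt.mk I x‖ + ε / (‖c‖ + 1)) := by gcongr
    have h2 : ‖c‖ * (ε / (‖c‖ + 1)) ≤ ε := by
      rw [mul_div_assoc', div_le_iff₀ hc]; nlinarith
    linarith

instance : CompleteSpace (Qt I) := inferInstanceAs (CompleteSpace (A ⧸ I.asIdeal))

instance : CStarRing (Qt I) where
  norm_mul_self_le q := le_of_forall_pos_le_add fun ε hε => by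
    obtain ⟨x, rfl⟩ := Qt.surj I q
    obtain ⟨z, hz, hzn⟩ := Qt.norm_lt I (star (Qt.mk I x) * Qt.mk I x) (half_pos hε)
    rw [Qt.star_mk, ← map_mul, Qt.eq] at hz
    obtain ⟨f, w, hf, hf1, hw, hn⟩ := approx_unit (z - star x * x) (half_pos hε)
    have h1 : Qt.mk I x = Qt.mk I (x * f) := by
      rw [Qt.eq, ← mul_one_sub, hw]
      exact I.mul_mem_left _ _ (I.mul_mem_left _ _ (I.mul_mem_left _ _ hz))
    have h2 : ‖Qt.mk I x‖ ≤ ‖x * f‖ := h1 ▸ Qt.norm_le I _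
    have h3 : ‖x * f‖ * ‖x * f‖ = ‖f * z * f - f * ((z - star x * x) * f)‖ := by
      rw [← CStarRing.norm_star_mul_self, star_mul, hf]
      congr 1; noncomm_ring
    have h4 : ‖f * z * f‖ ≤ ‖z‖ := by
      calc _ ≤ ‖f‖ * ‖z‖ * ‖f‖ := norm_mul₃_le
        _ ≤ 1 * ‖z‖ * 1 := by gcongr
        _ = _ := by ring
    have h5 : ‖f * ((z - star x * x) * f)‖ ≤ ε / 2 := by
      calc _ ≤ ‖f‖ * ‖(z - star x * x) * f‖ := norm_mul_le _ _
        _ ≤ 1 * (ε / 2) := by gcongr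
        _ = _ := by ring
    calc _ ≤ ‖x * f‖ * ‖x * f‖ := by gcongr
      _ ≤ ‖f * z * f‖ + ‖f * ((z - star x * x) * f)‖ := h3 ▸ norm_sub_le _ _
      _ ≤ _ := by linarith

noncomputable instance : CStarAlgebra (Qt I) where

omit hI in
theorem exists_quot (hc : IsClosed (I : Set A)) :
    ∃ (Q : Type u) (_ : CStarAlgebra Q) (π : A →⋆ₐ[ℂ] Q), Function.Surjective π ∧
      (∀ x, π x = 0 ↔ x ∈ I) ∧ ∀ x ε, 0 < ε → ∃ y ∈ I, ‖x - y‖ < ‖π x‖ + ε := by
  haveI : Fact (IsClosed (I : Set A)) := ⟨hc⟩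
  refine ⟨Qt I, inferInstance, { Qt.mk I with map_star' := fun x => (Qt.star_mk I x).symm },
    Qt.surj I, fun x => Qt.eq_zero I, fun x ε hε => ?_⟩
  obtain ⟨z, hz, hn⟩ := Qt.norm_lt I (Qt.mk I x) hε
  refine ⟨x - z, (Qt.eq I).1 hz.symm, ?_⟩
  rw [sub_sub_cancel]
  exact hn

end Quot

end Vale.Agent.P101
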