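import Vale.Agent.P101.Quot

/-! Full elements, simple quotients, lifting of homomorphisms and localization. -/

namespace Vale.Agent.P101

universe u

open TopologicalSpace

section Alg
variable {R S : Type*} [Ring R] [Ring S]

/-- `x` generates the unit ideal. -/
def Full (x : R) : Prop := ∀ I : TwoSidedIdeal R, x ∈ I → (1 : R) ∈ I

theorem Full.map {F : Type*} [FunLike F R S] [RingHomClass F R S] (π : F) {x : R} (h : Full x) :
    Full (π x) := fun I hI => by
  have := h (I.comap π) (TwoSidedIdeal.mem_comap π |>.2 hI)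
  simpa [TwoSidedIdeal.mem_comap] using this

theorem Full.exists_sum {x : R} (h : Full x) :
    ∃ (ι : Type) (_ : Fintype ι) (u w : ι → R), ∑ i, u i * x * w i = 1 := by
  let I : TwoSidedIdeal R := .mk'
    {z | ∃ (ι : Type) (_ : Fintype ι) (u w : ι → R), ∑ i, u i * x * w i = z}
    ⟨Empty, inferInstance, fun i => i.elim, fun i => i.elim, by simp⟩
    (by
      rintro _ _ ⟨ι, _, u, w, rfl⟩ ⟨κ, _, u', w', rfl⟩
      exact ⟨ι ⊕ κ, inferInstance, Sum.elim u u', Sum.elim w w', by simp⟩)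
    (by
      rintro _ ⟨ι, _, u, w, rfl⟩
      exact ⟨ι, inferInstance, fun i => -u i, w, by simp⟩)
    (by
      rintro a _ ⟨ι, _, u, w, rfl⟩
      exact ⟨ι, inferInstance, fun i => a * u i, w, by simp [Finset.mul_sum, mul_assoc]⟩)
    (by
      rintro _ a ⟨ι, _, u, w, rfl⟩
      exact ⟨ι, inferInstance, u, fun i => w i * a, by simp [Finset.sum_mul, mul_assoc]⟩)
  have := h I ((TwoSidedIdeal.mem_mk' _ _ _ _ _ _ _).2
    ⟨Unit, inferInstance, fun _ => 1, fun _ => 1, by simp⟩)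
  rw [TwoSidedIdeal.mem_mk'] at this
  exact this

theorem Full.of_sum {x : R} {ι : Type*} [Fintype ι] (u w : ι → R) (y : R)
    (h : ∑ i, u i * x * w i = y) (hy : IsUnit y) : Full x := fun I hI => by
  have : y ∈ I := h ▸ sum_mem fun i _ => I.mul_mem_right _ _ (I.mul_mem_left _ _ hI)
  obtain ⟨v, rfl⟩ := hy
  simpa using I.mul_mem_left (↑v⁻¹) _ this

theorem Full.ne_zero [Nontrivial R] {x : R} (h : Full x) : x ≠ 0 := by
  rintro rfl
  exact one_ne_zero ((TwoSidedIdeal.mem_bot R).1 (h ⊥ (TwoSidedIdeal.zero_mem _)))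

theorem full_of_ne [IsSimpleRing R] {x : R} (h : x ≠ 0) : Full x :=
  fun I hI => IsSimpleRing.one_mem_of_ne_zero_mem I h hI

end Alg

theorem lift_hom {X Y Z : Type*} [Ring X] [Ring Y] [Ring Z] [Algebra ℂ X] [Algebra ℂ Y]
    [Algebra ℂ Z] [StarRing X] [StarRing Y] [StarRing Z] (p : X →⋆ₐ[ℂ] Y) (q : X →⋆ₐ[ℂ] Z)
    (hp : Function.Surjective p) (h : ∀ x, p x = 0 → q x = 0) :
    ∃ θ : Y →⋆ₐ[ℂ] Z, ∀ x, θ (p x) = q x := by
  have key : ∀ x, q (Function.surjInv hp (p x)) = q x := fun x => by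
    rw [← sub_eq_zero, ← map_sub]
    exact h _ (by rw [map_sub, Function.surjInv_eq hp, sub_self])
  refine ⟨{ toFun := fun y => q (Function.surjInv hp y)
            map_one' := by rw [← map_one p, key, map_one]
            map_mul' := fun a b => ?_
            map_zero' := by rw [← map_zero p, key, map_zero]
            map_add' := fun a b => ?_
            commutes' := fun c => by rw [← AlgHomClass.commutes p, key, AlgHomClass.commutes]
            map_star' := fun a => ?_ }, key⟩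
  · obtain ⟨a, rfl⟩ := hp a
    obtain ⟨b, rfl⟩ := hp b
    rw [← map_mul, key, key, key, map_mul]
  · obtain ⟨a, rfl⟩ := hp a
    obtain ⟨b, rfl⟩ := hp b
    rw [← map_add, key, key, key, map_add]
  · obtain ⟨a, rfl⟩ := hp a
    change q (Function.surjInv hp (star (p a))) = star (q (Function.surjInv hp (p a)))
    rw [← map_star, key, key, map_star]

variable {A : Type u} [CStarAlgebra A]

theorem closed_range {B : Type*} [CStarAlgebra B] (π : A →⋆ₐ[ℂ] B) : IsClosed (Set.range π) := by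
  let I : TwoSidedIdeal A := TwoSidedIdeal.ker π
  have hI : ∀ x, x ∈ I ↔ π x = 0 := fun x => TwoSidedIdeal.mem_ker π
  have hc : IsClosed (I : Set A) := by
    have : (I : Set A) = π ⁻¹' {0} := by ext x; exact hI x
    rw [this]
    exact isClosed_singleton.preimage (cont π)
  obtain ⟨Q, _, p, hp, hk, -⟩ := exists_quot I hc
  obtain ⟨θ, hθ⟩ := lift_hom p π hp fun x hx => (hI x).1 ((hk x).1 hx)
  have hinj : Function.Injective θ := by
    rw [injective_iff_map_eq_zero]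
    intro y hy
    obtain ⟨x, rfl⟩ := hp y
    rw [hθ] at hy
    exact (hk x).2 ((hI x).2 hy)
  have : Set.range π = Set.range θ := by
    ext z
    constructor
    · rintro ⟨x, rfl⟩; exact ⟨p x, hθ x⟩
    · rintro ⟨y, rfl⟩
      obtain ⟨x, rfl⟩ := hp y
      exact ⟨x, (hθ x).symm⟩
  rw [this]
  exact (NonUnitalStarAlgHom.isometry θ hinj).isClosedEmbedding.isClosed_range

/-- closure of an ideal -/
def clos (I : TwoSidedIdeal A) : TwoSidedIdeal A := .mk' (closure (I : Set A))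
  (subset_closure I.zero_mem)
  (fun hx hy => map_mem_closure₂ continuous_add hx hy fun _ h _ h' => I.add_mem h h')
  (fun hx => map_mem_closure continuous_neg hx fun _ h => I.neg_mem h)
  (fun {x _} hy => map_mem_closure (continuous_const_mul x) hy fun _ h => I.mul_mem_left _ _ h)
  (fun {_ y} hx => map_mem_closure (f := fun z => z * y) (continuous_mul_const y) hx fun _ h => I.mul_mem_right _ _ h)

theorem coe_clos (I : TwoSidedIdeal A) : (clos I : Set A) = closure (I : Set A) := by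
  rw [clos, TwoSidedIdeal.coe_mk']

theorem mem_clos {I : TwoSidedIdeal A} {x : A} : x ∈ clos I ↔ x ∈ closure (I : Set A) := by
  rw [clos, TwoSidedIdeal.mem_mk']

theorem clos_closed (I : TwoSidedIdeal A) : IsClosed (clos I : Set A) := by
  rw [coe_clos]; exact isClosed_closure

theorem isUnit_of_norm_lt {y : A} (h : ‖1 - y‖ < 1) : IsUnit y := by
  simpa using (Units.oneSub (1 - y) h).isUnit

theorem one_mem_of_clos {I : TwoSidedIdeal A} (h : (1 : A) ∈ clos I) : (1 : A) ∈ I := by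
  obtain ⟨y, hy, hd⟩ := Metric.mem_closure_iff.1 (mem_clos.1 h) 1 one_pos
  rw [dist_eq_norm] at hd
  obtain ⟨v, rfl⟩ := isUnit_of_norm_lt hd
  simpa using I.mul_mem_left (↑v⁻¹) _ hy

theorem exists_simple_quot (I : TwoSidedIdeal A) (h1 : (1 : A) ∉ I) :
    ∃ (Q : Type u) (_ : CStarAlgebra Q) (π : A →⋆ₐ[ℂ] Q), Function.Surjective π ∧
      IsSimpleRing Q ∧ ∀ x ∈ I, π x = 0 := by
  obtain ⟨J, hIJ, hJ⟩ := zorn_le_nonempty₀ {J : TwoSidedIdeal A | (1 : A) ∉ J} (fun c hc hch y hy => by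
    have dir := hch.directedOn
    refine ⟨.mk' {x | ∃ J ∈ c, x ∈ J} ⟨y, hy, y.zero_mem⟩ ?_ ?_ ?_ ?_, ?_, ?_⟩
    · rintro a b ⟨J, hJ, ha⟩ ⟨K, hK, hb⟩
      obtain ⟨L, hL, h1, h2⟩ := dir J hJ K hK
      exact ⟨L, hL, L.add_mem (h1 ha) (h2 hb)⟩
    · rintro a ⟨J, hJ, ha⟩; exact ⟨J, hJ, J.neg_mem ha⟩
    · rintro a b ⟨J, hJ, ha⟩; exact ⟨J, hJ, J.mul_mem_left _ _ ha⟩
    · rintro a b ⟨J, hJ, ha⟩; exact ⟨J, hJ, J.mul_mem_right _ _ ha⟩
    · intro h
      obtain ⟨J, hJ, h⟩ := (TwoSidedIdeal.mem_mk' _ _ _ _ _ _ _).1 h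
      exact hc hJ h
    · intro J hJ x hx
      exact (TwoSidedIdeal.mem_mk' _ _ _ _ _ _ _).2 ⟨J, hJ, hx⟩) I h1
  have hle : J ≤ clos J := fun x hx => mem_clos.2 (subset_closure hx)
  have hcl : clos J ≤ J := hJ.2 (y := clos J) (fun h => hJ.1 (one_mem_of_clos h)) hle
  have hc : IsClosed (J : Set A) := by rw [← le_antisymm hcl hle]; exact clos_closed J
  obtain ⟨Q, _, π, hs, hk, -⟩ := exists_quot J hc
  haveI : Nontrivial Q := ⟨1, 0, fun h => hJ.1 ((hk 1).1 (by rw [map_one, h]))⟩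
  refine ⟨Q, inferInstance, π, hs, IsSimpleRing.of_eq_bot_or_eq_top fun K => ?_,
    fun x hx => (hk x).2 (hIJ hx)⟩
  by_cases h : (1 : Q) ∈ K
  · exact Or.inr ((TwoSidedIdeal.one_mem_iff K).1 h)
  · refine Or.inl (eq_bot_iff.2 fun y hy => ?_)
    obtain ⟨x, rfl⟩ := hs y
    have h2 : J ≤ K.comap π := fun z hz => by
      rw [TwoSidedIdeal.mem_comap, (hk z).2 hz]; exact K.zero_mem
    have h3 : K.comap π ≤ J := hJ.2 (y := K.comap π)
      (fun h' => h (by simpa [TwoSidedIdeal.mem_comap] using h')) h2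
    exact (TwoSidedIdeal.mem_bot Q).2 ((hk x).2 (h3 ((TwoSidedIdeal.mem_comap π).2 hy)))

theorem full_of_simple {x : A} (h : ∀ (Q : Type u) [CStarAlgebra Q] [IsSimpleRing Q]
    (π : A →⋆ₐ[ℂ] Q), Function.Surjective π → π x ≠ 0) : Full x := fun I hI => by
  by_contra h1
  obtain ⟨Q, _, π, hs, _, hk⟩ := exists_simple_quot I h1
  exact h Q π hs (hk x hI)

theorem center_scalar [IsSimpleRing A] {z : A} (hz : ∀ y, z * y = y * z) :
    ∃ c : ℂ, z = algebraMap ℂ A c := by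
  obtain ⟨c, hc⟩ := spectrum.nonempty z
  refine ⟨c, by_contra fun hne => ?_⟩
  have h0 : algebraMap ℂ A c - z ≠ 0 := fun h => hne (sub_eq_zero.1 h).symm
  obtain ⟨ι, _, u, w, huw⟩ := (full_of_ne h0).exists_sum
  have hcomm : ∀ y, (algebraMap ℂ A c - z) * y = y * (algebraMap ℂ A c - z) := fun y => by
    rw [sub_mul, mul_sub, hz, Algebra.commutes]
  have h1 : (algebraMap ℂ A c - z) * ∑ i, u i * w i = 1 := by
    rw [← huw, Finset.mul_sum]
    exact Finset.sum_congr rfl fun i _ => by rw [← mul_assoc, hcomm]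
  exact hc ⟨⟨_, _, h1, by rw [← hcomm, h1]⟩, rfl⟩

theorem exists_fiber {τ : A} (hc : ∀ y, τ * y = y * τ) (t : ℝ) :
    ∃ (Q : Type u) (_ : CStarAlgebra Q) (π : A →⋆ₐ[ℂ] Q), Function.Surjective π ∧
      π τ = algebraMap ℝ Q t ∧
      ∀ x ε, 0 < ε → ∃ y, ‖x - (τ - algebraMap ℝ A t) * y‖ < ‖π x‖ + ε := by
  set σ := τ - algebraMap ℝ A t with hσ
  have hcomm : ∀ y, σ * y = y * σ := fun y => by rw [sub_mul, mul_sub, hc, Algebra.commutes]
  let I : TwoSidedIdeal A := .mk' {z | ∃ y, z = σ * y} ⟨0, by simp⟩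
    (by rintro _ _ ⟨a, rfl⟩ ⟨b, rfl⟩; exact ⟨a + b, by rw [mul_add]⟩)
    (by rintro _ ⟨a, rfl⟩; exact ⟨-a, by rw [mul_neg]⟩)
    (by rintro x _ ⟨a, rfl⟩; exact ⟨x * a, by rw [← mul_assoc, ← hcomm, mul_assoc]⟩)
    (by rintro _ x ⟨a, rfl⟩; exact ⟨a * x, by rw [mul_assoc]⟩)
  have hI : ∀ z, z ∈ I ↔ ∃ y, z = σ * y := fun z => TwoSidedIdeal.mem_mk' ..
  obtain ⟨Q, _, π, hs, hk, hn⟩ := exists_quot (clos I) (clos_closed I)
  refine ⟨Q, inferInstance, π, hs, ?_, fun x ε hε => ?_⟩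
  · have : π σ = 0 := (hk σ).2 (mem_clos.2 (subset_closure ((hI σ).2 ⟨1, by simp⟩)))
    rw [hσ, map_sub, sub_eq_zero] at this
    rw [this, IsScalarTower.algebraMap_apply ℝ ℂ A, AlgHomClass.commutes,
      ← IsScalarTower.algebraMap_apply]
  · obtain ⟨y, hy, hxy⟩ := hn x _ (half_pos hε)
    obtain ⟨z, hz, hd⟩ := Metric.mem_closure_iff.1 (mem_clos.1 hy) _ (half_pos hε)
    obtain ⟨w, rfl⟩ := (hI z).1 hz
    refine ⟨w, ?_⟩
    rw [dist_eq_norm] at hd
    calc _ = ‖(x - y) + (y - σ * w)‖ := by congr 1; abel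
      _ ≤ _ := norm_add_le _ _
      _ < _ := by linarith

theorem loc_norm {τ : A} (hτ : IsSelfAdjoint τ) (hc : ∀ y, τ * y = y * τ) (x : A) {c : ℝ}
    (hc0 : 0 ≤ c) (h : ∀ t ∈ spectrum ℝ τ, ∀ ε, 0 < ε →
      ∃ y, ‖x - (τ - algebraMap ℝ A t) * y‖ < c + ε) : ‖x‖ ≤ c := by
  rcases subsingleton_or_nontrivial A with _ | _
  · rwa [Subsingleton.elim x 0, norm_zero]
  have hy : IsSelfAdjoint (star x * x) := IsSelfAdjoint.star_mul_self x
  set n : A := star x * x + Complex.I • τ with hn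
  have hre : (realPart n : A) = star x * x := by
    rw [hn, map_add, realPart_I_smul, hτ.imaginaryPart, neg_zero, add_zero, hy.coe_realPart]
  have him : (imaginaryPart n : A) = τ := by
    rw [hn, map_add, imaginaryPart_I_smul, hy.imaginaryPart, zero_add, hτ.coe_realPart]
  have hnn : IsStarNormal n := by
    rw [isStarNormal_iff_commute_realPart_imaginaryPart, hre, him]
    exact (hc _).symm
  obtain ⟨⟨z, hz, hzn⟩, -⟩ := IsGreatest.norm_cfc (fun z : ℂ => (z.re : ℂ)) n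
  rw [cfc_re_id n, hre] at hzn
  have ht : z.im ∈ spectrum ℝ τ := by
    rw [← him, spectrum_imaginaryPart' n]; exact ⟨z, hz, rfl⟩
  refine le_of_forall_pos_le_add fun ε hε => ?_
  obtain ⟨w, hw⟩ := h _ ht _ (half_pos hε)
  have hw1 : 0 < ‖w‖ + 1 := by positivity
  set δ := ε / 2 / (‖w‖ + 1) with hδ
  have hδ0 : 0 < δ := by positivity
  let g : ℂ → ℂ := fun v => ((max 0 (1 - |v.im - z.im| / δ) : ℝ) : ℂ)
  have hg : Continuous g := by fun_prop
  have hg1 : ∀ v, ‖g v‖ ≤ 1 := fun v => by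
    rw [Complex.norm_real, Real.norm_eq_abs, abs_of_nonneg (le_max_left _ _)]
    exact max_le zero_le_one (by have : 0 ≤ |v.im - z.im| / δ := by positivity
                                 linarith)
  have c0 : Continuous fun v : ℂ => (v.re : ℂ) := by fun_prop
  have c3 : Continuous fun v : ℂ => g v * (v.re : ℂ) := hg.mul c0
  have hG : star (cfc g n) = cfc g n := by
    rw [← cfc_star]; exact cfc_congr fun v _ => by simp [g]
  have h1 : cfc g n * (star x * x) * cfc g n = cfc (fun v => g v * v.re * g v) n := by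
    rw [cfc_mul _ _ n c3.continuousOn hg.continuousOn,
      cfc_mul _ _ n hg.continuousOn c0.continuousOn, cfc_re_id n, hre]
  have h2 : ‖x‖ * ‖x‖ ≤ ‖x * cfc g n‖ * ‖x * cfc g n‖ := by
    rw [← CStarRing.norm_star_mul_self, ← CStarRing.norm_star_mul_self, star_mul, hG, ← hzn]
    have := norm_apply_le_norm_cfc (fun v => g v * v.re * g v) n hz (c3.mul hg).continuousOn
    rw [← h1] at this
    simpa [g, mul_assoc] using this
  have h3 : (τ - algebraMap ℝ A z.im) * cfc g n = cfc (fun v => ((v.im : ℂ) - z.im) * g v) n := by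
    have c1 : Continuous fun v : ℂ => (v.im : ℂ) := by fun_prop
    have c2 : Continuous fun v : ℂ => (v.im : ℂ) - z.im := by fun_prop
    rw [cfc_mul _ _ n c2.continuousOn hg.continuousOn,
      cfc_sub _ _ n c1.continuousOn continuousOn_const, cfc_im_id n, him, cfc_const _ n,
      IsScalarTower.algebraMap_apply ℝ ℂ A]
    rfl
  have h4 : ‖(τ - algebraMap ℝ A z.im) * cfc g n‖ ≤ δ := by
    rw [h3]
    refine norm_cfc_le hδ0.le fun v _ => ?_
    rw [norm_mul, ← Complex.ofReal_sub, Complex.norm_real, Real.norm_eq_abs]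
    by_cases hv : |v.im - z.im| ≤ δ
    · calc _ ≤ δ * 1 := mul_le_mul hv (hg1 v) (norm_nonneg _) hδ0.le
        _ = _ := mul_one _
    · have : g v = 0 := by
        have : 1 - |v.im - z.im| / δ ≤ 0 := by
          rw [sub_nonpos, one_le_div hδ0]; exact (not_le.1 hv).le
        simp [g, max_eq_left this]
      rw [this, norm_zero, mul_zero]; exact hδ0.le
  have h5 : x * cfc g n = (x - (τ - algebraMap ℝ A z.im) * w) * cfc g n
      + w * ((τ - algebraMap ℝ A z.im) * cfc g n) := by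
    have : (τ - algebraMap ℝ A z.im) * w = w * (τ - algebraMap ℝ A z.im) := by
      rw [sub_mul, mul_sub, hc, Algebra.commutes]
    rw [this]; noncomm_ring
  have h6 : ‖cfc g n‖ ≤ 1 := norm_cfc_le zero_le_one fun v _ => hg1 v
  have h7 : ‖w‖ * δ ≤ ε / 2 := by
    rw [hδ, mul_div_assoc', div_le_iff₀ hw1]; nlinarith
  calc ‖x‖ ≤ ‖x * cfc g n‖ := le_of_mul_self_le h2 (norm_nonneg _)
    _ ≤ ‖x - (τ - algebraMap ℝ A z.im) * w‖ * ‖cfc g n‖
        + ‖w‖ * ‖(τ - algebraMap ℝ A z.im) * cfc g n‖ := by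
      rw [h5]; exact (norm_add_le _ _).trans (add_le_add (norm_mul_le _ _) (norm_mul_le _ _))
    _ ≤ (c + ε / 2) * 1 + ‖w‖ * δ := by gcongr
    _ ≤ _ := by linarith

end Vale.Agent.P101
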