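import Vale.Agent.P101.Tensor

/-! A nowhere scalar self-adjoint element, and two orthogonal full elements. -/

namespace Vale.Agent.P101

universe u

variable {K : Type} [Fintype K]

/-- Evaluation of a tensor. -/
noncomputable def ev {R : Type*} [Ring R] [Algebra ℂ R] :
    ∀ N : ℕ, (Fin N → K → R) → ((Fin N → K) → ℂ) → R
  | 0, _, C => algebraMap ℂ R (C default)
  | N + 1, c, C => ∑ k, c 0 k * ev N (fun i => c i.succ) fun J => C (Fin.cons k J)

section
variable {D : Type*} {B Q : Type u} [CStarAlgebra D] [CStarAlgebra B] [CStarAlgebra Q]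

theorem map_ev (π : B →⋆ₐ[ℂ] Q) : ∀ (N : ℕ) (c : Fin N → K → B) (C : (Fin N → K) → ℂ),
    π (ev N c C) = ev N (fun i k => π (c i k)) C
  | 0, _, _ => AlgHomClass.commutes π _
  | N + 1, c, C => by simp only [ev, map_sum, map_mul, map_ev π N]

theorem ev_comm (z : B) : ∀ (N : ℕ) (c : Fin N → K → B) (C : (Fin N → K) → ℂ),
    (∀ i k, Commute (c i k) z) → Commute (ev N c C) z
  | 0, _, _, _ => Algebra.commutes _ _
  | N + 1, _, _, h => Commute.sum_left _ _ _ fun k _ =>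
      (h 0 k).mul_left (ev_comm z N _ _ fun i k => h i.succ k)

theorem ev_sa : ∀ (N : ℕ) (c : Fin N → K → B) (C : (Fin N → K) → ℝ),
    (∀ i k, IsSelfAdjoint (c i k)) → (∀ i j, i ≠ j → ∀ k l, Commute (c i k) (c j l)) →
    IsSelfAdjoint (ev N c fun J => C J)
  | 0, _, _, _, _ => by
      rw [ev, IsSelfAdjoint, ← algebraMap_star_comm]; simp
  | N + 1, c, C, h, hc => by
      rw [ev, IsSelfAdjoint, star_sum]
      refine Finset.sum_congr rfl fun k _ => ?_
      rw [star_mul, (h 0 k).star_eq, (ev_sa N _ (fun J => C (Fin.cons k J)) (fun i => h i.succ)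
        fun i j hij => hc _ _ fun h => hij (Fin.succ_injective _ h)).star_eq]
      exact (ev_comm _ N _ _ fun i l => hc _ _ (Fin.succ_ne_zero i) _ _).eq

theorem ev_lin : ∀ (N : ℕ) (c : Fin N → K → B) (C : K → (Fin N → K) → ℂ) (r : K → ℂ),
    ∑ k, r k • ev N c (C k) = ev N c fun J => ∑ k, r k * C k J
  | 0, _, _, _ => by simp [ev, Algebra.smul_def]
  | N + 1, c, C, r => by
      simp only [ev, Finset.smul_sum]
      rw [Finset.sum_comm]
      refine Finset.sum_congr rfl fun l _ => ?_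
      rw [← ev_lin N, Finset.mul_sum]
      simp only [mul_smul_comm]

theorem ev_scalar [IsSimpleRing Q] {I : Type*} {θ : I → D →⋆ₐ[ℂ] Q} (h : Copies θ) :
    ∀ (N : ℕ) (ρ : Fin N → I) (_ : Function.Injective ρ) (d : K → D) (C : (Fin N → K) → ℂ) (z : ℂ),
    ev N (fun i k => θ (ρ i) (d k)) C = algebraMap ℂ Q z → ∀ ℓ : Fin N → Q →ₗ[ℂ] ℂ,
      ∑ J, C J * ∏ i, ℓ i (θ (ρ i) (d (J i))) = z * ∏ i, ℓ i 1
  | 0, _, _, _, C, z, hz, _ => by
      have := (algebraMap ℂ Q).injective hz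
      simpa using this
  | N + 1, ρ, hρ, d, C, z, hz, ℓ => by
      let a : Option K → Q := fun o => o.elim 1 fun k => θ (ρ 0) (d k)
      let b : Option K → Q := fun o => o.elim (-algebraMap ℂ Q z) fun k =>
        ev N (fun i k => θ (ρ i.succ) (d k)) fun J => C (Fin.cons k J)
      have h1 := slice a b (h.sandwich (ρ 0) a b ?_ ?_ ?_) (ℓ 0)
      · simp only [Fintype.sum_option, a, b, Option.elim] at h1
        rw [ev_lin, smul_neg, neg_add_eq_zero, Algebra.smul_def, ← map_mul] at h1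
        have h2 := ev_scalar h N (fun i => ρ i.succ) (hρ.comp (Fin.succ_injective _)) d _ _ h1.symm
          fun i => ℓ i.succ
        rw [← (Fin.consEquiv fun _ => K).sum_comp, Fintype.sum_prod_type_right,
          Fin.prod_univ_succ, ← mul_assoc, mul_comm z, ← h2]
        refine Finset.sum_congr rfl fun J _ => ?_
        rw [Finset.sum_mul]
        refine Finset.sum_congr rfl fun k _ => ?_
        rw [Fin.prod_univ_succ]
        simp only [Fin.consEquiv_apply, Fin.cons_zero, Fin.cons_succ]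
        change C (Fin.cons k J) * _ = _
        ring
      · rintro (_ | k) j hj x
        · exact Commute.one_left _
        · exact h.comm _ _ hj.symm _ _
      · rintro (_ | k) x
        · exact Commute.neg_left (Algebra.commutes _ _)
        · exact ev_comm _ N _ _ fun i l => h.comm _ _ (fun e => Fin.succ_ne_zero i (hρ e)) _ _
      · simp only [Fintype.sum_option, a, b, Option.elim, one_mul, neg_add_eq_zero]
        exact hz.symm

/-- hermitian part of a functional -/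
noncomputable def herm (f : Q →ₗ[ℂ] ℂ) : Q →ₗ[ℂ] ℂ where
  toFun x := (f x + star (f (star x))) / 2
  map_add' x y := by simp only [map_add, star_add]; ring
  map_smul' c x := by
    simp only [map_smul, star_smul, smul_eq_mul, star_mul, star_star, RingHom.id_apply]; ring

theorem herm_sa (f : Q →ₗ[ℂ] ℂ) {x : Q} (hx : IsSelfAdjoint x) : herm f x = (f x).re := by
  change (f x + star (f (star x))) / 2 = _
  rw [hx.star_eq, Complex.re_eq_add_conj]
  rfl

theorem exists_funs [Nontrivial Q] {c : Q} (hc : ∀ z : ℂ, c ≠ algebraMap ℂ Q z) :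
    ∃ ℓ : Bool → Q →ₗ[ℂ] ℂ, ℓ false 1 = 1 ∧ ℓ false c = 0 ∧ ℓ true 1 = 0 ∧ ℓ true c = 1 := by
  obtain ⟨f, hf, hf1⟩ := Submodule.exists_dual_map_eq_bot_of_notMem (R := ℂ) (x := c)
    (p := Submodule.span ℂ {(1 : Q)}) (by
      rw [Submodule.mem_span_singleton]
      rintro ⟨z, rfl⟩
      exact hc z (Algebra.algebraMap_eq_smul_one z).symm) inferInstance
  obtain ⟨g, hg, -⟩ := Submodule.exists_dual_map_eq_bot_of_notMem (R := ℂ) (x := (1 : Q))
    (p := ⊥) (by simp) inferInstance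
  have h1 : f 1 = 0 := by
    have : f 1 ∈ (Submodule.span ℂ {(1 : Q)}).map f :=
      Submodule.mem_map_of_mem (Submodule.mem_span_singleton_self _)
    rwa [hf1, Submodule.mem_bot] at this
  refine ⟨fun b => if b then (f c)⁻¹ • f else (g 1)⁻¹ • g - ((g 1)⁻¹ * g c * (f c)⁻¹) • f, ?_⟩
  simp [h1, hf, hg]

theorem step1 {κ : Type} [Fintype κ] (c : κ → D) (hc : ∀ k, IsSelfAdjoint (c k))
    (hD : ∀ (Q : Type u) [CStarAlgebra Q] [Nontrivial Q] (π : D →⋆ₐ[ℂ] Q),
      ∃ k, ∀ z : ℂ, π (c k) ≠ algebraMap ℂ Q z) :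
    ∃ N : ℕ, ∀ (B : Type u) [CStarAlgebra B] (θ : Fin N → D →⋆ₐ[ℂ] B), Copies θ →
      ∃ x : B, IsSelfAdjoint x ∧ ∀ r : ℝ, Full (x - algebraMap ℝ B r) := by
  obtain ⟨N, C, hC⟩ := generic κ
  refine ⟨N, fun B _ θ hθ => ?_⟩
  let d : Option κ → D := fun o => o.elim 1 c
  have hd : ∀ o, IsSelfAdjoint (d o) := by
    rintro (_ | k)
    · exact IsSelfAdjoint.one D
    · exact hc k
  refine ⟨ev N (fun i k => θ i (d k)) fun J => C J,
    ev_sa N _ _ (fun i k => (hd k).map _) fun i j hij k l => hθ.comm i j hij _ _,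
    fun r => full_of_simple fun Q _ _ π hs h0 => ?_⟩
  rw [map_sub, sub_eq_zero, map_ev, IsScalarTower.algebraMap_apply ℝ ℂ B,
    AlgHomClass.commutes] at h0
  choose j hj using fun i => hD Q (π.comp (θ i))
  choose ℓ hℓ using fun i => exists_funs (hj i)
  obtain ⟨T, ⟨i₀, hi₀⟩, hT⟩ := hC j (fun i b o => (ℓ i b (π (θ i (d o)))).re) fun i => by
    have := hℓ i
    simp only [StarAlgHom.comp_apply] at this
    simp [d, this]
  have h1 := ev_scalar (hθ.map π hs) N id Function.injective_id d _ _ h0 fun i => herm (ℓ i (T i))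
  rw [Finset.prod_eq_zero (Finset.mem_univ i₀)
    (by rw [herm_sa _ (IsSelfAdjoint.one Q), hi₀, (hℓ i₀).2.2.1]; simp), mul_zero] at h1
  apply hT
  have h2 : ∀ i o, herm (ℓ i (T i)) ((π.comp (θ i)) (d o)) = (ℓ i (T i) (π (θ i (d o)))).re :=
    fun i o => herm_sa _ ((hd o).map _)
  simp only [id, h2] at h1
  exact_mod_cast h1

theorem spec_add {a b : Q} (ha : IsSelfAdjoint a) (hb : IsSelfAdjoint b) (hab : Commute a b)
    (hp : ∀ f g : C(ℝ, ℝ), fc a ha f * fc b hb g = 0 → fc a ha f = 0 ∨ fc b hb g = 0) {s t : ℝ}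
    (hs : s ∈ spectrum ℝ a) (ht : t ∈ spectrum ℝ b) : s + t ∈ spectrum ℝ (a + b) := by
  by_contra hn
  obtain ⟨v, hv⟩ := spectrum.notMem_iff.1 hn
  set w : Q := ↑v⁻¹ with hw
  set ε := 1 / (4 * (‖w‖ + 1)) with hε
  have hε0 : 0 < ε := by positivity
  let bump : ℝ → C(ℝ, ℝ) := fun s => ⟨fun x => max 0 (ε - |s - x|), by fun_prop⟩
  let clamp : ℝ → C(ℝ, ℝ) := fun s => ⟨fun x => max (-ε) (min ε (s - x)), by fun_prop⟩
  have e1 : ∀ s, (algebraMap ℝ C(ℝ, ℝ) s - X) * bump s = clamp s * bump s := fun s => by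
    ext x
    simp only [bump, clamp, ContinuousMap.mul_apply, ContinuousMap.sub_apply, ContinuousMap.coe_mk,
      X_apply, algebraMap_apply, smul_eq_mul, mul_one]
    by_cases hx : |s - x| ≤ ε
    · rw [min_eq_right (abs_le.1 hx).2, max_eq_right (abs_le.1 hx).1]
    · rw [max_eq_left (a := 0) (by linarith), mul_zero, mul_zero]
  have e2 : ∀ s x, |clamp s x| ≤ ε := fun s x =>
    abs_le.2 ⟨le_max_left _ _, max_le (by linarith) (min_le_left _ _)⟩
  have e3 : ∀ s, bump s s ≠ 0 := fun s => by simp [bump, hε0.le, hε0.ne']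
  set f := fc a ha (bump s)
  set g := fc b hb (bump t)
  have hfg : f * g ≠ 0 := fun h => (hp _ _ h).elim (fc_ne_zero ha hs (e3 s)) (fc_ne_zero hb ht (e3 t))
  have h1 : (algebraMap ℝ Q s - a) * f = fc a ha (clamp s) * f := by
    have := congrArg (fc a ha) (e1 s)
    rwa [map_mul, map_mul, map_sub, fc_X, AlgHom.commutes] at this
  have h2 : (algebraMap ℝ Q t - b) * g = fc b hb (clamp t) * g := by
    have := congrArg (fc b hb) (e1 t)
    rwa [map_mul, map_mul, map_sub, fc_X, AlgHom.commutes] at this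
  have hc : f * g = g * f := (fc_comm ha (fc_comm hb hab.symm _).symm _).eq
  have h3 : (v : Q) * (f * g) = fc a ha (clamp s) * (f * g) + fc b hb (clamp t) * (f * g) := by
    have q1 : fc a ha (clamp s) * (f * g) = (algebraMap ℝ Q s - a) * (f * g) := by
      rw [← mul_assoc, ← h1, mul_assoc]
    have q2 : fc b hb (clamp t) * (f * g) = (algebraMap ℝ Q t - b) * (f * g) := by
      rw [hc, ← mul_assoc, ← h2, mul_assoc]
    rw [q1, q2, hv, map_add, ← add_mul]
    congr 1; abel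
  have h4 : ‖(v : Q) * (f * g)‖ ≤ ε * ‖f * g‖ + ε * ‖f * g‖ := by
    rw [h3]
    refine (norm_add_le _ _).trans (add_le_add ((norm_mul_le _ _).trans ?_) ((norm_mul_le _ _).trans ?_))
    · gcongr; exact fc_norm_le ha hε0.le fun x _ => e2 s x
    · gcongr; exact fc_norm_le hb hε0.le fun x _ => e2 t x
  have h5 : ‖f * g‖ ≤ ‖w‖ * ‖(v : Q) * (f * g)‖ := by
    refine le_trans (le_of_eq ?_) (norm_mul_le _ _)
    rw [hw, Units.inv_mul_cancel_left]
  have h6 : 0 < ‖f * g‖ := norm_pos_iff.2 hfg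
  have h7 : ‖w‖ * ε ≤ 1 / 4 := by
    rw [hε, mul_one_div, div_le_div_iff₀ (by positivity) (by positivity)]; linarith
  have h8 : ‖w‖ * ‖(v : Q) * (f * g)‖ ≤ ‖w‖ * (ε * ‖f * g‖ + ε * ‖f * g‖) := by gcongr
  nlinarith

theorem Copies.prime [IsSimpleRing Q] {I : Type*} {θ : I → D →⋆ₐ[ℂ] Q} (h : Copies θ) (i : I)
    {a b : Q} (ha : ∀ j, j ≠ i → ∀ x, Commute a (θ j x)) (hb : ∀ x, Commute b (θ i x))
    (h0 : a * b = 0) : a = 0 ∨ b = 0 := by
  by_contra hn
  push Not at hn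
  obtain ⟨ρ, _, u, w, huw⟩ := (full_of_ne hn.1).exists_sum
  have := h.sandwich i (fun _ : Unit => a) (fun _ => b) (fun _ => ha) (fun _ => hb) (by simpa)
  simp only [Finset.univ_unique, Finset.sum_singleton] at this
  apply hn.2
  rw [← one_mul b, ← huw, Finset.sum_mul]
  exact Finset.sum_eq_zero fun r _ => by rw [mul_assoc (u r), mul_assoc (u r), this, mul_zero]

theorem Copies.spec_sum [IsSimpleRing Q] {I : Type*} {θ : I → D →⋆ₐ[ℂ] Q} (h : Copies θ) {x : D}
    (hx : IsSelfAdjoint x) (p : I → ℝ) (hp : ∀ i, p i ∈ spectrum ℝ (θ i x)) (s : Finset I) :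
    ∑ i ∈ s, p i ∈ spectrum ℝ (∑ i ∈ s, θ i x) := by
  classical
  induction s using Finset.induction_on with
  | empty => simp
  | insert i s hi ih =>
    rw [Finset.sum_insert hi, Finset.sum_insert hi]
    have hs : IsSelfAdjoint (∑ i ∈ s, θ i x) := isSelfAdjoint_sum _ fun j _ => hx.map _
    have hc : ∀ y, Commute (∑ i ∈ s, θ i x) (θ i y) := fun y =>
      Commute.sum_left _ _ _ fun j hj => h.comm _ _ (by rintro rfl; exact hi hj) _ _
    exact spec_add (hx.map _) hs (hc x).symm (fun f g hfg => h.prime i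
      (fun j hj y => fc_comm _ (h.comm _ _ hj.symm _ _) _) (fun y => fc_comm _ (hc y) _) hfg)
      (hp i) ih

theorem hit (P : ℕ → ℝ) (K : ℕ) {a : ℝ} (h0 : P 0 ≤ a) (hK : a < P K)
    (hs : ∀ k, P (k + 1) ≤ P k + 1) : ∃ k, a < P k ∧ P k ≤ a + 1 := by
  induction K with
  | zero => exact absurd hK (not_lt.2 h0)
  | succ K ih =>
    by_cases h : a < P K
    · exact ih h
    · exact ⟨K + 1, hK, by linarith [hs K]⟩

theorem sin_hit (P : ℕ → ℝ) (K : ℕ) (hK : P 0 + 10 ≤ P K) (hs : ∀ k, P (k + 1) ≤ P k + 1) :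
    (∃ k, 0 < Real.sin (P k)) ∧ ∃ k, Real.sin (P k) < 0 := by
  set m := ⌈P 0 / (2 * Real.pi)⌉ with hm
  have hπ := Real.pi_gt_three
  have hπ' := Real.pi_lt_d2
  have h1 : P 0 ≤ m * (2 * Real.pi) := (div_le_iff₀ (by positivity)).1 (Int.le_ceil _)
  have h2 : m * (2 * Real.pi) < P 0 + 2 * Real.pi := by
    have := Int.ceil_lt_add_one (P 0 / (2 * Real.pi))
    rw [← hm, ← sub_lt_iff_lt_add, lt_div_iff₀ (by positivity)] at this
    linarith
  constructor
  · obtain ⟨k, hk, hk'⟩ := hit P K h1 (by linarith) hs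
    refine ⟨k, ?_⟩
    rw [← Real.sin_sub_int_mul_two_pi _ m]
    exact Real.sin_pos_of_pos_of_lt_pi (by linarith) (by linarith)
  · obtain ⟨k, hk, hk'⟩ := hit P K (a := m * (2 * Real.pi) + Real.pi) (by linarith) (by linarith) hs
    refine ⟨k, ?_⟩
    rw [← Real.sin_sub_int_mul_two_pi _ m, ← neg_pos, ← Real.sin_sub_pi]
    exact Real.sin_pos_of_pos_of_lt_pi (by linarith) (by linarith)

theorem uniform_gap {x : D} (hf : ∀ r : ℝ, Full (x - algebraMap ℝ D r)) :
    ∃ δ > 0, ∀ (Q : Type u) [CStarAlgebra Q] [Nontrivial Q] (π : D →⋆ₐ[ℂ] Q) (r : ℝ),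
      |r| ≤ 1 → δ ≤ ‖π x - algebraMap ℝ Q r‖ := by
  have key : ∀ r : ℝ, ∃ ρ > 0, ∀ (Q : Type u) [CStarAlgebra Q] [Nontrivial Q] (π : D →⋆ₐ[ℂ] Q),
      2 * ρ ≤ ‖π x - algebraMap ℝ Q r‖ := fun r => by
    obtain ⟨ι, _, u, w, h⟩ := (hf r).exists_sum
    set M := ∑ i, ‖u i‖ * ‖w i‖ with hM
    have hM0 : 0 ≤ M := by positivity
    refine ⟨1 / (2 * (M + 1)), by positivity, fun Q _ _ π => ?_⟩
    have h1 : π (x - algebraMap ℝ D r) = π x - algebraMap ℝ Q r := by
      rw [map_sub, IsScalarTower.algebraMap_apply ℝ ℂ D, AlgHomClass.commutes,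
        ← IsScalarTower.algebraMap_apply]
    have h2 : 1 ≤ M * ‖π x - algebraMap ℝ Q r‖ := by
      calc (1 : ℝ) = ‖π (∑ i, u i * (x - algebraMap ℝ D r) * w i)‖ := by rw [h, map_one, norm_one]
        _ ≤ ∑ i, ‖π (u i) * (π x - algebraMap ℝ Q r) * π (w i)‖ := by
          simp only [map_sum, map_mul, h1]; exact norm_sum_le _ _
        _ ≤ _ := by
          rw [hM, Finset.sum_mul]
          refine Finset.sum_le_sum fun i _ => norm_mul₃_le.trans ?_
          have := NonUnitalStarAlgHom.norm_apply_le π (u i)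
          have := NonUnitalStarAlgHom.norm_apply_le π (w i)
          calc _ ≤ ‖u i‖ * ‖π x - algebraMap ℝ Q r‖ * ‖w i‖ := by gcongr
            _ = _ := by ring
    rw [show 2 * (1 / (2 * (M + 1))) = 1 / (M + 1) by field_simp, div_le_iff₀ (by positivity)]
    nlinarith [norm_nonneg (π x - algebraMap ℝ Q r)]
  choose ρ hρ hk using key
  obtain ⟨t, -, ht⟩ := (isCompact_Icc (a := (-1 : ℝ)) (b := 1)).elim_nhds_subcover
    (fun r => Metric.ball r (ρ r)) fun r _ => Metric.ball_mem_nhds r (hρ r)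
  have hne : t.Nonempty := by
    obtain ⟨r, hr, -⟩ := Set.mem_iUnion₂.1 (ht (show (0 : ℝ) ∈ Set.Icc (-1) 1 by simp))
    exact ⟨r, hr⟩
  refine ⟨t.inf' hne ρ, (Finset.lt_inf'_iff _).2 fun r _ => hρ r, fun Q _ _ π r hr => ?_⟩
  obtain ⟨r', hr', hrr⟩ := Set.mem_iUnion₂.1 (ht (abs_le.1 hr))
  have h1 := Finset.inf'_le ρ hr'
  have h2 := hk r' Q π
  have h3 : ‖π x - algebraMap ℝ Q r'‖ ≤ ‖π x - algebraMap ℝ Q r‖ + |r - r'| := by
    calc _ = ‖(π x - algebraMap ℝ Q r) + algebraMap ℝ Q (r - r')‖ := by rw [map_sub]; congr 1; abel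
      _ ≤ _ := (norm_add_le _ _).trans (by rw [norm_algebraMap', Real.norm_eq_abs])
  rw [Metric.mem_ball, Real.dist_eq] at hrr
  linarith

theorem step2 {x : D} (hx : IsSelfAdjoint x) (hf : ∀ r : ℝ, Full (x - algebraMap ℝ D r)) :
    ∃ N : ℕ, ∀ (B : Type u) [CStarAlgebra B] (θ : Fin N → D →⋆ₐ[ℂ] B), Copies θ →
      ∃ g h : B, IsSelfAdjoint g ∧ IsSelfAdjoint h ∧ g * h = 0 ∧ Full g ∧ Full h := by
  wlog hn : ‖x‖ ≤ 1 / 2 generalizing x
  · set c : ℝ := 1 / (2 * (‖x‖ + 1)) with hc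
    have hc0 : 0 < c := by positivity
    refine this (x := c • x) ((IsSelfAdjoint.all c).smul hx) (fun r I hI => hf (r / c) I ?_) ?_
    · have := I.mul_mem_left (algebraMap ℝ D c⁻¹) _ hI
      rwa [← Algebra.smul_def, smul_sub, smul_smul, inv_mul_cancel₀ hc0.ne', one_smul,
        Algebra.smul_def, ← map_mul, ← div_eq_inv_mul] at this
    · rw [norm_smul, Real.norm_eq_abs, abs_of_pos hc0, hc, one_div_mul_eq_div,
        div_le_div_iff₀ (by positivity) (by positivity)]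
      linarith
  obtain ⟨δ, hδ, hgap⟩ := uniform_gap.{u} hf
  obtain ⟨N, hN⟩ := exists_nat_ge (10 / δ)
  refine ⟨N, fun B _ θ hθ => ?_⟩
  have hS : IsSelfAdjoint (∑ i, θ i x) := isSelfAdjoint_sum _ fun j _ => hx.map _
  let f₁ : C(ℝ, ℝ) := ⟨fun t => max 0 (Real.sin t), by fun_prop⟩
  let f₂ : C(ℝ, ℝ) := ⟨fun t => max 0 (-Real.sin t), by fun_prop⟩
  have key : ∀ (Q : Type u) [CStarAlgebra Q] [IsSimpleRing Q] (π : B →⋆ₐ[ℂ] Q),
      Function.Surjective π → (∃ t ∈ spectrum ℝ (π (∑ i, θ i x)), 0 < Real.sin t) ∧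
        ∃ t ∈ spectrum ℝ (π (∑ i, θ i x)), Real.sin t < 0 := fun Q _ _ π hs => by
    have hy : ∀ i, IsSelfAdjoint (π (θ i x)) := fun i => (hx.map _).map _
    have hb : ∀ i, ∀ t ∈ spectrum ℝ (π (θ i x)), |t| ≤ 1 / 2 := fun i t ht =>
      (spectrum.norm_le_norm_of_mem ht).trans ((NonUnitalStarAlgHom.norm_apply_le (π.comp (θ i)) x).trans hn)
    have hne : ∀ i, (spectrum ℝ (π (θ i x))).Nonempty := fun i => (hy i).spectrum_nonempty
    choose lo hlo hlo' using fun i => (spectrum.isCompact (𝕜 := ℝ) (π (θ i x))).exists_isLeast (hne i)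
    choose hi hhi hhi' using fun i =>
      (spectrum.isCompact (𝕜 := ℝ) (π (θ i x))).exists_isGreatest (hne i)
    have hd : ∀ i, δ ≤ hi i - lo i := fun i => by
      refine (hgap Q (π.comp (θ i)) (lo i) ((hb i _ (hlo i)).trans (by norm_num))).trans ?_
      have : (π.comp (θ i)) x - algebraMap ℝ Q (lo i)
          = fc _ (hy i) (X - algebraMap ℝ C(ℝ, ℝ) (lo i)) := by
        rw [map_sub, fc_X, AlgHom.commutes]; rfl
      rw [this]
      refine fc_norm_le _ (sub_nonneg.2 (hlo' i (hhi i))) fun t ht => ?_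
      simp only [ContinuousMap.sub_apply, X_apply, algebraMap_apply, smul_eq_mul, mul_one]
      rw [abs_of_nonneg (sub_nonneg.2 (hlo' i ht))]
      linarith [hhi' i ht]
    let P : ℕ → ℝ := fun k => ∑ i : Fin N, if i.val < k then hi i else lo i
    have hP : ∀ k, P k ∈ spectrum ℝ (π (∑ i, θ i x)) := fun k => by
      rw [map_sum]
      exact (hθ.map π hs).spec_sum hx _ (fun i => by split_ifs; exacts [hhi i, hlo i]) _
    have hstep : ∀ k, P (k + 1) ≤ P k + 1 := fun k => by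
      have h1 : ∑ i : Fin N, (if i.val = k then (1 : ℝ) else 0) ≤ 1 := by
        rw [Finset.sum_boole]
        have : (Finset.univ.filter fun i : Fin N => i.val = k).card ≤ 1 :=
          Finset.card_le_one.2 fun a ha b hb => Fin.ext
            ((Finset.mem_filter.1 ha).2.trans (Finset.mem_filter.1 hb).2.symm)
        exact_mod_cast this
      refine le_trans ?_ (add_le_add_right h1 _)
      rw [← Finset.sum_add_distrib]
      refine Finset.sum_le_sum fun i _ => ?_
      have := abs_le.1 (hb i _ (hlo i))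
      have := abs_le.1 (hb i _ (hhi i))
      split_ifs <;> first | omega | linarith
    have hK : P 0 + 10 ≤ P N := by
      have h1 : ∑ _i : Fin N, δ ≤ ∑ i : Fin N, (hi i - lo i) := Finset.sum_le_sum fun i _ => hd i
      rw [div_le_iff₀ hδ] at hN
      simp only [Finset.sum_const, Finset.card_univ, Fintype.card_fin, nsmul_eq_mul,
        Finset.sum_sub_distrib] at h1
      simp only [P, Nat.not_lt_zero, if_false, Fin.is_lt, if_true]
      linarith
    obtain ⟨⟨k, hk⟩, l, hl⟩ := sin_hit P N hK hstep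
    exact ⟨⟨_, hP k, hk⟩, _, hP l, hl⟩
  refine ⟨fc _ hS f₁, fc _ hS f₂, fc_sa _ _, fc_sa _ _, ?_, full_of_simple fun Q _ _ π hs => ?_,
    full_of_simple fun Q _ _ π hs => ?_⟩
  · rw [← map_mul, ← map_zero (fc _ hS)]
    congr 1
    ext t
    change max 0 (Real.sin t) * max 0 (-Real.sin t) = 0
    rcases le_total 0 (Real.sin t) with h | h
    · rw [max_eq_left (a := 0) (b := -Real.sin t) (by linarith), mul_zero]
    · rw [max_eq_left h, zero_mul]
  · obtain ⟨t, ht, h⟩ := (key Q π hs).1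
    rw [map_fc]
    exact fc_ne_zero _ ht (lt_max_of_lt_right h).ne'
  · obtain ⟨t, ht, h⟩ := (key Q π hs).2
    rw [map_fc]
    exact fc_ne_zero _ ht (lt_max_of_lt_right (neg_pos.2 h)).ne'

end

end Vale.Agent.P101
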