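import Vale.Agent.P101.OZ
import Vale.Agent.P101.Step1

/-! The telescoping argument. -/

namespace Vale.Agent.P101

universe u

variable {B : Type u} [CStarAlgebra B] {ι : Type} [Fintype ι] [DecidableEq ι]

theorem cut [PartialOrder B] [StarOrderedRing B] {H : B} (hs : IsSelfAdjoint H) (hn : ‖H‖ ≤ 1) :
    ∃ γ d : B, 0 ≤ γ ∧ 0 ≤ d ∧ 0 ≤ γ * H * H ∧ 0 ≤ 1 - γ * H * H ∧ 0 ≤ d * (1 - H * H) ∧
      0 ≤ 1 - d * (1 - H * H) ∧ (1 - γ * H * H) * (d * (1 - H * H)) = 1 - γ * H * H ∧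
      ∀ y, Commute H y → Commute γ y ∧ Commute d y := by
  have p1 : ∀ t : ℝ, 0 < max (t * t) (1 / 4) := fun t => lt_max_of_lt_right (by norm_num)
  have p2 : ∀ t : ℝ, 0 < max (1 - t * t) (3 / 4) := fun t => lt_max_of_lt_right (by norm_num)
  let γ : C(ℝ, ℝ) := ⟨fun t => (max (t * t) (1 / 4))⁻¹, Continuous.inv₀ (by fun_prop) fun t => (p1 t).ne'⟩
  let d : C(ℝ, ℝ) :=
    ⟨fun t => (max (1 - t * t) (3 / 4))⁻¹, Continuous.inv₀ (by fun_prop) fun t => (p2 t).ne'⟩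
  have e1 : fc H hs γ * H * H = fc H hs (γ * X * X) := by rw [map_mul, map_mul, fc_X]
  have e2 : fc H hs d * (1 - H * H) = fc H hs (d * (1 - X * X)) := by
    rw [map_mul, map_sub, map_one, map_mul, fc_X]
  have hb : ∀ t ∈ spectrum ℝ H, t * t ≤ 1 := fun t ht => by
    rcases subsingleton_or_nontrivial B with _ | _
    · simp at ht
    have := abs_le.1 ((spectrum.norm_le_norm_of_mem ht).trans hn)
    nlinarith
  refine ⟨fc H hs γ, fc H hs d, fc_nonneg _ fun t _ => (inv_pos.2 (p1 t)).le,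
    fc_nonneg _ fun t _ => (inv_pos.2 (p2 t)).le, ?_, ?_, ?_, ?_, ?_,
    fun y hy => ⟨fc_comm _ hy _, fc_comm _ hy _⟩⟩
  · rw [e1]
    refine fc_nonneg _ fun t _ => ?_
    change 0 ≤ (max (t * t) (1 / 4))⁻¹ * t * t
    rw [mul_assoc]
    exact mul_nonneg (inv_pos.2 (p1 t)).le (mul_self_nonneg t)
  · rw [e1, ← map_one (fc H hs), ← map_sub]
    refine fc_nonneg _ fun t _ => ?_
    change 0 ≤ 1 - (max (t * t) (1 / 4))⁻¹ * t * t
    rw [mul_assoc, sub_nonneg, inv_mul_le_iff₀ (p1 t), mul_one]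
    exact le_max_left _ _
  · rw [e2]
    exact fc_nonneg _ fun t ht => mul_nonneg (inv_pos.2 (p2 t)).le (sub_nonneg.2 (hb t ht))
  · rw [e2, ← map_one (fc H hs), ← map_sub]
    refine fc_nonneg _ fun t _ => ?_
    change 0 ≤ 1 - (max (1 - t * t) (3 / 4))⁻¹ * (1 - t * t)
    rw [sub_nonneg, inv_mul_le_iff₀ (p2 t), mul_one]
    exact le_max_left _ _
  · rw [e1, e2, ← map_one (fc H hs), ← map_sub, ← map_mul]
    congr 1
    ext t
    change (1 - (max (t * t) (1 / 4))⁻¹ * t * t) * ((max (1 - t * t) (3 / 4))⁻¹ * (1 - t * t))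
      = 1 - (max (t * t) (1 / 4))⁻¹ * t * t
    by_cases ht : t * t ≤ 1 / 4
    · rw [max_eq_left (a := 1 - t * t) (by linarith), inv_mul_cancel₀ (by linarith), mul_one]
    · rw [max_eq_left (a := t * t) (by linarith), mul_assoc, inv_mul_cancel₀ (by linarith),
        sub_self, zero_mul]

section comm
variable {R : Type*} [CommRing R] (H h γ d γ' d' α β k : R)

theorem id1 (h2 : (1 - γ' * h * h) * (d' * (1 - h * h)) = 1 - γ' * h * h)
    (hα : α * α = γ * ((1 - d * (1 - H * H)) + d' * (1 - h * h) * (d * (1 - H * H))))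
    (hβ : β * β = γ' * ((1 - γ * H * H) +
      γ * H * H * ((1 - d' * (1 - h * h)) * (d * (1 - H * H))))) :
    α * H * (α * H) + β * h * (β * h) = γ * H * H + γ' * h * h * (1 - γ * H * H) := by
  linear_combination H * H * hα + h * h * hβ + γ * H * H * (d * (1 - H * H)) * h2

theorem id2 (h1 : (1 - γ * H * H) * (d * (1 - H * H)) = 1 - γ * H * H) (T : R)
    (hT : T = γ * H * H + γ' * h * h * (1 - γ * H * H))
    (hk : k * k = (1 - γ * H * H) * d * ((1 - γ' * h * h) * (1 + T))) :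
    k * (1 - H * H) * k = 1 - T * T := by
  linear_combination (1 - H * H) * hk + (1 - γ' * h * h) * (1 + T) * h1 + (1 + T) * hT

theorem id3 (T : R) (hT : T = γ * H * H + γ' * h * h * (1 - γ * H * H)) :
    (1 - γ * H * H) * ((1 - γ' * h * h) * (1 + T)) = 1 - T * T := by
  linear_combination (1 + T) * hT

theorem id4 (h1 : (1 - γ * H * H) * (d * (1 - H * H)) = 1 - γ * H * H) (T : R)
    (hk : k * k = (1 - γ * H * H) * T) :
    k * ((1 - d * (1 - H * H)) * (1 - d * (1 - H * H))) * k = 0 := by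
  linear_combination (1 - d * (1 - H * H)) * (1 - d * (1 - H * H)) * hk
    - (1 - d * (1 - H * H)) * T * h1

theorem id5 (T : R) : (1 - γ * H * H) * d * ((1 - γ' * h * h) * T)
    = (1 - γ * H * H) * d * T * (1 - γ' * h * h) := by ring

end comm

/-- State of the telescoping construction. -/
structure St (i₀ : ι) {L κ : Type} [Fintype κ] (φ : ι → ι → B) (H : B) (z : L → κ → B) : Prop where
  oz : OZ φ H
  nm : ‖H‖ ≤ 1
  fix : ∀ j k, φ i₀ i₀ * z j k = z j k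
  sum : ∀ j, ∑ k, star (z j k) * z j k = 1 - H * H
  orth : ∀ j j', j ≠ j' → ∀ k k', star (z j k) * z j' k' = 0

theorem tele_step {i₀ : ι} {L κ : Type} [Fintype κ] {Φ φ : ι → ι → B} {H h : B} {z : L → κ → B}
    {ζ : κ → B} (hS : St i₀ Φ H z) (ho : OZ φ h) (hn : ‖h‖ ≤ 1) (hf : ∀ k, φ i₀ i₀ * ζ k = ζ k)
    (hζ : ∑ k, star (ζ k) * ζ k = 1) (c1 : ∀ i j k l, Commute (Φ i j) (φ k l))
    (c2 : ∀ i j l k, Commute (φ i j) (z l k)) (c3 : ∀ i j k, Commute (Φ i j) (ζ k))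
    (c4 : ∀ l k k', Commute (star (z l k)) (ζ k')) :
    ∃ (Φ' : ι → ι → B) (H' : B) (z' : Option L → κ → B), St i₀ Φ' H' z' := by
  letI := CStarAlgebra.spectralOrder B
  haveI := CStarAlgebra.spectralOrderedRing B
  obtain ⟨γ, d, γ0, d0, a0, a1, b0, b1, ab, cH⟩ := cut hS.oz.sa hS.nm
  obtain ⟨γ', d', γ0', d0', a0', a1', b0', b1', ab', ch⟩ := cut ho.sa hn
  have cHh : Commute H h := hS.oz.comm' fun i j => (ho.comm' fun k l => (c1 i j k l).symm).symm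
  let C : Subring B := Subring.centralizer {y | Commute H y ∧ Commute h y}
  have mk : ∀ {x}, (∀ y, Commute H y → Commute h y → Commute x y) → x ∈ C :=
    fun hx y hy => (hx y hy.1 hy.2).symm.eq
  have use : ∀ {x}, x ∈ C → ∀ {y}, Commute H y → Commute h y → Commute x y :=
    fun hx y h1 h2 => (hx y ⟨h1, h2⟩).symm
  have cc : ∀ {x y}, x ∈ C → y ∈ C → Commute x y := fun hx hy =>
    use hx (use hy (Commute.refl _) cHh.symm).symm (use hy cHh (Commute.refl _)).symm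
  letI : CommRing C := { (inferInstance : Ring C) with
    mul_comm := fun x y => Subtype.ext (cc x.2 y.2).eq }
  have mH : H ∈ C := mk fun y h1 _ => h1
  have mh : h ∈ C := mk fun y _ h2 => h2
  have mγ : γ ∈ C := mk fun y h1 _ => (cH y h1).1
  have md : d ∈ C := mk fun y h1 _ => (cH y h1).2
  have mγ' : γ' ∈ C := mk fun y _ h2 => (ch y h2).1
  have md' : d' ∈ C := mk fun y _ h2 => (ch y h2).2
  have ma : γ * H * H ∈ C := mul_mem (mul_mem mγ mH) mH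
  have ma' : γ' * h * h ∈ C := mul_mem (mul_mem mγ' mh) mh
  have mb : d * (1 - H * H) ∈ C := mul_mem md (sub_mem (one_mem _) (mul_mem mH mH))
  have mb' : d' * (1 - h * h) ∈ C := mul_mem md' (sub_mem (one_mem _) (mul_mem mh mh))
  have m1 : ∀ {x}, x ∈ C → 1 - x ∈ C := fun hx => sub_mem (one_mem _) hx
  have mulp : ∀ {x y}, x ∈ C ∧ 0 ≤ x → y ∈ C ∧ 0 ≤ y → x * y ∈ C ∧ 0 ≤ x * y :=
    fun hx hy => ⟨mul_mem hx.1 hy.1, (cc hx.1 hy.1).mul_nonneg hx.2 hy.2⟩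
  have addp : ∀ {x y}, x ∈ C ∧ 0 ≤ x → y ∈ C ∧ 0 ≤ y → x + y ∈ C ∧ 0 ≤ x + y :=
    fun hx hy => ⟨add_mem hx.1 hy.1, add_nonneg hx.2 hy.2⟩
  have sq : ∀ {x}, x ∈ C ∧ 0 ≤ x → ∃ r, r ∈ C ∧ IsSelfAdjoint r ∧ r * r = x := fun hx => by
    obtain ⟨r, h1, h2, h3⟩ := exists_sqrt hx.2
    exact ⟨r, mk fun y p q => h3 y (use hx.1 p q), h1, h2⟩
  set T := γ * H * H + γ' * h * h * (1 - γ * H * H) with hT
  have pT : T ∈ C ∧ 0 ≤ T := addp ⟨ma, a0⟩ (mulp ⟨ma', a0'⟩ ⟨m1 ma, a1⟩)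
  have pT1 : 1 + T ∈ C ∧ 0 ≤ 1 + T := addp ⟨one_mem _, zero_le_one⟩ pT
  obtain ⟨α, mα, sα, hα⟩ := sq (mulp ⟨mγ, γ0⟩ (addp ⟨m1 mb, b1⟩ (mulp ⟨mb', b0'⟩ ⟨mb, b0⟩)))
  obtain ⟨β, mβ, sβ, hβ⟩ := sq (mulp ⟨mγ', γ0'⟩ (addp ⟨m1 ma, a1⟩
    (mulp ⟨ma, a0⟩ (mulp ⟨m1 mb', b1'⟩ ⟨mb, b0⟩))))
  obtain ⟨k, mk₁, sk, hk⟩ := sq (mulp (mulp ⟨m1 ma, a1⟩ ⟨md, d0⟩) (mulp ⟨m1 ma', a1'⟩ pT1))
  obtain ⟨k', mk', sk', hk'⟩ := sq (mulp ⟨m1 ma, a1⟩ (mulp ⟨m1 ma', a1'⟩ pT1))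
  have cΦ : ∀ {x}, x ∈ C → ∀ i j, Commute x (Φ i j) := fun hx i j =>
    use hx (hS.oz.comm i j) (ho.comm' fun k l => (c1 i j k l).symm)
  have cφ : ∀ {x}, x ∈ C → ∀ i j, Commute x (φ i j) := fun hx i j =>
    use hx (hS.oz.comm' fun k l => c1 k l i j) (ho.comm i j)
  have i1 : α * H * (α * H) + β * h * (β * h) = T := congrArg Subtype.val
    (id1 (R := C) ⟨H, mH⟩ ⟨h, mh⟩ ⟨γ, mγ⟩ ⟨d, md⟩ ⟨γ', mγ'⟩ ⟨d', md'⟩ ⟨α, mα⟩ ⟨β, mβ⟩
      (Subtype.ext ab') (Subtype.ext hα) (Subtype.ext hβ))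
  have i2 : k * (1 - H * H) * k = 1 - T * T := congrArg Subtype.val
    (id2 (R := C) ⟨H, mH⟩ ⟨h, mh⟩ ⟨γ, mγ⟩ ⟨d, md⟩ ⟨γ', mγ'⟩ ⟨k, mk₁⟩ (Subtype.ext ab) ⟨T, pT.1⟩
      (Subtype.ext hT) (Subtype.ext hk))
  have i3 : (1 - γ * H * H) * ((1 - γ' * h * h) * (1 + T)) = 1 - T * T := congrArg Subtype.val
    (id3 (R := C) ⟨H, mH⟩ ⟨h, mh⟩ ⟨γ, mγ⟩ ⟨γ', mγ'⟩ ⟨T, pT.1⟩ (Subtype.ext hT))
  have i4 : k' * ((1 - d * (1 - H * H)) * (1 - d * (1 - H * H))) * k' = 0 := congrArg Subtype.val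
    (id4 (R := C) ⟨H, mH⟩ ⟨γ, mγ⟩ ⟨d, md⟩ ⟨k', mk'⟩ (Subtype.ext ab) ⟨_, (mulp ⟨m1 ma', a1'⟩ pT1).1⟩
      (Subtype.ext hk'))
  have i5 : (1 - γ * H * H) * d * ((1 - γ' * h * h) * (1 + T))
      = (1 - γ * H * H) * d * (1 + T) * (1 - γ' * h * h) := congrArg Subtype.val
    (id5 (R := C) ⟨H, mH⟩ ⟨h, mh⟩ ⟨γ, mγ⟩ ⟨d, md⟩ ⟨γ', mγ'⟩ ⟨_, pT1.1⟩)
  have hO := (hS.oz.scale sα (cΦ mα)).flip (ho.scale sβ (cφ mβ)) fun i j k l =>
    ((cc mα mβ).mul_right (cφ mα k l)).mul_left ((cΦ mβ i j).symm.mul_right (c1 i j k l))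
  rw [i1] at hO
  have hact : ∀ y, (α * H * (α * Φ i₀ i₀) + β * h * (β * φ i₀ i₀) + Complex.I •
      (∑ l, α * Φ i₀ l * (β * φ l i₀) - ∑ l, β * φ i₀ l * (α * Φ l i₀))) * y
      = H * (Φ i₀ i₀ * (α * (α * y))) + h * (φ i₀ i₀ * (β * (β * y))) + Complex.I •
      (∑ l, Φ i₀ l * (φ l i₀ * (α * (β * y))) - ∑ l, φ i₀ l * (Φ l i₀ * (α * (β * y)))) := by
    intro y
    simp only [add_mul, sub_mul, smul_mul_assoc, Finset.sum_mul, mul_assoc, (cc mα mH).left_comm,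
      (cΦ mα _ _).left_comm, (cφ mα _ _).left_comm, (cc mβ mh).left_comm, (cΦ mβ _ _).left_comm,
      (cφ mβ _ _).left_comm, (cc mβ mα).left_comm]
  have Hz : ∀ l k, H * z l k = z l k := fun l k => hS.oz.fix (hS.fix l k)
  have hζ' : ∀ k, h * ζ k = ζ k := fun k => ho.fix (hf k)
  have bz : ∀ l k, d * (1 - H * H) * z l k = 0 := fun l k => by
    rw [mul_assoc, sub_mul 1 (H * H), mul_assoc H, Hz, Hz]; simp
  have pz : ∀ l k, (1 - γ * H * H) * z l k = 0 := fun l k => by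
    rw [← ab, mul_assoc (1 - _), bz, mul_zero]
  have bζ : ∀ k, d' * (1 - h * h) * ζ k = 0 := fun k => by
    rw [mul_assoc, sub_mul 1 (h * h), mul_assoc h, hζ', hζ']; simp
  have pζ : ∀ k, (1 - γ' * h * h) * ζ k = 0 := fun k => by
    rw [← ab', mul_assoc (1 - _), bζ, mul_zero]
  have γz : ∀ l k, γ * z l k = z l k := fun l k => by
    have := pz l k
    rw [sub_mul, mul_assoc, mul_assoc, Hz, Hz, one_mul, sub_eq_zero] at this
    exact this.symm
  have γζ : ∀ k, γ' * ζ k = ζ k := fun k => by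
    have := pζ k
    rw [sub_mul, mul_assoc, mul_assoc, hζ', hζ', one_mul, sub_eq_zero] at this
    exact this.symm
  have cHζ : ∀ k, Commute H (ζ k) := fun k => hS.oz.comm' fun i j => c3 i j k
  have cbζ : ∀ k, Commute (d * (1 - H * H)) (ζ k) := fun k => (cH _ (cHζ k)).2.mul_left
    ((Commute.one_left _).sub_left ((cHζ k).mul_left (cHζ k)))
  have bk : d * (1 - H * H) * k' = k' := by
    have s1 : IsSelfAdjoint (1 - d * (1 - H * H)) := IsSelfAdjoint.of_nonneg b1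
    have : (1 - d * (1 - H * H)) * k' = 0 := eq_zero_of_star_mul (by
      rw [star_mul, s1.star_eq, sk'.star_eq, ← i4]; simp only [mul_assoc])
    rw [sub_mul, one_mul, sub_eq_zero] at this
    exact this.symm
  have bζk : ∀ j, d * (1 - H * H) * (ζ j * k') = ζ j * k' := fun j => by
    rw [(cbζ j).left_comm, bk]
  have kζ : ∀ j, k * ζ j = 0 := fun j => sa_mul_eq_zero sk (by
    rw [hk, i5, mul_assoc, pζ, mul_zero])
  have o1 : ∀ l j j', star (z l j * k) * (ζ j' * k') = 0 := fun l j j' => by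
    rw [star_mul, sk.star_eq, mul_assoc, (c4 l j j').left_comm, ← mul_assoc, kζ, zero_mul]
  refine ⟨_, T, fun o j => o.elim (ζ j * k') fun l => z l j * k, hO, ?_, ?_, ?_, ?_⟩
  · rw [CStarAlgebra.norm_le_one_iff_of_nonneg _ pT.2, ← sub_nonneg]
    have : 1 - T = (1 - γ' * h * h) * (1 - γ * H * H) := by rw [hT]; noncomm_ring
    rw [this]
    exact (mulp ⟨m1 ma', a1'⟩ ⟨m1 ma, a1⟩).2
  · rintro (_ | l) j
    · have q1 : α * (ζ j * k') = 0 := sa_mul_eq_zero sα (by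
        rw [hα, mul_assoc, add_mul, sub_mul, mul_assoc _ (d * _), bζk, ← mul_assoc (d' * _) (ζ j), bζ]
        simp)
      have q2 : β * (β * (ζ j * k')) = ζ j * k' := by
        rw [← mul_assoc, hβ, mul_assoc, add_mul, mul_assoc (γ * H * H), mul_assoc _ (d * _), bζk,
          sub_mul 1 (d' * _), ← mul_assoc (d' * _) (ζ j), bζ, zero_mul, sub_zero, one_mul, sub_mul,
          one_mul, sub_add_cancel, ← mul_assoc, γζ]
      change _ * (ζ j * k') = ζ j * k'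
      rw [hact, (cc mα mβ).left_comm, q1, q2, ← mul_assoc (φ _ _), hf, ← mul_assoc h, hζ']
      simp
    · have q1 : β * (z l j * k) = 0 := by
        rw [← mul_assoc, sa_mul_eq_zero sβ, zero_mul]
        rw [hβ, mul_assoc, add_mul, pz, mul_assoc (γ * H * H), mul_assoc _ (d * _), bz]
        simp
      have q2 : α * (α * (z l j * k)) = z l j * k := by
        rw [← mul_assoc, ← mul_assoc, hα, mul_assoc γ, add_mul, sub_mul, mul_assoc _ (d * _), bz]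
        simp [γz]
      change _ * (z l j * k) = z l j * k
      rw [hact, q1, q2, ← mul_assoc (Φ _ _), hS.fix, ← mul_assoc H, Hz]
      simp
  · rintro (_ | l)
    · have : ∀ j, star (ζ j * k') * (ζ j * k') = k' * (star (ζ j) * ζ j) * k' := fun j => by
        simp only [star_mul, sk'.star_eq, mul_assoc]
      simp only [Option.elim, this, ← Finset.sum_mul, ← Finset.mul_sum, hζ, mul_one, hk', i3]
    · have : ∀ j, star (z l j * k) * (z l j * k) = k * (star (z l j) * z l j) * k := fun j => by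
        simp only [star_mul, sk.star_eq, mul_assoc]
      simp only [Option.elim, this, ← Finset.sum_mul, ← Finset.mul_sum, hS.sum, i2]
  · rintro (_ | l) (_ | l') hne j j'
    · exact (hne rfl).elim
    · have := congrArg star (o1 l' j' j)
      rwa [star_mul, star_star, star_zero] at this
    · exact o1 l j j'
    · change star (z l j * k) * (z l' j' * k) = 0
      rw [star_mul, mul_assoc, ← mul_assoc (star (z l j)), hS.orth l l' fun e => hne (congrArg _ e)]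
      simp

/-- A class of C*-algebras inside which commuting copies can be found. -/
structure Cls where
  G : ∀ (B : Type u) [CStarAlgebra B], Prop
  comb : ∀ (D₁ D₂ : Type u) [CStarAlgebra D₁] [CStarAlgebra D₂], G D₁ → G D₂ →
    ∃ (B : Type u) (_ : CStarAlgebra B) (θ₁ : D₁ →⋆ₐ[ℂ] B) (θ₂ : D₂ →⋆ₐ[ℂ] B), G B ∧
      ∀ x y, Commute (θ₁ x) (θ₂ y)
  copies : ∀ (D : Type u) [CStarAlgebra D], G D → ∀ N : ℕ,
    ∃ (B : Type u) (_ : CStarAlgebra B) (θ : Fin N → D →⋆ₐ[ℂ] B), G B ∧ Copies θ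

section
variable {D₁ D₂ : Type u} [CStarAlgebra D₁] [CStarAlgebra D₂] {θ₁ : D₁ →⋆ₐ[ℂ] B} {θ₂ : D₂ →⋆ₐ[ℂ] B}

theorem slice_mem (hc : ∀ x y, Commute (θ₁ x) (θ₂ y)) {x : D₁} {y : D₂} (hy : Full y)
    {I : TwoSidedIdeal B} (h : θ₁ x * θ₂ y ∈ I) : θ₁ x ∈ I := by
  obtain ⟨ρ, _, u, w, huw⟩ := hy.exists_sum
  have : θ₁ x = ∑ r, θ₂ (u r) * (θ₁ x * θ₂ y) * θ₂ (w r) := by
    conv_lhs => rw [← mul_one (θ₁ x), ← map_one θ₂, ← huw, map_sum, Finset.mul_sum]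
    refine Finset.sum_congr rfl fun r _ => ?_
    simp only [map_mul, mul_assoc, (hc x _).left_comm]
  rw [this]
  exact sum_mem fun r _ => I.mul_mem_right _ _ (I.mul_mem_left _ _ h)

theorem full_mul (hc : ∀ x y, Commute (θ₁ x) (θ₂ y)) {x : D₁} {y : D₂} (hx : Full x) (hy : Full y) :
    Full (θ₁ x * θ₂ y) := fun I hI => hx.map θ₁ I (slice_mem hc hy hI)

end

namespace Cls
variable (𝒞 : Cls.{u})

/-- two orthogonal full elements -/
def Two : Prop := ∃ (B : Type u) (_ : CStarAlgebra B), 𝒞.G B ∧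
  ∃ g h : B, IsSelfAdjoint g ∧ IsSelfAdjoint h ∧ g * h = 0 ∧ Full g ∧ Full h

variable {𝒞}

theorem two {D : Type u} [CStarAlgebra D] (hG : 𝒞.G D) {κ : Type} [Fintype κ] (c : κ → D)
    (hc : ∀ k, IsSelfAdjoint (c k))
    (hD : ∀ (Q : Type u) [CStarAlgebra Q] [Nontrivial Q] (π : D →⋆ₐ[ℂ] Q),
      ∃ k, ∀ z : ℂ, π (c k) ≠ algebraMap ℂ Q z) : 𝒞.Two := by
  obtain ⟨N, hN⟩ := step1 c hc hD
  obtain ⟨B, _, θ, hB, hθ⟩ := 𝒞.copies D hG N
  obtain ⟨x, hx, hf⟩ := hN B θ hθ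
  obtain ⟨M, hM⟩ := step2.{u} hx hf
  obtain ⟨B', _, θ', hB', hθ'⟩ := 𝒞.copies B hB M
  exact ⟨B', _, hB', hM B' θ' hθ'⟩

theorem many (h : 𝒞.Two) (M : ℕ) : ∃ (B : Type u) (_ : CStarAlgebra B), 𝒞.G B ∧
    ∃ G : Fin M → B, (∀ i, IsSelfAdjoint (G i)) ∧ (∀ i j, i ≠ j → G i * G j = 0) ∧ ∀ i, Full (G i) := by
  obtain ⟨D, _, hD, g, h, sg, sh, hgh, fg, fh⟩ := h
  have hhg : h * g = 0 := by
    have := congrArg star hgh
    rwa [star_mul, sg.star_eq, sh.star_eq, star_zero] at this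
  induction M with
  | zero => exact ⟨D, _, hD, fun i => i.elim0, fun i => i.elim0, fun i => i.elim0, fun i => i.elim0⟩
  | succ M ih =>
    obtain ⟨D', _, hD', G, sG, oG, fG⟩ := ih
    obtain ⟨B, _, θ₁, θ₂, hB, hc⟩ := 𝒞.comb D' D hD' hD
    refine ⟨B, _, hB, Fin.cons (θ₂ h) fun i => θ₁ (G i) * θ₂ g, ?_, ?_, ?_⟩
    · refine Fin.cases (sh.map _) fun i => ?_
      exact ((sG i).map θ₁).commute_iff (sg.map θ₂) |>.1 (hc _ _)
    · refine Fin.cases (Fin.cases (fun h => (h rfl).elim) fun j _ => ?_) fun i =>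
        Fin.cases (fun _ => ?_) fun j hij => ?_
      · simp only [Fin.cons_zero, Fin.cons_succ]
        rw [← (hc _ _).left_comm, ← map_mul, hhg, map_zero, mul_zero]
      · simp only [Fin.cons_zero, Fin.cons_succ]
        rw [mul_assoc, ← map_mul, hgh, map_zero, mul_zero]
      · simp only [Fin.cons_succ]
        rw [mul_assoc, ← (hc _ _).left_comm, ← mul_assoc, ← map_mul,
          oG i j fun e => hij (congrArg _ e), map_zero, zero_mul]
    · exact Fin.cases (fh.map θ₂) fun i => full_mul hc (fG i) fg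

theorem nil (h2 : 𝒞.Two) : ∃ (B : Type u) (_ : CStarAlgebra B), 𝒞.G B ∧
    ∃ z : B, z * z = 0 ∧ Full z := by
  classical
  obtain ⟨D, _, hD, g, h, sg, sh, hgh, fg, fh⟩ := id h2
  obtain ⟨ρ, _, u, w, huw⟩ := fg.exists_sum
  obtain ⟨D', _, hD', G', sG, oG, fG⟩ := many h2 (Fintype.card ρ)
  let G : ρ → D' := fun r => G' (Fintype.equivFin ρ r)
  obtain ⟨B, _, θ₁, θ₂, hB, hc⟩ := 𝒞.comb D D' hD hD'
  refine ⟨B, _, hB, ∑ r, θ₁ (h * u r * g) * θ₂ (G r), ?_, fun I hI => fh.map θ₁ I ?_⟩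
  · rw [Finset.sum_mul_sum]
    refine Finset.sum_eq_zero fun r _ => Finset.sum_eq_zero fun r' _ => ?_
    rw [mul_assoc, ← (hc _ _).left_comm, ← mul_assoc, ← map_mul, mul_assoc _ g,
      mul_assoc h (u r'), ← mul_assoc g, hgh]
    simp
  · have : θ₁ h = ∑ r, θ₁ (h * u r * g) * θ₁ (w r) := by
      conv_lhs => rw [← mul_one h, ← huw, Finset.mul_sum, map_sum]
      simp only [← map_mul, mul_assoc]
    rw [this]
    refine sum_mem fun r _ => I.mul_mem_right _ _ (slice_mem hc (fG _).star_mul_self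
      (y := star (G r) * G r) ?_)
    have h1 := I.mul_mem_right _ (θ₂ (G r)) hI
    rw [Finset.sum_mul, Finset.sum_eq_single r] at h1
    · rw [(sG _).star_eq]
      rwa [mul_assoc, ← map_mul] at h1
    · intro r' _ hr
      rw [mul_assoc, ← map_mul, oG _ _ fun e => hr ((Fintype.equivFin ρ).injective e), map_zero,
        mul_zero]
    · simp

theorem sys (h2 : 𝒞.Two) (n : ℕ) : ∃ (B : Type u) (_ : CStarAlgebra B), 𝒞.G B ∧
    ∃ (v : Fin (n + 1) → B) (a : B), Sys v a ∧ Full a := by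
  obtain ⟨D, _, hD, z, hz, fz⟩ := nil h2
  induction n with
  | zero =>
    exact ⟨D, _, hD, fun _ => 1, 1, fun i j => by simp [Fin.fin_one_eq_zero i, Fin.fin_one_eq_zero j], fun I hI => hI⟩
  | succ n ih =>
    obtain ⟨D', _, hD', v, a, hv, fa⟩ := ih
    obtain ⟨B, _, θ₁, θ₂, hB, hc⟩ := 𝒞.comb D' D hD' hD
    letI := CStarAlgebra.spectralOrder D
    haveI := CStarAlgebra.spectralOrderedRing D
    obtain ⟨r, sr, hr, -⟩ := exists_sqrt (star_mul_self_nonneg z)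
    have h1 : r * z = 0 := sa_mul_eq_zero sr (by rw [hr, mul_assoc, hz, mul_zero])
    have h2 : star z * r = 0 := by
      have := congrArg star h1
      rwa [star_mul, sr.star_eq, star_zero] at this
    have key : ∀ x y p q, star (θ₁ x * θ₂ p) * (θ₁ y * θ₂ q) = θ₁ (star x * y) * θ₂ (star p * q) :=
      fun x y p q => by
        simp only [star_mul, ← map_star, map_mul, mul_assoc, ← (hc _ _).left_comm]
    refine ⟨B, _, hB, Fin.cons (θ₁ (v 0) * θ₂ r) fun i => θ₁ (v i) * θ₂ z,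
      θ₁ a * θ₂ (star z * z), ?_, full_mul hc fa fz.star_mul_self⟩
    refine Fin.cases (Fin.cases ?_ fun j => ?_) fun i => Fin.cases ?_ fun j => ?_
    · simp only [Fin.cons_zero, key, hv 0 0, if_true, sr.star_eq, hr]
    · simp only [Fin.cons_zero, Fin.cons_succ, key, sr.star_eq, h1, map_zero, mul_zero,
        (Fin.succ_ne_zero j).symm, if_false]
    · simp only [Fin.cons_zero, Fin.cons_succ, key, h2, map_zero, mul_zero,
        Fin.succ_ne_zero i, if_false]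
    · simp only [Fin.cons_succ, key, hv i j, Fin.succ_inj]
      split_ifs <;> simp

theorem base (h2 : 𝒞.Two) (i₀ : ι) : ∃ (B : Type u) (_ : CStarAlgebra B), 𝒞.G B ∧
    ∃ (φ : ι → ι → B) (H : B) (κ : Type) (_ : Fintype κ) (z : κ → B), OZ φ H ∧ ‖H‖ ≤ 1 ∧
      (∀ k, φ i₀ i₀ * z k = z k) ∧ ∑ k, star (z k) * z k = 1 := by
  obtain ⟨B, _, hB, v, a, hv, fa⟩ := sys h2 (Fintype.card ι)
  let e : ι → Fin (Fintype.card ι + 1) := fun i => (Fintype.equivFin ι i).succ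
  have he : ∀ i j, e i = e j ↔ i = j := fun i j => by simp [e]
  exact ⟨B, _, hB, Sys.base (v := fun i => v (e i)) (fun i j => by simp only [hv _ _, he]) fa i₀⟩

theorem tele {D : Type u} [CStarAlgebra D] (hD : 𝒞.G D) {i₀ : ι} {φ : ι → ι → D} {h : D} {κ : Type}
    [Fintype κ] {ζ : κ → D} (ho : OZ φ h) (hn : ‖h‖ ≤ 1) (hf : ∀ k, φ i₀ i₀ * ζ k = ζ k)
    (hζ : ∑ k, star (ζ k) * ζ k = 1) (n : ℕ) : ∃ (B : Type u) (_ : CStarAlgebra B), 𝒞.G B ∧
    ∃ (Φ : ι → ι → B) (H : B) (z : Fin n → κ → B), St i₀ Φ H z := by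
  induction n with
  | zero => exact ⟨D, _, hD, φ, h, fun i => i.elim0, ho, hn, fun i => i.elim0, fun i => i.elim0,
      fun i => i.elim0⟩
  | succ n ih =>
    obtain ⟨D', _, hD', Φ, H, z, hS⟩ := ih
    obtain ⟨B, _, θ₁, θ₂, hB, hc⟩ := 𝒞.comb D' D hD' hD
    obtain ⟨Φ', H', z', hS'⟩ := tele_step (Φ := fun i j => θ₁ (Φ i j)) (H := θ₁ H)
      (z := fun j k => θ₁ (z j k)) (ζ := fun k => θ₂ (ζ k)) (i₀ := i₀)
      ⟨hS.oz.map θ₁, (NonUnitalStarAlgHom.norm_apply_le θ₁ H).trans hS.nm,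
        fun j k => by rw [← map_mul, hS.fix],
        fun j => by simpa [map_star] using congrArg θ₁ (hS.sum j),
        fun j j' hj k k' => by rw [← map_star, ← map_mul, hS.orth j j' hj, map_zero]⟩
      (ho.map θ₂) ((NonUnitalStarAlgHom.norm_apply_le θ₂ h).trans hn)
      (fun k => by rw [← map_mul, hf]) (by simpa [map_star] using congrArg θ₂ hζ)
      (fun _ _ _ _ => hc _ _) (fun _ _ _ _ => (hc _ _).symm) (fun _ _ _ => hc _ _)
      fun _ _ _ => by rw [← map_star]; exact hc _ _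
    exact ⟨B, _, hB, Φ', H', fun j => z' (finSuccEquiv n j), hS'.oz, hS'.nm, fun j => hS'.fix _,
      fun j => hS'.sum _, fun j j' hj => hS'.orth _ _ fun e => hj ((finSuccEquiv n).injective e)⟩

theorem rw_rel (h2 : 𝒞.Two) (i₀ : ι) : ∃ (B : Type u) (_ : CStarAlgebra B), 𝒞.G B ∧
    ∃ (v : ι → B) (a s : B), Sys v a ∧ star s * s = 1 - ∑ i, v i * star (v i) ∧ a * s = s := by
  classical
  obtain ⟨D, _, hD, φ, h, κ, _, ζ, ho, hn, hf, hζ⟩ := base h2 i₀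
  obtain ⟨D₀, _, hD₀, ψ, g, L, _, y, go, -, gf, hy⟩ := base h2 (none : Option κ)
  obtain ⟨D₁, _, hD₁, Φ, H, z, hS⟩ := tele hD ho hn hf hζ (Fintype.card L)
  obtain ⟨B, _, θ₁, θ₂, hB, hc⟩ := 𝒞.comb D₁ D₀ hD₁ hD₀
  let e := Fintype.equivFin L
  let w : L → κ → D₀ := fun l k => ψ (some k) none * y l
  have hw : ∀ l k k', star (w l k) * w l k' = if k = k' then star (y l) * y l else 0 := by
    intro l k k'
    simp only [w, star_mul, go.st]
    rw [mul_assoc, ← mul_assoc (ψ _ _), go.mul]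
    by_cases hk : k = k'
    · rw [if_pos (congrArg _ hk), if_pos hk, mul_assoc, gf, go.fix (gf l)]
    · rw [if_neg fun e => hk (Option.some_injective _ e), if_neg hk, zero_mul, mul_zero]
  have key : ∀ x y p q, star (θ₁ x * θ₂ p) * (θ₁ y * θ₂ q) = θ₁ (star x * y) * θ₂ (star p * q) :=
    fun x y p q => by
      simp only [star_mul, ← map_star, map_mul, mul_assoc, ← (hc _ _).left_comm]
  refine ⟨B, _, hB, fun i => θ₁ (Φ i i₀), θ₁ (H * Φ i₀ i₀),
    ∑ l, ∑ k, θ₁ (z (e l) k) * θ₂ (w l k), fun i j => ?_, ?_, ?_⟩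
  · rw [← map_star, ← map_mul, hS.oz.st, hS.oz.mul]; split_ifs <;> simp
  · have h1 : ∑ i, θ₁ (Φ i i₀) * star (θ₁ (Φ i i₀)) = θ₁ (H * H) := by
      simp only [← map_star, ← map_mul, hS.oz.st, hS.oz.mul, if_true, ← map_sum, ← Finset.mul_sum,
        hS.oz.sum]
    rw [h1, star_sum, Finset.sum_mul_sum]
    have h2 : ∀ l l', star (∑ k, θ₁ (z (e l) k) * θ₂ (w l k)) * ∑ k, θ₁ (z (e l') k) * θ₂ (w l' k)
        = if l = l' then θ₁ (1 - H * H) * θ₂ (star (y l) * y l) else 0 := fun l l' => by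
      rw [star_sum, Finset.sum_mul_sum]
      simp only [key]
      split_ifs with hl
      · subst hl
        simp only [hw, apply_ite θ₂, map_zero, mul_ite, mul_zero, Finset.sum_ite_eq,
          Finset.mem_univ, if_true, ← Finset.sum_mul, ← map_sum, hS.sum]
      · simp [hS.orth _ _ fun h => hl (e.injective h)]
    simp only [h2, Finset.sum_ite_eq, Finset.mem_univ, if_true, ← Finset.mul_sum, ← map_sum, hy]
    simp
  · simp only [Finset.mul_sum, ← mul_assoc, ← map_mul]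
    simp only [mul_assoc, hS.fix, hS.oz.fix (hS.fix _ _)]

end Cls

end Vale.Agent.P101
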