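import Vale.Agent.P101.Simple

/-! Commuting copies in simple quotients and the generic tensor. -/

namespace Vale.Agent.P101

universe u

/-- Pairwise commuting copies of `D` which generate `B`. -/
structure Copies {D B I : Type*} [CStarAlgebra D] [CStarAlgebra B] (θ : I → D →⋆ₐ[ℂ] B) : Prop where
  comm : ∀ i j, i ≠ j → ∀ x y, Commute (θ i x) (θ j y)
  gen : ∀ S : StarSubalgebra ℂ B, IsClosed (S : Set B) → (∀ i x, θ i x ∈ S) → ∀ y, y ∈ S

variable {D : Type*} {B Q : Type u} {I : Type*} [CStarAlgebra D] [CStarAlgebra B] [CStarAlgebra Q]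

theorem Copies.map {θ : I → D →⋆ₐ[ℂ] B} (h : Copies θ) (π : B →⋆ₐ[ℂ] Q)
    (hs : Function.Surjective π) : Copies fun i => π.comp (θ i) where
  comm i j hij x y := (h.comm i j hij x y).map π
  gen S hS hm y := by
    obtain ⟨y, rfl⟩ := hs y
    exact h.gen (S.comap π) (hS.preimage (cont π)) hm y

theorem Copies.sandwich {θ : I → D →⋆ₐ[ℂ] Q} (h : Copies θ) (i : I) {κ : Type*} [Fintype κ]
    (a b : κ → Q) (ha : ∀ k j, j ≠ i → ∀ x, Commute (a k) (θ j x))
    (hb : ∀ k x, Commute (b k) (θ i x)) (h0 : ∑ k, a k * b k = 0) (y : Q) :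
    ∑ k, a k * y * b k = 0 := by
  let P : Q → Prop := fun y => ∀ x, ∑ k, a k * (θ i x * y) * b k = 0
  have Padd : ∀ y z, P y → P z → P (y + z) := fun y z hy hz x => by
    simp only [mul_add, add_mul, Finset.sum_add_distrib, hy x, hz x, add_zero]
  have Psmul : ∀ (c : ℂ) y, P y → P (c • y) := fun c y hy x => by
    simp only [mul_smul_comm, smul_mul_assoc, ← Finset.smul_sum, hy x, smul_zero]
  have Pθ : ∀ j x' y, P y → P (θ j x' * y) := fun j x' y hy x => by
    by_cases hj : j = i
    · subst hj
      simpa only [map_mul, mul_assoc] using hy (x * x')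
    · have : ∀ k, a k * (θ i x * (θ j x' * y)) * b k = θ j x' * (a k * (θ i x * y) * b k) := by
        intro k
        rw [← mul_assoc (θ i x), (h.comm i j (Ne.symm hj) x x').eq, mul_assoc (θ j x'),
          ← mul_assoc (a k), (ha k j hj x').eq]
        simp only [mul_assoc]
      simp only [this, ← Finset.mul_sum, hy x, mul_zero]
  let S : StarSubalgebra ℂ Q :=
    { carrier := {g | ∀ y, P y → P (g * y) ∧ P (star g * y)}
      mul_mem' := fun {g g'} hg hg' y hy => ⟨by rw [mul_assoc]; exact (hg _ (hg' y hy).1).1,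
        by rw [star_mul, mul_assoc]; exact (hg' _ (hg y hy).2).2⟩
      add_mem' := fun {g g'} hg hg' y hy => ⟨by rw [add_mul]; exact Padd _ _ (hg y hy).1 (hg' y hy).1,
        by rw [star_add, add_mul]; exact Padd _ _ (hg y hy).2 (hg' y hy).2⟩
      algebraMap_mem' := fun c y hy => ⟨by rw [← Algebra.smul_def]; exact Psmul _ _ hy,
        by rw [← algebraMap_star_comm, ← Algebra.smul_def]; exact Psmul _ _ hy⟩
      star_mem' := fun {g} hg y hy => ⟨(hg y hy).2, by rw [star_star]; exact (hg y hy).1⟩ }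
  have hS : IsClosed (S : Set Q) := by
    have : (S : Set Q) = ⋂ y, ⋂ _ : P y, (⋂ x, {g | ∑ k, a k * (θ i x * (g * y)) * b k = 0}) ∩
        ⋂ x, {g | ∑ k, a k * (θ i x * (star g * y)) * b k = 0} := by
      ext g
      simp only [Set.mem_iInter, Set.mem_inter_iff, Set.mem_setOf_eq]
      rfl
    rw [this]
    refine isClosed_iInter fun y => isClosed_iInter fun _ => IsClosed.inter
      (isClosed_iInter fun x => isClosed_eq (by fun_prop) continuous_const)
      (isClosed_iInter fun x => isClosed_eq (by fun_prop) continuous_const)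
  have h1 : P 1 := fun x => by
    have : ∀ k, a k * (θ i x * 1) * b k = a k * b k * θ i x := fun k => by
      rw [mul_one, mul_assoc, ← (hb k x).eq, mul_assoc]
    simp only [this, ← Finset.sum_mul, h0, zero_mul]
  have := (h.gen S hS (fun j x y hy => ⟨Pθ j x y hy, by rw [← map_star]; exact Pθ j _ y hy⟩) y 1 h1).1 1
  simpa using this

theorem li_sandwich [IsSimpleRing Q] {ι : Type*} [DecidableEq ι] {e : ι → Q}
    (he : LinearIndependent ℂ e) (s : Finset ι) :
    ∀ b : ι → Q, (∀ y, ∑ j ∈ s, e j * y * b j = 0) → ∀ j ∈ s, b j = 0 := by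
  induction s using Finset.strongInduction with
  | H s ih =>
  intro b hb j₀ hj₀
  by_contra hne
  obtain ⟨ρ, _, u, w, huw⟩ := (full_of_ne hne).exists_sum
  let b' : ι → Q := fun j => ∑ r, u r * b j * w r
  have hb' : ∀ y, ∑ j ∈ s, e j * y * b' j = 0 := fun y => by
    simp only [b', Finset.mul_sum]
    rw [Finset.sum_comm]
    refine Finset.sum_eq_zero fun r _ => ?_
    have := congrArg (· * w r) (hb (y * u r))
    simpa only [Finset.sum_mul, zero_mul, mul_assoc] using this
  have hc : ∀ j ∈ s, ∀ q, b' j * q = q * b' j := fun j hj q => by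
    by_cases hjj : j = j₀
    · subst hjj
      simp only [b', huw, one_mul, mul_one]
    · refine (sub_eq_zero.1 (ih (s.erase j₀) (Finset.erase_ssubset hj₀)
        (fun j => q * b' j - b' j * q) (fun y => ?_) j (Finset.mem_erase.2 ⟨hjj, hj⟩))).symm
      rw [Finset.sum_erase _ (by simp only [b', huw, one_mul, mul_one, sub_self, mul_zero])]
      have h1 := hb' (y * q)
      have h2 := congrArg (· * q) (hb' y)
      simp only [Finset.sum_mul, zero_mul, mul_assoc] at h1 h2
      simp only [mul_sub, Finset.sum_sub_distrib, mul_assoc, h1, h2, sub_self]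
  choose! β hβ using fun j hj => center_scalar (hc j hj)
  have h3 : ∑ j ∈ s, β j • e j = 0 := by
    rw [← hb' 1]
    refine Finset.sum_congr rfl fun j hj => ?_
    rw [hβ j hj, mul_one, ← Algebra.commutes, Algebra.smul_def]
  have h4 := linearIndependent_iff'.1 he s β h3 j₀ hj₀
  have h5 := hβ j₀ hj₀
  rw [h4, map_zero] at h5
  exact one_ne_zero (huw.symm.trans h5)

theorem slice [IsSimpleRing Q] {κ : Type*} [Fintype κ] (a b : κ → Q)
    (h : ∀ y, ∑ k, a k * y * b k = 0) (ℓ : Q →ₗ[ℂ] ℂ) : ∑ k, ℓ (a k) • b k = 0 := by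
  classical
  let e := Module.Basis.ofVectorSpace ℂ Q
  let s := Finset.univ.biUnion fun k => (e.repr (a k)).support
  have ha : ∀ k, a k = ∑ j ∈ s, e.repr (a k) j • e j := fun k => by
    conv_lhs => rw [← e.linearCombination_repr (a k)]
    rw [Finsupp.linearCombination_apply, Finsupp.sum_of_support_subset _ (s := s)
      (fun j hj => Finset.mem_biUnion.2 ⟨k, Finset.mem_univ _, hj⟩) _ (by simp)]
  have h1 := li_sandwich e.linearIndependent s (fun j => ∑ k, e.repr (a k) j • b k) fun y => by
    rw [← h y]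
    simp only [Finset.mul_sum]
    rw [Finset.sum_comm]
    refine Finset.sum_congr rfl fun k _ => ?_
    conv_rhs => rw [ha k]
    simp only [Finset.sum_mul, mul_smul_comm, smul_mul_assoc]
  calc ∑ k, ℓ (a k) • b k = ∑ k, ∑ j ∈ s, ℓ (e j) • e.repr (a k) j • b k := by
        refine Finset.sum_congr rfl fun k _ => ?_
        conv_lhs => rw [ha k]
        simp only [map_sum, map_smul, Finset.sum_smul, smul_smul, smul_eq_mul, mul_comm]
    _ = ∑ j ∈ s, ℓ (e j) • ∑ k, e.repr (a k) j • b k := by
        rw [Finset.sum_comm]; simp only [Finset.smul_sum]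
    _ = 0 := Finset.sum_eq_zero fun j hj => by rw [h1 j hj, smul_zero]

theorem generic (κ : Type) [Fintype κ] : ∃ (N : ℕ) (C : (Fin N → Option κ) → ℝ),
    ∀ (j : Fin N → κ) (μ : Fin N → Bool → Option κ → ℝ),
      (∀ i, μ i false none = 1 ∧ μ i false (some (j i)) = 0 ∧ μ i true none = 0 ∧
        μ i true (some (j i)) = 1) →
      ∃ T : Fin N → Bool, (∃ i, T i = true) ∧ ∑ J, C J * ∏ i, μ i (T i) (J i) ≠ 0 := by
  classical
  set k := Fintype.card κ with hk
  set N := 2 * (4 * (k + 1)) with hN
  have hlt : N * (2 * (k + 1)) < 2 ^ N - 1 := by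
    have h1 : 4 * (k + 1) + 1 ≤ 2 ^ (4 * (k + 1)) := Nat.lt_two_pow_self
    have h2 : 2 ^ N = 2 ^ (4 * (k + 1)) * 2 ^ (4 * (k + 1)) := by rw [hN, two_mul, pow_add]
    have h3 := Nat.mul_le_mul h1 h1
    have : N * (2 * (k + 1)) + 1 < 2 ^ N := by rw [h2, hN]; nlinarith
    omega
  refine ⟨N, ?_⟩
  let piv : (Fin N → κ) → (Fin N → Bool) → Fin N → Option κ :=
    fun j T i => if T i then some (j i) else none
  have hpiv : ∀ j T i, (piv j T i).isSome = T i := fun j T i => by
    simp only [piv]; cases T i <;> simp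
  have hinj : ∀ j, Function.Injective (piv j) := fun j T T' h => by
    ext i; rw [← hpiv j T i, h, hpiv]
  let P : (Fin N → κ) → Finset (Fin N → Option κ) :=
    fun j => (Finset.univ.erase fun _ => false).image (piv j)
  have hP : ∀ j, (P j).card = 2 ^ N - 1 := fun j => by
    rw [Finset.card_image_of_injective _ (hinj j), Finset.card_erase_of_mem (Finset.mem_univ _)]
    simp
  let f : ∀ j : Fin N → κ, (Fin N → Bool → Option κ → ℝ) × ({J // J ∉ P j} → ℝ) →
      (Fin N → Option κ) → ℝ := fun j p J =>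
    if h : J ∈ P j then -∑ J' : {J // J ∉ P j}, p.2 J' * ∏ i, p.1 i (J i).isSome (J'.1 i)
    else p.2 ⟨J, h⟩
  have hf : ∀ j, ContDiff ℝ 1 (f j) := fun j => by
    refine contDiff_pi.2 fun J => ?_
    by_cases h : J ∈ P j
    · simp only [f, dif_pos h]
      refine (ContDiff.sum fun J' _ => ContDiff.mul (by fun_prop) (contDiff_prod fun i _ => ?_)).neg
      fun_prop
    · simp only [f, dif_neg h]
      fun_prop
  have hdim : ∀ j, dimH (Set.range (f j)) <
      Module.finrank ℝ ((Fin N → Option κ) → ℝ) := fun j => by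
    refine (hf j).dimH_range_le.trans_lt ?_
    have hle : (P j).card ≤ Fintype.card (Fin N → Option κ) := Finset.card_le_univ _
    have h1 : Fintype.card {J // J ∉ P j} = Fintype.card (Fin N → Option κ) - (P j).card := by
      rw [Fintype.card_subtype_compl, Fintype.card_coe]
    have h2 : Module.finrank ℝ (Fin N → Bool → Option κ → ℝ) = N * (2 * (k + 1)) := by
      simp [Module.finrank_pi_fintype, hk]
    rw [Nat.cast_lt, Module.finrank_prod, h2, Module.finrank_fintype_fun_eq_card,
      Module.finrank_fintype_fun_eq_card, h1, hP]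
    rw [hP] at hle
    omega
  have hne : (⋃ j, Set.range (f j)) ≠ Set.univ := by
    intro h
    have h1 := dimH_iUnion fun j => Set.range (f j)
    rw [h, Real.dimH_univ_eq_finrank] at h1
    rcases isEmpty_or_nonempty (Fin N → κ) with he | he
    · rw [Set.iUnion_of_empty] at h
      exact Set.empty_ne_univ h
    · obtain ⟨j, hj⟩ := exists_eq_ciSup_of_finite (f := fun j => dimH (Set.range (f j)))
      exact (hdim j).ne (hj.trans h1.symm)
  obtain ⟨C, hC⟩ := (Set.ne_univ_iff_exists_notMem _).1 hne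
  refine ⟨C, fun j μ hμ => by_contra fun hcon => hC (Set.mem_iUnion.2 ⟨j, (μ, fun J => C J.1), ?_⟩)⟩
  push Not at hcon
  ext J
  by_cases h : J ∈ P j
  · simp only [f, dif_pos h]
    obtain ⟨T, hT, rfl⟩ := Finset.mem_image.1 h
    have hT' : ∃ i, T i = true := by
      by_contra hh
      push Not at hh
      exact (Finset.mem_erase.1 hT).1 (funext fun i => by simpa using hh i)
    have h1 := hcon T hT'
    rw [← Finset.sum_add_sum_compl (P j), Finset.sum_eq_single (piv j T)] at h1
    · have h2 : ∏ i, μ i (T i) (piv j T i) = 1 := Finset.prod_eq_one fun i _ => by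
        simp only [piv]
        cases T i
        · exact (hμ i).1
        · exact (hμ i).2.2.2
      rw [h2, mul_one, Finset.sum_subtype (P j)ᶜ (p := fun J => J ∉ P j) (by simp)] at h1
      simp only [hpiv]
      linarith
    · intro J' hJ' hne
      obtain ⟨T', -, rfl⟩ := Finset.mem_image.1 hJ'
      obtain ⟨i, hi⟩ := Function.ne_iff.1 fun h => hne (congrArg (piv j) h)
      rw [Finset.prod_eq_zero (Finset.mem_univ i), mul_zero]
      simp only [piv]
      revert hi
      cases T i <;> cases T' i <;> simp [hμ i]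
    · exact fun h' => (h' h).elim
  · simp only [f, dif_neg h]

end Vale.Agent.P101
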