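import Vale.Agent.P101.Defs
import Vale.Agent.P101.Tele

/-! Ultrapowers, reindexing and commuting copies in the central sequence algebra. -/

namespace Vale.Agent.P101

open Filter Topology BoundedContinuousFunction TopologicalSpace

universe u

section gen
variable {B : Type u} [CStarAlgebra B]

/-- generated closed star subalgebra -/
noncomputable def gen (s : Set B) : StarSubalgebra ℂ B := (StarAlgebra.adjoin ℂ s).topologicalClosure

instance (s : Set B) : IsClosed (gen s : Set B) := StarSubalgebra.isClosed_topologicalClosure _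

theorem sub_gen {s : Set B} {x : B} (hx : x ∈ s) : x ∈ gen s :=
  StarSubalgebra.le_topologicalClosure _ (StarAlgebra.subset_adjoin ℂ s hx)

theorem gen_le {s : Set B} {S : StarSubalgebra ℂ B} (hS : IsClosed (S : Set B)) (h : s ⊆ S) :
    gen s ≤ S := StarSubalgebra.topologicalClosure_minimal (StarAlgebra.adjoin_le h) hS

theorem gen_ind {s : Set B} (S : StarSubalgebra ℂ (gen s)) (hS : IsClosed (S : Set (gen s)))
    (h : ∀ x (hx : x ∈ s), (⟨x, sub_gen hx⟩ : gen s) ∈ S) (y : gen s) : y ∈ S := by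
  have hc : IsClosed ((S.map (gen s).subtype : StarSubalgebra ℂ B) : Set B) :=
    (inferInstance : IsClosed (gen s : Set B)).isClosedEmbedding_subtypeVal.isClosedMap _ hS
  obtain ⟨z, hz, e⟩ := gen_le hc (fun x hx => ⟨_, h x hx, rfl⟩) y.2
  rwa [← Subtype.ext e]

theorem sep_gen {s : Set B} (hs : IsSeparable s) : IsSeparable (gen s : Set B) := by
  obtain ⟨c, hc, hsc⟩ := hs
  have h1 : (c ∪ star c).Countable := hc.union (hc.preimage star_injective)
  have h2 : (Submonoid.closure (c ∪ star c) : Set B).Countable := by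
    haveI := h1.to_subtype
    refine (Set.countable_range fun l : List ↥(c ∪ star c) => (l.map Subtype.val).prod).mono ?_
    intro x hx
    obtain ⟨l, hl, rfl⟩ := Submonoid.exists_list_of_mem_closure hx
    exact ⟨l.attach.map fun y => ⟨y.1, hl _ y.2⟩, by simp⟩
  have h3 : IsSeparable (gen c : Set B) := by
    refine IsSeparable.closure ?_
    have := congrArg (fun p : Submodule ℂ B => (p : Set B)) (StarAlgebra.adjoin_eq_span (R := ℂ) c)
    exact (show (StarAlgebra.adjoin ℂ c : Set B) = _ from this) ▸ h2.isSeparable.span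
  exact h3.mono (gen_le inferInstance
    (hsc.trans (closure_minimal (fun x hx => sub_gen hx) inferInstance)))

theorem inv_hom {X Y D : Type*} [Ring X] [Ring Y] [Ring D] [Algebra ℂ X] [Algebra ℂ Y]
    [Algebra ℂ D] [StarRing X] [StarRing Y] [StarRing D] (j : X →⋆ₐ[ℂ] Y)
    (hj : Function.Injective j) (e : D →⋆ₐ[ℂ] Y) (h : ∀ f, ∃ x, j x = e f) :
    ∃ b : D →⋆ₐ[ℂ] X, ∀ f, j (b f) = e f := by
  choose b hb using h
  exact ⟨{ toFun := b
           map_one' := hj (by rw [hb, map_one, map_one])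
           map_mul' := fun x y => hj (by rw [map_mul, hb, hb, hb, map_mul])
           map_zero' := hj (by rw [hb, map_zero, map_zero])
           map_add' := fun x y => hj (by rw [map_add, hb, hb, hb, map_add])
           commutes' := fun c => hj (by rw [hb, AlgHomClass.commutes, AlgHomClass.commutes])
           map_star' := fun x => hj (by rw [map_star, hb, hb, map_star]) }, hb⟩

theorem exists_noncomm (h : IsEmpty (B →⋆ₐ[ℂ] ℂ)) : ∃ (κ : Type) (_ : Fintype κ) (u x y w : κ → B),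
    ∑ k, u k * (x k * y k - y k * x k) * w k = 1 := by
  let I : TwoSidedIdeal B := .mk'
    {z | ∃ (κ : Type) (_ : Fintype κ) (u x y w : κ → B),
      ∑ k, u k * (x k * y k - y k * x k) * w k = z}
    ⟨Empty, inferInstance, fun i => i.elim, fun i => i.elim, fun i => i.elim, fun i => i.elim, by simp⟩
    (by
      rintro _ _ ⟨ι, _, u, x, y, w, rfl⟩ ⟨κ, _, u', x', y', w', rfl⟩
      exact ⟨ι ⊕ κ, inferInstance, Sum.elim u u', Sum.elim x x', Sum.elim y y', Sum.elim w w',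
        by simp⟩)
    (by
      rintro _ ⟨ι, _, u, x, y, w, rfl⟩
      exact ⟨ι, inferInstance, fun i => -u i, x, y, w, by simp⟩)
    (by
      rintro a _ ⟨ι, _, u, x, y, w, rfl⟩
      exact ⟨ι, inferInstance, fun i => a * u i, x, y, w, by simp [Finset.mul_sum, mul_assoc]⟩)
    (by
      rintro _ a ⟨ι, _, u, x, y, w, rfl⟩
      exact ⟨ι, inferInstance, u, x, y, fun i => w i * a, by simp [Finset.sum_mul, mul_assoc]⟩)
  by_contra hne
  obtain ⟨Q, _, π, hs, _, hk⟩ := exists_simple_quot I (by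
    rw [TwoSidedIdeal.mem_mk']; exact hne)
  have hc : ∀ p q : Q, p * q = q * p := fun p q => by
    obtain ⟨p, rfl⟩ := hs p
    obtain ⟨q, rfl⟩ := hs q
    rw [← map_mul, ← map_mul, ← sub_eq_zero, ← map_sub]
    exact hk _ ((TwoSidedIdeal.mem_mk' _ _ _ _ _ _ _).2
      ⟨Unit, inferInstance, fun _ => 1, fun _ => p, fun _ => q, fun _ => 1, by simp⟩)
  obtain ⟨χ, -⟩ := inv_hom (StarAlgHom.ofId ℂ Q) (algebraMap ℂ Q).injective π fun f =>
    (center_scalar (hc (π f))).imp fun _ e => e.symm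
  exact h.false χ

end gen

theorem diag {V : Type*} [SeminormedAddCommGroup V] (ω : Ultrafilter ℕ) (S : Set (ℕ × ℕ →ᵇ V))
    (hS : IsSeparable S) (h : ∀ f ∈ S, ∀ m, Tendsto (fun n => ‖f (m, n)‖) ω (𝓝 0)) :
    ∃ k : ℕ → ℕ, ∀ f ∈ S, Tendsto (fun m => ‖f (m, k m)‖) atTop (𝓝 0) := by
  obtain ⟨c, hcS, hc, hSc⟩ := hS.exists_countable_dense_subset
  obtain ⟨g, hg⟩ := Set.countable_iff_exists_subset_range.1 hc
  have : ∀ m : ℕ, ∃ n, ∀ i ∈ Finset.range (m + 1), g i ∈ S → ‖g i (m, n)‖ < 1 / ((m : ℝ) + 1) := by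
    intro m
    refine Eventually.exists (f := (ω : Filter ℕ)) ((eventually_all_finset _).2 fun i _ => ?_)
    by_cases hi : g i ∈ S
    · filter_upwards [(h _ hi m).eventually (gt_mem_nhds Nat.one_div_pos_of_nat)] with n hn _ using hn
    · exact Eventually.of_forall fun n h' => (hi h').elim
  choose k hk using this
  refine ⟨k, fun f hf => Metric.tendsto_nhds.2 fun ε hε => ?_⟩
  obtain ⟨f', hf', hd⟩ := Metric.mem_closure_iff.1 (hSc hf) (ε / 2) (half_pos hε)
  obtain ⟨i, rfl⟩ := hg hf'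
  filter_upwards [eventually_ge_atTop i,
    tendsto_one_div_add_atTop_nhds_zero_nat.eventually (gt_mem_nhds (half_pos hε))] with m hm hm'
  have h1 := hk m i (Finset.mem_range.2 (Nat.lt_succ_of_le hm)) (hcS hf')
  have h2 := dist_coe_le_dist (f := f) (g := g i) (m, k m)
  rw [dist_eq_norm] at h2
  have h3 := norm_sub_norm_le (f (m, k m)) (g i (m, k m))
  rw [dist_zero_right, norm_norm]
  linarith

variable {A U : Type u} [CStarAlgebra A] [CStarAlgebra U]

/-- constant sequences -/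
noncomputable def cst : A →⋆ₐ[ℂ] (ℕ →ᵇ A) where
  toFun := BoundedContinuousFunction.const ℕ
  map_one' := rfl
  map_mul' _ _ := rfl
  map_zero' := rfl
  map_add' _ _ := rfl
  commutes' _ := by ext; simp [Algebra.algebraMap_eq_smul_one]
  map_star' _ := rfl

/-- reindexing of sequences -/
noncomputable def reidx (k : ℕ → ℕ) : (ℕ →ᵇ A) →⋆ₐ[ℂ] (ℕ →ᵇ A) where
  toFun a := a.compContinuous ⟨k, continuous_of_discreteTopology⟩
  map_one' := rfl
  map_mul' _ _ := rfl
  map_zero' := rfl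
  map_add' _ _ := rfl
  commutes' _ := rfl
  map_star' _ := rfl

theorem exists_ultra (ω : Ultrafilter ℕ) (A : Type u) [CStarAlgebra A] :
    ∃ (U : Type u) (_ : CStarAlgebra U) (π : (ℕ →ᵇ A) →⋆ₐ[ℂ] U), IsUltrapower ω π ∧
      ∀ x ε, 0 < ε → ∃ y, π y = 0 ∧ ‖x - y‖ < ‖π x‖ + ε := by
  have hb : ∀ a : ℕ →ᵇ A, IsBoundedUnder (· ≤ ·) (ω : Filter ℕ) (norm ∘ a) := fun a =>
    isBoundedUnder_of ⟨‖a‖, fun n => a.norm_coe_le_norm n⟩
  let I : TwoSidedIdeal (ℕ →ᵇ A) := .mk' {a | Tendsto a ω (𝓝 0)} tendsto_const_nhds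
    (fun hx hy => (Tendsto.add hx hy).trans (by rw [add_zero]))
    (fun hx => (Tendsto.neg hx).trans (by rw [neg_zero]))
    (fun {x _} hy => isBoundedUnder_le_mul_tendsto_zero (hb x) hy)
    (fun {_ y} hx => Tendsto.zero_mul_isBoundedUnder_le hx (hb y))
  have hI : ∀ a, a ∈ I ↔ Tendsto (fun n => ‖a n‖) ω (𝓝 0) := fun a => by
    exact (TwoSidedIdeal.mem_mk' _ _ _ _ _ _ _).trans tendsto_zero_iff_norm_tendsto_zero
  have hc : IsClosed (I : Set (ℕ →ᵇ A)) := by
    refine isClosed_of_closure_subset fun a ha => (hI a).2 (Metric.tendsto_nhds.2 fun ε hε => ?_)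
    obtain ⟨b, hb, hd⟩ := Metric.mem_closure_iff.1 ha (ε / 2) (half_pos hε)
    filter_upwards [((hI b).1 hb).eventually (gt_mem_nhds (half_pos hε))] with n hn
    have h2 := dist_coe_le_dist (f := a) (g := b) n
    rw [dist_eq_norm] at h2
    have h3 := norm_sub_norm_le (a n) (b n)
    rw [dist_zero_right, norm_norm]
    linarith
  obtain ⟨U, _, π, hs, hk, hn⟩ := exists_quot I hc
  exact ⟨U, _, π, ⟨hs, fun a => (hk a).trans (hI a)⟩, fun x ε hε =>
    (hn x ε hε).imp fun y hy => ⟨(hk y).2 hy.1, hy.2⟩⟩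

variable {ω : Ultrafilter ℕ} {π : (ℕ →ᵇ A) →⋆ₐ[ℂ] U}

instance : IsClosed (CentralSeqAlg π : Set U) := Set.isClosed_centralizer _

theorem mem_F {x : U} : x ∈ CentralSeqAlg π ↔ ∀ a, Commute (π (cst a)) x := by
  rw [CentralSeqAlg, StarSubalgebra.mem_centralizer_iff]
  constructor
  · exact fun h a => (h _ ⟨a, rfl⟩).1
  · rintro h _ ⟨a, rfl⟩
    refine ⟨h a, ?_⟩
    have := h (star a)
    rwa [map_star, map_star] at this

theorem cp [SeparableSpace A] (hω : (ω : Filter ℕ) ≤ cofinite) (hπ : IsUltrapower ω π)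
    {t : Set U} (ht : IsSeparable t) {D : Type u} [CStarAlgebra D] [SeparableSpace D]
    (φ : D →⋆ₐ[ℂ] CentralSeqAlg π) :
    ∃ θ : D →⋆ₐ[ℂ] CentralSeqAlg π, ∀ x ∈ t, ∀ y, Commute x (θ y : U) := by
  obtain ⟨c, hc, htc⟩ := ht
  let σ := Function.surjInv hπ.1
  have hσ : ∀ x, π (σ x) = x := Function.surjInv_eq hπ.1
  let E := gen (Set.range fun i => σ (φ (denseSeq D i)))
  have hE : IsSeparable (E : Set (ℕ →ᵇ A)) := sep_gen (Set.countable_range _).isSeparable
  have hEF : ∀ e ∈ E, π e ∈ CentralSeqAlg π := fun e he =>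
    gen_le (S := (CentralSeqAlg π).comap π)
      (IsClosed.preimage (t := (CentralSeqAlg π : Set U)) (cont π) inferInstance)
      (by rintro _ ⟨i, rfl⟩; change π _ ∈ CentralSeqAlg π; rw [hσ]; exact (φ _).2) he
  let T : Set (ℕ →ᵇ A) := σ '' c ∪ Set.range cst
  have hT : IsSeparable T := (hc.image _).isSeparable.union (isSeparable_range (cont _))
  let f1 : C(ℕ × ℕ, ℕ) := ⟨Prod.fst, continuous_fst⟩
  let f2 : C(ℕ × ℕ, ℕ) := ⟨Prod.snd, continuous_snd⟩
  let P : (ℕ →ᵇ A) × (ℕ →ᵇ A) → (ℕ × ℕ →ᵇ A) := fun p =>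
    p.2.compContinuous f1 * p.1.compContinuous f2 - p.1.compContinuous f2 * p.2.compContinuous f1
  have c1 := (continuous_compContinuous (β := A) f1).comp
    (continuous_snd (X := ℕ →ᵇ A) (Y := ℕ →ᵇ A))
  have c2 := (continuous_compContinuous (β := A) f2).comp
    (continuous_fst (X := ℕ →ᵇ A) (Y := ℕ →ᵇ A))
  obtain ⟨k, hk⟩ := diag ω (P '' (E ×ˢ T) ∪ (fun e => e.compContinuous f2) '' (E ∩ {e | π e = 0}))
    (((hE.prod hT).image ((c1.mul c2).sub (c2.mul c1))).union
      ((hE.mono Set.inter_subset_left).image (continuous_compContinuous f2))) (by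
    rintro _ (⟨⟨e, s⟩, ⟨he, -⟩, rfl⟩ | ⟨e, ⟨-, he⟩, rfl⟩) m
    · have := (mem_F.1 (hEF e he) (s m)).eq
      rw [← map_mul, ← map_mul, ← sub_eq_zero, ← map_sub] at this
      exact (hπ.2 _).1 this
    · exact (hπ.2 _).1 he)
  rw [Nat.cofinite_eq_atTop] at hω
  have k1 : ∀ e ∈ E, ∀ s ∈ T, Commute (π s) (π (reidx k e)) := fun e he s hs => by
    change _ = _
    rw [← map_mul, ← map_mul, ← sub_eq_zero, ← map_sub]
    exact (hπ.2 _).2 ((hk _ (Or.inl ⟨(e, s), ⟨he, hs⟩, rfl⟩)).mono_left hω)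
  have k2 : ∀ e ∈ E, π e = 0 → π (reidx k e) = 0 := fun e he h0 =>
    (hπ.2 _).2 ((hk _ (Or.inr ⟨e, ⟨he, h0⟩, rfl⟩)).mono_left hω)
  let q : E →⋆ₐ[ℂ] CentralSeqAlg π := ((π.comp (reidx k)).comp E.subtype).codRestrict _
    fun e => mem_F.2 fun a => k1 e e.2 _ (Or.inr ⟨a, rfl⟩)
  let p := π.comp E.subtype
  obtain ⟨θ, hθ⟩ := lift_hom p.rangeRestrict q (by rintro ⟨_, e, rfl⟩; exact ⟨e, rfl⟩)
    fun e he => Subtype.ext (k2 e e.2 (congrArg Subtype.val he))
  have hr : ∀ y, (φ y : U) ∈ p.range := fun y => (denseRange_denseSeq D).induction_on y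
    ((closed_range p).preimage (continuous_subtype_val.comp (cont φ)))
    fun i => ⟨⟨_, sub_gen ⟨i, rfl⟩⟩, hσ _⟩
  refine ⟨θ.comp (((CentralSeqAlg π).subtype.comp φ).codRestrict _ hr), fun x hx y => ?_⟩
  obtain ⟨e, he⟩ := hr y
  have : θ (((CentralSeqAlg π).subtype.comp φ).codRestrict _ hr y) = q e := by
    rw [← hθ]; congr 1; exact Subtype.ext he.symm
  rw [StarAlgHom.comp_apply, this]
  refine closure_minimal (s := c) (t := {x | x * (q e : U) = q e * x}) (fun z hz => ?_)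
    (isClosed_eq (by fun_prop) (by fun_prop)) (htc hx)
  have := k1 e e.2 _ (Or.inl ⟨z, hz, rfl⟩)
  rwa [hσ] at this

/-- separable algebras mapping into the central sequence algebra -/
def cls [SeparableSpace A] (hω : (ω : Filter ℕ) ≤ cofinite) (hπ : IsUltrapower ω π) : Cls.{u} where
  G B _ := SeparableSpace B ∧ Nonempty (B →⋆ₐ[ℂ] CentralSeqAlg π)
  comb D₁ D₂ _ _ := by
    rintro ⟨_, ⟨φ₁⟩⟩ ⟨_, ⟨φ₂⟩⟩
    obtain ⟨θ, hθ⟩ := cp hω hπ (isSeparable_range (continuous_subtype_val.comp (cont φ₁))) φ₂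
    exact ⟨gen (Set.range φ₁ ∪ Set.range θ), inferInstance,
      φ₁.codRestrict _ fun x => sub_gen (Or.inl ⟨x, rfl⟩),
      θ.codRestrict _ fun x => sub_gen (Or.inr ⟨x, rfl⟩),
      ⟨(sep_gen ((isSeparable_range (cont _)).union (isSeparable_range (cont _)))).separableSpace,
        ⟨StarSubalgebra.subtype _⟩⟩, fun x y => Subtype.ext (Subtype.ext (hθ _ ⟨x, rfl⟩ y))⟩
  copies D _ := by
    rintro ⟨_, ⟨φ⟩⟩ N
    have : ∃ θ : Fin N → D →⋆ₐ[ℂ] CentralSeqAlg π, ∀ i j, i ≠ j → ∀ x y, Commute (θ i x) (θ j y) := by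
      induction N with
      | zero => exact ⟨fun i => i.elim0, fun i => i.elim0⟩
      | succ N ih =>
        obtain ⟨θ, hθ⟩ := ih
        obtain ⟨θ', h'⟩ := cp hω hπ (IsSeparable.iUnion fun i =>
          isSeparable_range (continuous_subtype_val.comp (cont (θ i)))) φ
        have h'' : ∀ i x y, Commute (θ i x) (θ' y) := fun i x y =>
          Subtype.ext (h' _ (Set.mem_iUnion.2 ⟨i, x, rfl⟩) y)
        refine ⟨Fin.cons θ' θ, Fin.cases (Fin.cases (fun h => (h rfl).elim) fun j _ x y =>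
          (h'' j y x).symm) fun i => Fin.cases (fun _ x y => h'' i x y) fun j hij =>
          hθ i j fun e => hij (congrArg _ e)⟩
    obtain ⟨θ, hθ⟩ := this
    refine ⟨gen (⋃ i, Set.range (θ i)), inferInstance,
      fun i => (θ i).codRestrict _ fun x => sub_gen (Set.mem_iUnion.2 ⟨i, x, rfl⟩),
      ⟨(sep_gen (IsSeparable.iUnion fun i => isSeparable_range (cont _))).separableSpace,
        ⟨StarSubalgebra.subtype _⟩⟩, fun i j hij x y => Subtype.ext (hθ i j hij x y),
      fun S hS h => gen_ind S hS fun x hx => ?_⟩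
    obtain ⟨i, y, rfl⟩ := Set.mem_iUnion.1 hx
    exact h i y

theorem cls_two [SeparableSpace A] (hω : (ω : Filter ℕ) ≤ cofinite) (hπ : IsUltrapower ω π)
    (h : IsEmpty (CentralSeqAlg π →⋆ₐ[ℂ] ℂ)) : (cls hω hπ).Two := by
  obtain ⟨κ, _, u, x, y, w, h1⟩ := exists_noncomm h
  let s := Set.range u ∪ Set.range x ∪ Set.range y ∪ Set.range w
  have hs : s.Finite := by simp [s, Set.finite_range]
  let u' : κ → gen s := fun k => ⟨u k, sub_gen (by simp [s])⟩
  let x' : κ → gen s := fun k => ⟨x k, sub_gen (by simp [s])⟩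
  let y' : κ → gen s := fun k => ⟨y k, sub_gen (by simp [s])⟩
  let w' : κ → gen s := fun k => ⟨w k, sub_gen (by simp [s])⟩
  have h2 : ∑ k, u' k * (x' k * y' k - y' k * x' k) * w' k = 1 :=
    Subtype.ext (by rw [← (gen s).subtype_apply, map_sum]; exact h1)
  refine Cls.two (D := gen s) ⟨(sep_gen hs.isSeparable).separableSpace, ⟨StarSubalgebra.subtype _⟩⟩
    (Sum.elim (fun k => (realPart (x' k) : gen s)) fun k => (imaginaryPart (x' k) : gen s))
    (by rintro (k | k) <;> exact Subtype.prop _) fun Q _ _ ρ => ?_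
  by_contra hne
  push Not at hne
  have h3 : ∀ k, ρ (x' k * y' k - y' k * x' k) = 0 := fun k => by
    obtain ⟨a, ha⟩ := hne (Sum.inl k)
    obtain ⟨b, hb⟩ := hne (Sum.inr k)
    have : ρ (x' k) = algebraMap ℂ Q (a + Complex.I * b) := by
      rw [← realPart_add_I_smul_imaginaryPart (x' k), map_add, map_smul, map_add, map_mul,
        ← Algebra.smul_def]
      exact congrArg₂ _ ha (congrArg _ hb)
    rw [map_sub, map_mul, map_mul, this, Algebra.commutes, sub_self]
  have := congrArg ρ h2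
  simp only [map_sum, map_mul ρ _ (w' _), map_mul ρ (u' _), h3, mul_zero, zero_mul,
    Finset.sum_const_zero, map_one] at this
  exact zero_ne_one this

theorem rw_in_F [SeparableSpace A] (hω : (ω : Filter ℕ) ≤ cofinite) (hπ : IsUltrapower ω π)
    (h : IsEmpty (CentralSeqAlg π →⋆ₐ[ℂ] ℂ)) {ι : Type} [Fintype ι] [DecidableEq ι] (i₀ : ι) :
    ∃ (v : ι → CentralSeqAlg π) (a s : CentralSeqAlg π),
      Sys v a ∧ star s * s = 1 - ∑ i, v i * star (v i) ∧ a * s = s := by
  obtain ⟨B, _, ⟨-, ⟨φ⟩⟩, v, a, s, h1, h2, h3⟩ := Cls.rw_rel (cls_two hω hπ h) i₀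
  refine ⟨fun i => φ (v i), φ a, φ s, fun i j => ?_, by simpa [map_star] using congrArg φ h2,
    by rw [← map_mul, h3]⟩
  rw [← map_star, ← map_mul, h1]
  split_ifs <;> simp

end Vale.Agent.P101
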